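import Vale.Agent.P355.BaseF0
import Vale.Agent.P355.BaseF1
import Vale.Agent.P355.BaseF2
import Vale.Agent.P355.BaseF3
import Vale.Agent.P355.BaseF4
import Vale.Agent.P355.BaseF5

namespace Vale.Agent.P355

theorem apl_eq : allPerms = apl := by decide +kernel

theorem bg0_0 : ∀ j < 1, base.F 0 0 j := UpTo.all ⟨bf0_0_0, trivial⟩

theorem bh0 : ∀ i < 1, ∀ j < 1, base.F 0 i j := UpTo.all ⟨bg0_0, trivial⟩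

theorem bg1_0 : ∀ j < 4, base.F 1 0 j := UpTo.all ⟨bf1_0_3, ⟨bf1_0_2, ⟨bf1_0_1, ⟨bf1_0_0, trivial⟩⟩⟩⟩

theorem bg1_1 : ∀ j < 4, base.F 1 1 j := UpTo.all ⟨bf1_1_3, ⟨bf1_1_2, ⟨bf1_1_1, ⟨bf1_1_0, trivial⟩⟩⟩⟩

theorem bg1_2 : ∀ j < 4, base.F 1 2 j := UpTo.all ⟨bf1_2_3, ⟨bf1_2_2, ⟨bf1_2_1, ⟨bf1_2_0, trivial⟩⟩⟩⟩

theorem bg1_3 : ∀ j < 4, base.F 1 3 j := UpTo.all ⟨bf1_3_3, ⟨bf1_3_2, ⟨bf1_3_1, ⟨bf1_3_0, trivial⟩⟩⟩⟩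

theorem bh1 : ∀ i < 4, ∀ j < 4, base.F 1 i j := UpTo.all ⟨bg1_3, ⟨bg1_2, ⟨bg1_1, ⟨bg1_0, trivial⟩⟩⟩⟩

theorem bg2_0 : ∀ j < 6, base.F 2 0 j := UpTo.all ⟨bf2_0_5, ⟨bf2_0_4, ⟨bf2_0_3, ⟨bf2_0_2, ⟨bf2_0_1, ⟨bf2_0_0, trivial⟩⟩⟩⟩⟩⟩

theorem bg2_1 : ∀ j < 6, base.F 2 1 j := UpTo.all ⟨bf2_1_5, ⟨bf2_1_4, ⟨bf2_1_3, ⟨bf2_1_2, ⟨bf2_1_1, ⟨bf2_1_0, trivial⟩⟩⟩⟩⟩⟩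

theorem bg2_2 : ∀ j < 6, base.F 2 2 j := UpTo.all ⟨bf2_2_5, ⟨bf2_2_4, ⟨bf2_2_3, ⟨bf2_2_2, ⟨bf2_2_1, ⟨bf2_2_0, trivial⟩⟩⟩⟩⟩⟩

theorem bg2_3 : ∀ j < 6, base.F 2 3 j := UpTo.all ⟨bf2_3_5, ⟨bf2_3_4, ⟨bf2_3_3, ⟨bf2_3_2, ⟨bf2_3_1, ⟨bf2_3_0, trivial⟩⟩⟩⟩⟩⟩

theorem bg2_4 : ∀ j < 6, base.F 2 4 j := UpTo.all ⟨bf2_4_5, ⟨bf2_4_4, ⟨bf2_4_3, ⟨bf2_4_2, ⟨bf2_4_1, ⟨bf2_4_0, trivial⟩⟩⟩⟩⟩⟩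

theorem bg2_5 : ∀ j < 6, base.F 2 5 j := UpTo.all ⟨bf2_5_5, ⟨bf2_5_4, ⟨bf2_5_3, ⟨bf2_5_2, ⟨bf2_5_1, ⟨bf2_5_0, trivial⟩⟩⟩⟩⟩⟩

theorem bh2 : ∀ i < 6, ∀ j < 6, base.F 2 i j := UpTo.all ⟨bg2_5, ⟨bg2_4, ⟨bg2_3, ⟨bg2_2, ⟨bg2_1, ⟨bg2_0, trivial⟩⟩⟩⟩⟩⟩

theorem bg3_0 : ∀ j < 6, base.F 3 0 j := UpTo.all ⟨bf3_0_5, ⟨bf3_0_4, ⟨bf3_0_3, ⟨bf3_0_2, ⟨bf3_0_1, ⟨bf3_0_0, trivial⟩⟩⟩⟩⟩⟩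

theorem bg3_1 : ∀ j < 6, base.F 3 1 j := UpTo.all ⟨bf3_1_5, ⟨bf3_1_4, ⟨bf3_1_3, ⟨bf3_1_2, ⟨bf3_1_1, ⟨bf3_1_0, trivial⟩⟩⟩⟩⟩⟩

theorem bg3_2 : ∀ j < 6, base.F 3 2 j := UpTo.all ⟨bf3_2_5, ⟨bf3_2_4, ⟨bf3_2_3, ⟨bf3_2_2, ⟨bf3_2_1, ⟨bf3_2_0, trivial⟩⟩⟩⟩⟩⟩

theorem bg3_3 : ∀ j < 6, base.F 3 3 j := UpTo.all ⟨bf3_3_5, ⟨bf3_3_4, ⟨bf3_3_3, ⟨bf3_3_2, ⟨bf3_3_1, ⟨bf3_3_0, trivial⟩⟩⟩⟩⟩⟩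

theorem bg3_4 : ∀ j < 6, base.F 3 4 j := UpTo.all ⟨bf3_4_5, ⟨bf3_4_4, ⟨bf3_4_3, ⟨bf3_4_2, ⟨bf3_4_1, ⟨bf3_4_0, trivial⟩⟩⟩⟩⟩⟩

theorem bg3_5 : ∀ j < 6, base.F 3 5 j := UpTo.all ⟨bf3_5_5, ⟨bf3_5_4, ⟨bf3_5_3, ⟨bf3_5_2, ⟨bf3_5_1, ⟨bf3_5_0, trivial⟩⟩⟩⟩⟩⟩

theorem bh3 : ∀ i < 6, ∀ j < 6, base.F 3 i j := UpTo.all ⟨bg3_5, ⟨bg3_4, ⟨bg3_3, ⟨bg3_2, ⟨bg3_1, ⟨bg3_0, trivial⟩⟩⟩⟩⟩⟩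

theorem bg4_0 : ∀ j < 3, base.F 4 0 j := UpTo.all ⟨bf4_0_2, ⟨bf4_0_1, ⟨bf4_0_0, trivial⟩⟩⟩

theorem bg4_1 : ∀ j < 3, base.F 4 1 j := UpTo.all ⟨bf4_1_2, ⟨bf4_1_1, ⟨bf4_1_0, trivial⟩⟩⟩

theorem bg4_2 : ∀ j < 3, base.F 4 2 j := UpTo.all ⟨bf4_2_2, ⟨bf4_2_1, ⟨bf4_2_0, trivial⟩⟩⟩

theorem bh4 : ∀ i < 3, ∀ j < 3, base.F 4 i j := UpTo.all ⟨bg4_2, ⟨bg4_1, ⟨bg4_0, trivial⟩⟩⟩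

theorem bg5_0 : ∀ j < 8, base.F 5 0 j := UpTo.all ⟨bf5_0_7, ⟨bf5_0_6, ⟨bf5_0_5, ⟨bf5_0_4, ⟨bf5_0_3, ⟨bf5_0_2, ⟨bf5_0_1, ⟨bf5_0_0, trivial⟩⟩⟩⟩⟩⟩⟩⟩

theorem bg5_1 : ∀ j < 8, base.F 5 1 j := UpTo.all ⟨bf5_1_7, ⟨bf5_1_6, ⟨bf5_1_5, ⟨bf5_1_4, ⟨bf5_1_3, ⟨bf5_1_2, ⟨bf5_1_1, ⟨bf5_1_0, trivial⟩⟩⟩⟩⟩⟩⟩⟩

theorem bg5_2 : ∀ j < 8, base.F 5 2 j := UpTo.all ⟨bf5_2_7, ⟨bf5_2_6, ⟨bf5_2_5, ⟨bf5_2_4, ⟨bf5_2_3, ⟨bf5_2_2, ⟨bf5_2_1, ⟨bf5_2_0, trivial⟩⟩⟩⟩⟩⟩⟩⟩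

theorem bg5_3 : ∀ j < 8, base.F 5 3 j := UpTo.all ⟨bf5_3_7, ⟨bf5_3_6, ⟨bf5_3_5, ⟨bf5_3_4, ⟨bf5_3_3, ⟨bf5_3_2, ⟨bf5_3_1, ⟨bf5_3_0, trivial⟩⟩⟩⟩⟩⟩⟩⟩

theorem bg5_4 : ∀ j < 8, base.F 5 4 j := UpTo.all ⟨bf5_4_7, ⟨bf5_4_6, ⟨bf5_4_5, ⟨bf5_4_4, ⟨bf5_4_3, ⟨bf5_4_2, ⟨bf5_4_1, ⟨bf5_4_0, trivial⟩⟩⟩⟩⟩⟩⟩⟩

theorem bg5_5 : ∀ j < 8, base.F 5 5 j := UpTo.all ⟨bf5_5_7, ⟨bf5_5_6, ⟨bf5_5_5, ⟨bf5_5_4, ⟨bf5_5_3, ⟨bf5_5_2, ⟨bf5_5_1, ⟨bf5_5_0, trivial⟩⟩⟩⟩⟩⟩⟩⟩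

theorem bg5_6 : ∀ j < 8, base.F 5 6 j := UpTo.all ⟨bf5_6_7, ⟨bf5_6_6, ⟨bf5_6_5, ⟨bf5_6_4, ⟨bf5_6_3, ⟨bf5_6_2, ⟨bf5_6_1, ⟨bf5_6_0, trivial⟩⟩⟩⟩⟩⟩⟩⟩

theorem bg5_7 : ∀ j < 8, base.F 5 7 j := UpTo.all ⟨bf5_7_7, ⟨bf5_7_6, ⟨bf5_7_5, ⟨bf5_7_4, ⟨bf5_7_3, ⟨bf5_7_2, ⟨bf5_7_1, ⟨bf5_7_0, trivial⟩⟩⟩⟩⟩⟩⟩⟩

theorem bh5 : ∀ i < 8, ∀ j < 8, base.F 5 i j := UpTo.all ⟨bg5_7, ⟨bg5_6, ⟨bg5_5, ⟨bg5_4, ⟨bg5_3, ⟨bg5_2, ⟨bg5_1, ⟨bg5_0, trivial⟩⟩⟩⟩⟩⟩⟩⟩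

theorem bg6_0 : ∀ j < 4, base.F 6 0 j := UpTo.all ⟨bf6_0_3, ⟨bf6_0_2, ⟨bf6_0_1, ⟨bf6_0_0, trivial⟩⟩⟩⟩

theorem bg6_1 : ∀ j < 4, base.F 6 1 j := UpTo.all ⟨bf6_1_3, ⟨bf6_1_2, ⟨bf6_1_1, ⟨bf6_1_0, trivial⟩⟩⟩⟩

theorem bg6_2 : ∀ j < 4, base.F 6 2 j := UpTo.all ⟨bf6_2_3, ⟨bf6_2_2, ⟨bf6_2_1, ⟨bf6_2_0, trivial⟩⟩⟩⟩

theorem bg6_3 : ∀ j < 4, base.F 6 3 j := UpTo.all ⟨bf6_3_3, ⟨bf6_3_2, ⟨bf6_3_1, ⟨bf6_3_0, trivial⟩⟩⟩⟩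

theorem bh6 : ∀ i < 4, ∀ j < 4, base.F 6 i j := UpTo.all ⟨bg6_3, ⟨bg6_2, ⟨bg6_1, ⟨bg6_0, trivial⟩⟩⟩⟩

theorem bg7_0 : ∀ j < 2, base.F 7 0 j := UpTo.all ⟨bf7_0_1, ⟨bf7_0_0, trivial⟩⟩

theorem bg7_1 : ∀ j < 2, base.F 7 1 j := UpTo.all ⟨bf7_1_1, ⟨bf7_1_0, trivial⟩⟩

theorem bh7 : ∀ i < 2, ∀ j < 2, base.F 7 i j := UpTo.all ⟨bg7_1, ⟨bg7_0, trivial⟩⟩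

theorem bg8_0 : ∀ j < 3, base.F 8 0 j := UpTo.all ⟨bf8_0_2, ⟨bf8_0_1, ⟨bf8_0_0, trivial⟩⟩⟩

theorem bg8_1 : ∀ j < 3, base.F 8 1 j := UpTo.all ⟨bf8_1_2, ⟨bf8_1_1, ⟨bf8_1_0, trivial⟩⟩⟩

theorem bg8_2 : ∀ j < 3, base.F 8 2 j := UpTo.all ⟨bf8_2_2, ⟨bf8_2_1, ⟨bf8_2_0, trivial⟩⟩⟩

theorem bh8 : ∀ i < 3, ∀ j < 3, base.F 8 i j := UpTo.all ⟨bg8_2, ⟨bg8_1, ⟨bg8_0, trivial⟩⟩⟩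

theorem bg9_0 : ∀ j < 1, base.F 9 0 j := UpTo.all ⟨bf9_0_0, trivial⟩

theorem bh9 : ∀ i < 1, ∀ j < 1, base.F 9 i j := UpTo.all ⟨bg9_0, trivial⟩

theorem bh : ∀ l < 10, ∀ i < bnv l, ∀ j < bnv l, base.F l i j := UpTo.all ⟨bh9, ⟨bh8, ⟨bh7, ⟨bh6, ⟨bh5, ⟨bh4, ⟨bh3, ⟨bh2, ⟨bh1, ⟨bh0, trivial⟩⟩⟩⟩⟩⟩⟩⟩⟩⟩

theorem bc0 : allN (fun u => coarse base.nF base.KF (base.ka 0) (base.ka u) (base.ct 0 u)) base.nT = true := by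
  decide +kernel

theorem bc1 : allN (fun u => coarse base.nF base.KF (base.ka 1) (base.ka u) (base.ct 1 u)) base.nT = true := by
  decide +kernel

theorem bc2 : allN (fun u => coarse base.nF base.KF (base.ka 2) (base.ka u) (base.ct 2 u)) base.nT = true := by
  decide +kernel

theorem bc3 : allN (fun u => coarse base.nF base.KF (base.ka 3) (base.ka u) (base.ct 3 u)) base.nT = true := by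
  decide +kernel

theorem bc4 : allN (fun u => coarse base.nF base.KF (base.ka 4) (base.ka u) (base.ct 4 u)) base.nT = true := by
  decide +kernel

theorem bc5 : allN (fun u => coarse base.nF base.KF (base.ka 5) (base.ka u) (base.ct 5 u)) base.nT = true := by
  decide +kernel

theorem bc6 : allN (fun u => coarse base.nF base.KF (base.ka 6) (base.ka u) (base.ct 6 u)) base.nT = true := by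
  decide +kernel

theorem bc7 : allN (fun u => coarse base.nF base.KF (base.ka 7) (base.ka u) (base.ct 7 u)) base.nT = true := by
  decide +kernel

theorem bc8 : allN (fun u => coarse base.nF base.KF (base.ka 8) (base.ka u) (base.ct 8 u)) base.nT = true := by
  decide +kernel

theorem bc9 : allN (fun u => coarse base.nF base.KF (base.ka 9) (base.ka u) (base.ct 9 u)) base.nT = true := by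
  decide +kernel

theorem bc : ∀ t < 10, allN (fun u => coarse base.nF base.KF (base.ka t) (base.ka u) (base.ct t u)) base.nT = true :=
  UpTo.all ⟨bc9, ⟨bc8, ⟨bc7, ⟨bc6, ⟨bc5, ⟨bc4, ⟨bc3, ⟨bc2, ⟨bc1, ⟨bc0, trivial⟩⟩⟩⟩⟩⟩⟩⟩⟩⟩

theorem base_ok : base.OK := base.ok bnv apl apl_eq (by decide) (by decide +kernel) bh bc

end Vale.Agent.P355
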