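import Vale.Agent.P355.Sys
import Mathlib.Logic.Equiv.Fintype

/-! Moments averaged over all relabellings of the bases, and their positivity. -/

namespace Vale.Agent.P355

open Finset Equiv ComplexConjugate

namespace Sys

variable {ι : Type} [Fintype ι] [DecidableEq ι] (T : Sys ι)

noncomputable def W (x k l m : ι) (ds : List (ℤ × ℤ)) (v : Fin 6 → ℤ × ℤ) : ℝ :=
  ∑ σ : Perm ι, (T.P (σ x) (σ k) (σ l) (σ m) ds v).re

/-- the largest moment -/
noncomputable def top (ι : Type) [Fintype ι] [DecidableEq ι] : ℝ :=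
  (Fintype.card (Perm ι) : ℝ) * 155520

theorem top_pos : 0 < top ι := by
  have : 0 < Fintype.card (Perm ι) := Fintype.card_pos
  unfold top; positivity

variable {x k l m : ι}

theorem W_lab (τ : Perm ι) (ds : List (ℤ × ℤ)) (v : Fin 6 → ℤ × ℤ) :
    T.W (τ x) (τ k) (τ l) (τ m) ds v = T.W x k l m ds v :=
  Equiv.sum_comp (Equiv.mulRight τ) fun σ => (T.P (σ x) (σ k) (σ l) (σ m) ds v).re

theorem W_perm (ds : List (ℤ × ℤ)) (v : Fin 6 → ℤ × ℤ) (τ : Perm (Fin 6)) :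
    T.W x k l m ds (v ∘ τ) = T.W x k l m ds v := by
  simp only [W, T.P_perm]

theorem W_cons (hk : x ≠ k) (hl : x ≠ l) (hm : x ≠ m) (d : ℤ × ℤ) (ds : List (ℤ × ℤ))
    (v : Fin 6 → ℤ × ℤ) :
    T.W x k l m (d :: ds) v = ∑ r, T.W x k l m ds (Function.update v r (v r + d)) := by
  unfold W
  rw [sum_comm]
  refine sum_congr rfl fun σ _ => ?_
  rw [T.P_cons (σ.injective.ne hk) (σ.injective.ne hl) (σ.injective.ne hm), Complex.re_sum]

theorem W_s12 (v : Fin 6 → ℤ × ℤ) :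
    T.W x k l m [] v = T.W x l k m [] fun r => ((v r).2, (v r).1) :=
  sum_congr rfl fun _ _ => by rw [T.P_s12]

theorem W_s23 (v : Fin 6 → ℤ × ℤ) :
    T.W x k l m [] v = T.W x k m l [] fun r => ((v r).1, -(v r).1 - (v r).2) :=
  sum_congr rfl fun _ _ => by rw [T.P_s23]

theorem W_neg (hk : x ≠ k) (hl : x ≠ l) (hm : x ≠ m) (v : Fin 6 → ℤ × ℤ) :
    T.W x k l m [] v = T.W x k l m [] fun r => -v r :=
  sum_congr rfl fun σ _ => by
    rw [← T.P_neg (σ.injective.ne hk) (σ.injective.ne hl) (σ.injective.ne hm), Complex.conj_re]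

theorem W_z1 (k' : ι) {v : Fin 6 → ℤ × ℤ} (h : ∀ r, (v r).1 = 0) :
    T.W x k l m [] v = T.W x k' l m [] v :=
  sum_congr rfl fun σ _ => by rw [T.P_z1 (σ k') h]

theorem W_van (hk : x ≠ k) {v : Fin 6 → ℤ × ℤ} (h0 : (v 0).1 = -1) (h1 : (v 1).1 = 0)
    (h2 : (v 2).1 = 0) (h3 : (v 3).1 = 0) (h4 : (v 4).1 = 0) (h5 : (v 5).1 = 1) :
    T.W x k l m [] v = 0 :=
  sum_eq_zero fun σ _ => by rw [T.P_van (σ.injective.ne hk) h0 h1 h2 h3 h4 h5, Complex.zero_re]

theorem W_zero : T.W x k l m [] (fun _ => 0) = top ι := by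
  simp [W, T.P_zero, top]

theorem W_bound (hk : x ≠ k) (hl : x ≠ l) (hm : x ≠ m) (v : Fin 6 → ℤ × ℤ) :
    |T.W x k l m [] v| ≤ top ι := by
  refine (abs_sum_le_sum_abs _ _).trans ?_
  refine (sum_le_sum fun σ _ => (Complex.abs_re_le_norm _).trans
    (T.P_bound (σ.injective.ne hk) (σ.injective.ne hl) (σ.injective.ne hm) v)).trans ?_
  simp [top]

theorem W_A1 (hk : x ≠ k) (v : Fin 6 → ℤ × ℤ) :
    T.W x k l k [(-1, 0)] v = T.W x k l k [] fun r => (0, (v r).2) :=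
  sum_congr rfl fun σ _ => by rw [T.P_A1 (σ.injective.ne hk)]

theorem W_A2 (hk : x ≠ k) (hm : x ≠ m) (hkm : k ≠ m) (v : Fin 6 → ℤ × ℤ) :
    T.W x k l m [(-1, 0), (1, 0)] v = 6 * T.W x k l m [] v := by
  unfold W
  rw [mul_sum]
  refine sum_congr rfl fun σ _ => ?_
  rw [T.P_A2 (σ.injective.ne hk) (σ.injective.ne hm) (σ.injective.ne hkm)]
  simp

theorem W_33 (hk : x ≠ k) (a b c d : ℤ) :
    T.W x k k k (inc33 a b c d) (fun _ => 0) =
      T.W x k k k (inc33 (-a) (-c) (-b) (-d)) (fun _ => 0) := by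
  conv_rhs => rw [← T.W_lab (swap x k), swap_apply_left, swap_apply_right]
  exact sum_congr rfl fun σ _ => by rw [T.P_33 (σ.injective.ne hk)]

omit [Fintype ι] [DecidableEq ι] in
theorem pow_six (i E : ℕ) (z : ℂ) :
    (6 : ℝ) ^ i * (720 * (T.s : ℂ) ^ E * z).re = 720 * T.s ^ (2 * i + E) * z.re := by
  have : (720 * (T.s : ℂ) ^ E) = ((720 * T.s ^ E : ℝ) : ℂ) := by push_cast; rfl
  rw [this, Complex.re_ofReal_mul, pow_add, pow_mul, pow_two, T.hs]
  ring

theorem W_221 (hk : x ≠ k) (hm : x ≠ m) (hkm : k ≠ m) (a b c d : ℤ) {i j : ℕ}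
    (h : 2 * i + ((a + c).natAbs + (b + d).natAbs) =
      2 * j + ((-a + -b).natAbs + (-c + -d).natAbs)) :
    6 ^ i * T.W x k k m (inc221 a b c d) (fun _ => 0) =
      6 ^ j * T.W x k k m (inc221 (-a) (-c) (-b) (-d)) (fun _ => 0) := by
  conv_rhs => rw [← T.W_lab (swap x k), swap_apply_left, swap_apply_right,
    swap_apply_of_ne_of_ne hm.symm hkm.symm]
  unfold W
  rw [mul_sum, mul_sum]
  refine sum_congr rfl fun σ _ => ?_
  have h1 := σ.injective.ne hk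
  have h2 := σ.injective.ne hm
  have h3 := σ.injective.ne hkm
  rw [T.P_221 h1 h2 h3, T.P_221 h1.symm h3 h2, T.pow_six, T.pow_six, h, T.G221_swap h1]

theorem W_1 (hk : x ≠ k) (hl : x ≠ l) (hm : x ≠ m) (hkl : k ≠ l) (hkm : k ≠ m) (hlm : l ≠ m)
    (a b c : ℤ) {i j : ℕ}
    (h : 2 * i + (c.natAbs + ((a - c).natAbs + (b + c).natAbs)) =
      2 * j + (b.natAbs + ((-a - b).natAbs + (c + b).natAbs))) :
    6 ^ i * T.W x k l m (inc1 a b c) (fun _ => 0) =
      6 ^ j * T.W x k l m (inc1 (-a) c b) (fun _ => 0) := by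
  conv_rhs => rw [← T.W_lab (swap x k), swap_apply_left, swap_apply_right,
    swap_apply_of_ne_of_ne hm.symm hkm.symm, swap_apply_of_ne_of_ne hl.symm hkl.symm]
  unfold W
  rw [mul_sum, mul_sum]
  refine sum_congr rfl fun σ _ => ?_
  have h1 := σ.injective.ne hk
  have h2 := σ.injective.ne hl
  have h3 := σ.injective.ne hm
  have h4 := σ.injective.ne hkl
  have h5 := σ.injective.ne hkm
  have h6 := σ.injective.ne hlm
  rw [T.P_1 h1 h2 h3 h4 h5 h6, T.P_1 h1.symm h4 h5 h2 h3 h6, T.pow_six, T.pow_six, h,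
    T.G1_swap h1]

end Sys

/-- permutations preserving the rows of a Young diagram -/
def Rg (row : Fin 6 → ℕ) : Finset (Perm (Fin 6)) := univ.filter fun ρ => ∀ r, row (ρ r) = row r

abbrev Ms := List (ℝ × (Fin 6 → ℤ))

def ev (μ : Ms) (h : (Fin 6 → ℤ) → ℝ) : ℝ := (μ.map fun q => q.1 * h q.2).sum

noncomputable def evC (μ : Ms) (h : (Fin 6 → ℤ) → ℂ) : ℂ := (μ.map fun q => q.1 * h q.2).sum

theorem ev_nil (h : (Fin 6 → ℤ) → ℝ) : ev [] h = 0 := rfl

theorem ev_cons (q : ℝ × (Fin 6 → ℤ)) (μ : Ms) (h : (Fin 6 → ℤ) → ℝ) :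
    ev (q :: μ) h = q.1 * h q.2 + ev μ h := by simp [ev]

theorem evC_cons (q : ℝ × (Fin 6 → ℤ)) (μ : Ms) (h : (Fin 6 → ℤ) → ℂ) :
    evC (q :: μ) h = q.1 * h q.2 + evC μ h := by simp [evC]

theorem ev_sum {α : Type} (s : Finset α) (μ : Ms) (h : α → (Fin 6 → ℤ) → ℝ) :
    ev μ (fun β => ∑ a ∈ s, h a β) = ∑ a ∈ s, ev μ (h a) := by
  induction μ with
  | nil => simp [ev_nil]
  | cons q μ ih => simp only [ev_cons, ih, sum_add_distrib, mul_sum]

theorem ev_mul (c : ℝ) (μ : Ms) (h : (Fin 6 → ℤ) → ℝ) :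
    ev μ (fun β => c * h β) = c * ev μ h := by
  induction μ with
  | nil => simp [ev_nil]
  | cons q μ ih => simp only [ev_cons, ih]; ring

theorem ev_re (μ ν : Ms) (f g : (Fin 6 → ℤ) → ℂ) :
    (ev μ fun β => ev ν fun β' => (f β * conj (g β')).re) = (evC μ f * conj (evC ν g)).re := by
  have h1 : ∀ z : ℂ, (ev ν fun β' => (z * conj (g β')).re) = (z * conj (evC ν g)).re := by
    intro z
    induction ν with
    | nil => simp [ev_nil, evC]
    | cons q ν ih =>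
      rw [ev_cons, ih, evC_cons, map_add, mul_add, Complex.add_re, map_mul, Complex.conj_ofReal,
        mul_left_comm, Complex.re_ofReal_mul]
  simp only [h1]
  induction μ with
  | nil => simp [ev_nil, evC]
  | cons q μ ih =>
    rw [ev_cons, ih, evC_cons, add_mul, Complex.add_re, mul_assoc, Complex.re_ofReal_mul]

namespace Sys

variable {ι : Type} [Fintype ι] [DecidableEq ι] (T : Sys ι) {x k l m : ι}

noncomputable def G (x k l m : ι) (row : Fin 6 → ℕ) (β β' : Fin 6 → ℤ) : ℝ :=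
  ∑ ρ ∈ Rg row, T.W x k l m [] (pr β (β' ∘ ρ))

noncomputable def Bl (x k l m : ι) (row : Fin 6 → ℕ) (μ ν : Ms) : ℝ :=
  ev μ fun β => ev ν fun β' => T.G x k l m row β β'

noncomputable def A (x k l : ι) (row : Fin 6 → ℕ) (μ : Ms)
    (ω : Perm ι × Perm (Fin 6) × Fin 6) : ℂ :=
  evC μ fun β => ∑ ρ ∈ Rg row, T.ft (ω.1 x) (ω.1 k) (ω.1 l) ω.2.1 ω.2.2 (β ∘ ρ)

theorem G_gram (hk : x ≠ k) (hm : x ≠ m) (row : Fin 6 → ℕ) (β β' : Fin 6 → ℤ) :
    (Rg row).card * T.G x k l m row β β' = ∑ ω : Perm ι × Perm (Fin 6) × Fin 6,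
      ((∑ ρ ∈ Rg row, T.ft (ω.1 x) (ω.1 k) (ω.1 l) ω.2.1 ω.2.2 (β ∘ ρ)) *
        conj (∑ ρ ∈ Rg row, T.ft (ω.1 x) (ω.1 k) (ω.1 m) ω.2.1 ω.2.2 (β' ∘ ρ))).re := by
  have h1 : ∀ τ ∈ Rg row, T.G x k l m row β β' =
      ∑ ρ ∈ Rg row, T.W x k l m [] (pr (β ∘ τ) (β' ∘ ρ)) := by
    intro τ hτ
    have hτ' := (mem_filter.1 hτ).2
    refine sum_nbij' (fun ρ => ρ * τ) (fun ρ => ρ * τ⁻¹) (fun ρ h => ?_) (fun ρ h => ?_)
      (fun ρ _ => by simp) (fun ρ _ => by simp) fun ρ _ => ?_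
    · refine mem_filter.2 ⟨mem_univ _, fun r => ?_⟩
      rw [Perm.mul_apply, (mem_filter.1 h).2, hτ']
    · refine mem_filter.2 ⟨mem_univ _, fun r => ?_⟩
      rw [Perm.mul_apply, (mem_filter.1 h).2, ← hτ' (τ⁻¹ r)]
      simp
    · rw [← T.W_perm _ _ τ]; rfl
  rw [← nsmul_eq_mul, ← sum_const, sum_congr rfl h1]
  simp only [W, map_sum, sum_mul_sum, Complex.re_sum, Fintype.sum_prod_type]
  rw [sum_congr rfl fun τ _ => sum_comm, sum_comm]
  refine sum_congr rfl fun σ _ => ?_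
  simp only [T.P_pr (σ.injective.ne hk) (σ.injective.ne hm), Complex.re_sum]
  rw [sum_congr rfl fun τ _ => sum_comm, sum_comm]
  refine sum_congr rfl fun π _ => ?_
  rw [sum_congr rfl fun τ _ => sum_comm, sum_comm]

theorem Bl_gram (hk : x ≠ k) (hm : x ≠ m) (row : Fin 6 → ℕ) (μ ν : Ms) :
    (Rg row).card * T.Bl x k l m row μ ν =
      ∑ ω, (T.A x k l row μ ω * conj (T.A x k m row ν ω)).re := by
  unfold Bl A
  simp only [← ev_mul, T.G_gram hk hm, ev_sum, ev_re]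

theorem Bl_lab (τ : Perm ι) (row : Fin 6 → ℕ) (μ ν : Ms) :
    T.Bl (τ x) (τ k) (τ l) (τ m) row μ ν = T.Bl x k l m row μ ν := by
  simp only [Bl, G, T.W_lab]

theorem Rg_pos (row : Fin 6 → ℕ) : (0 : ℝ) < (Rg row).card := by
  have : (Rg row).Nonempty := ⟨1, mem_filter.2 ⟨mem_univ _, fun _ => rfl⟩⟩
  exact_mod_cast this.card_pos

theorem psd1 (hk : x ≠ k) (hl : x ≠ l) (hm : x ≠ m) (hkl : k ≠ l) (hkm : k ≠ m)
    (row : Fin 6 → ℕ) (ν : Ms) : 0 ≤ T.Bl x k l l row ν ν - T.Bl x k l m row ν ν := by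
  have e1 := T.Bl_lab (x := x) (k := k) (l := l) (m := l) (swap l m) row ν ν
  have e2 := T.Bl_lab (x := x) (k := k) (l := l) (m := m) (swap l m) row ν ν
  simp only [swap_apply_left, swap_apply_right, swap_apply_of_ne_of_ne hl hm,
    swap_apply_of_ne_of_ne hkl hkm] at e1 e2
  have h : 0 ≤ ((Rg row).card : ℝ) * (T.Bl x k l l row ν ν + T.Bl x k m m row ν ν -
      T.Bl x k l m row ν ν - T.Bl x k m l row ν ν) := by
    rw [mul_sub, mul_sub, mul_add, T.Bl_gram hk hl, T.Bl_gram hk hm, T.Bl_gram hk hm,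
      T.Bl_gram hk hl, ← sum_add_distrib, ← sum_sub_distrib, ← sum_sub_distrib]
    refine sum_nonneg fun ω _ => ?_
    generalize T.A x k l row ν ω = a
    generalize T.A x k m row ν ω = b
    simp only [Complex.mul_re, Complex.conj_re, Complex.conj_im]
    nlinarith [sq_nonneg (a.re - b.re), sq_nonneg (a.im - b.im)]
  have := nonneg_of_mul_nonneg_right h (Rg_pos row)
  linarith

theorem psd0 (hk : x ≠ k) (hl : x ≠ l) (hm : x ≠ m) (hkl : k ≠ l) (hkm : k ≠ m) (hlm : l ≠ m)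
    {K : ℕ} (hK : Fintype.card ι = K + 2) (row : Fin 6 → ℕ) (μ ν : Ms) :
    0 ≤ T.Bl x k k k row μ μ + K * T.Bl x k k l row μ ν + K * T.Bl x k l k row ν μ +
      K * T.Bl x k l l row ν ν + K * (K - 1) * T.Bl x k l m row ν ν := by
  set L : Finset ι := (univ.erase x).erase k with hL
  have cL : L.card = K := by
    rw [hL, card_erase_of_mem (by simp [hk.symm]), card_erase_of_mem (mem_univ _), card_univ, hK]
    rfl
  have mL : ∀ a ∈ L, x ≠ a ∧ k ≠ a := by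
    intro a ha
    simp only [hL, mem_erase] at ha
    exact ⟨ha.2.1.symm, ha.1.symm⟩
  have sw : ∀ a ∈ L, swap l a x = x ∧ swap l a k = k := fun a ha =>
    ⟨swap_apply_of_ne_of_ne hl (mL a ha).1, swap_apply_of_ne_of_ne hkl (mL a ha).2⟩
  have e1 : ∀ a ∈ L, T.Bl x k k a row μ ν = T.Bl x k k l row μ ν := fun a ha => by
    rw [← T.Bl_lab (l := k) (m := l) (swap l a), (sw a ha).1, (sw a ha).2, swap_apply_left]
  have e2 : ∀ a ∈ L, T.Bl x k a k row ν μ = T.Bl x k l k row ν μ := fun a ha => by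
    rw [← T.Bl_lab (l := l) (m := k) (swap l a), (sw a ha).1, (sw a ha).2, swap_apply_left]
  have e3 : ∀ a ∈ L, T.Bl x k a a row ν ν = T.Bl x k l l row ν ν := fun a ha => by
    rw [← T.Bl_lab (l := l) (m := l) (swap l a), (sw a ha).1, (sw a ha).2, swap_apply_left]
  have e4 : ∀ a ∈ L, ∀ b ∈ L.erase a, T.Bl x k a b row ν ν = T.Bl x k l m row ν ν := by
    intro a ha b hb
    have h1 := mL a ha
    have h2 := mL b (mem_of_mem_erase hb)
    have h3 := (ne_of_mem_erase hb).symm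
    have inj : ∀ {a b : ι}, x ≠ a → x ≠ b → k ≠ a → k ≠ b → a ≠ b →
        Function.Injective ![x, k, a, b] := by
      intro a b _ _ _ _ _ i j hij
      fin_cases i <;> fin_cases j <;> simp_all [eq_comm]
    obtain ⟨τ, hτ⟩ := Equiv.Perm.exists_extending_pair _ _ (inj hl hm hkl hkm hlm)
      (inj h1.1 h2.1 h1.2 h2.2 h3)
    have t0 : τ x = x := hτ 0
    have t1 : τ k = k := hτ 1
    have t2 : τ l = a := hτ 2
    have t3 : τ m = b := hτ 3
    rw [← T.Bl_lab (l := l) (m := m) τ, t0, t1, t2, t3]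
  have e5 : ∑ a ∈ L, ∑ b ∈ L, T.Bl x k a b row ν ν =
      K * T.Bl x k l l row ν ν + K * (K - 1) * T.Bl x k l m row ν ν := by
    have : ∀ a ∈ L, ∑ b ∈ L, T.Bl x k a b row ν ν =
        T.Bl x k l l row ν ν + (K - 1) * T.Bl x k l m row ν ν := by
      intro a ha
      rw [← add_sum_erase _ _ ha, e3 a ha, sum_congr rfl (e4 a ha), sum_const, nsmul_eq_mul,
        card_erase_of_mem ha, Nat.cast_pred (card_pos.2 ⟨a, ha⟩), cL]
    rw [sum_congr rfl this, sum_const, nsmul_eq_mul, cL]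
    ring
  have h : 0 ≤ ((Rg row).card : ℝ) * (T.Bl x k k k row μ μ + ∑ a ∈ L, T.Bl x k k a row μ ν +
      ∑ a ∈ L, T.Bl x k a k row ν μ + ∑ a ∈ L, ∑ b ∈ L, T.Bl x k a b row ν ν) := by
    simp only [mul_add, mul_sum]
    rw [T.Bl_gram hk hk, sum_congr rfl fun a ha => T.Bl_gram hk (mL a ha).1 row μ ν,
      sum_congr rfl fun a ha => T.Bl_gram (l := a) hk hk row ν μ,
      sum_congr rfl fun a ha => sum_congr rfl fun b hb =>
        T.Bl_gram (l := a) hk (mL b hb).1 row ν ν,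
      sum_congr rfl fun a (_ : a ∈ L) => sum_comm (s := L), sum_comm (s := L),
      sum_comm (s := L), sum_comm (s := L), ← sum_add_distrib, ← sum_add_distrib,
      ← sum_add_distrib]
    refine sum_nonneg fun ω _ => ?_
    have : 0 ≤ ((T.A x k k row μ ω + ∑ a ∈ L, T.A x k a row ν ω) *
        conj (T.A x k k row μ ω + ∑ a ∈ L, T.A x k a row ν ω)).re := by
      rw [Complex.mul_conj, Complex.ofReal_re]
      exact Complex.normSq_nonneg _
    rw [map_add, map_sum, add_mul, mul_add, mul_add, sum_mul_sum, mul_sum, sum_mul] at this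
    simp only [Complex.add_re, Complex.re_sum] at this
    linarith
  rw [sum_congr rfl e1, sum_congr rfl e2, e5, sum_const, sum_const, nsmul_eq_mul, nsmul_eq_mul,
    cL] at h
  have := nonneg_of_mul_nonneg_right h (Rg_pos row)
  linarith

end Sys

end Vale.Agent.P355
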