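import Vale.Agent.P355.Key
import Vale.Agent.P355.Mom
import Mathlib.Tactic.IntervalCases

/-! Moments indexed by numbers; canonical forms. -/

namespace Vale.Agent.P355

open Finset Equiv

structure Ctx (ι : Type) extends Sys ι where
  x : ι
  l1 : ι
  l2 : ι
  l3 : ι
  h01 : x ≠ l1
  h02 : x ≠ l2
  h03 : x ≠ l3
  h12 : l1 ≠ l2
  h13 : l1 ≠ l3
  h23 : l2 ≠ l3

def dec (x : ℕ) : ℤ × ℤ := (((x / 64 : ℕ) : ℤ) - 32, ((x % 64 : ℕ) : ℤ) - 32)

def zc (d : ℤ × ℤ) : ℕ := 64 * (d.1 + 16).toNat + (d.2 + 16).toNat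

def okd (d : ℤ × ℤ) : Bool := decide (-16 ≤ d.1 ∧ d.1 < 16 ∧ -16 ≤ d.2 ∧ d.2 < 16)

def Gd (x : ℕ) : Prop :=
  1 ≤ x / 64 ∧ x / 64 ≤ 63 ∧ 1 ≤ x % 64 ∧ 33 ≤ x / 64 + x % 64 ∧ x / 64 + x % 64 ≤ 95

noncomputable def good (x : ℕ) : Bool := an (Nat.blt 1040 x) (an (Nat.blt x 4096) (safe x))

theorem good_spec {x : ℕ} (h : good x = true) : Gd x := by
  rw [good, an_iff, an_iff] at h
  have h1 : 1040 < x := Nat.blt_eq.mp h.1
  have := safe_spec (Nat.blt_eq.mp h.2.1) h.2.2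
  unfold Gd; omega

def f12 (x : ℕ) : ℕ := Nat.add (Nat.mul 64 (Nat.mod x 64)) (Nat.div x 64)
def f23 (x : ℕ) : ℕ :=
  Nat.sub (Nat.add (Nat.sub x (Nat.mod x 64)) 96) (Nat.add (Nat.div x 64) (Nat.mod x 64))
def fng (x : ℕ) : ℕ := Nat.sub 4160 x
def a12 (p : ℕ) : ℕ := Nat.mod (Nat.shiftRight 271120 (Nat.mul 4 p)) 8
def a23 (p : ℕ) : ℕ := Nat.mod (Nat.shiftRight 274720 (Nat.mul 4 p)) 8

theorem f12_spec {x : ℕ} (h : Gd x) : Gd (f12 x) ∧ dec (f12 x) = ((dec x).2, (dec x).1) := by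
  have e : f12 x = 64 * (x % 64) + x / 64 := rfl
  unfold Gd at *
  simp only [dec, e, Prod.mk.injEq]
  have : x % 64 < 64 := Nat.mod_lt _ (by norm_num)
  generalize x / 64 = a at *
  generalize x % 64 = b at *
  omega

theorem f23_spec {x : ℕ} (h : Gd x) :
    Gd (f23 x) ∧ dec (f23 x) = ((dec x).1, -(dec x).1 - (dec x).2) := by
  have e : f23 x = x - x % 64 + 96 - (x / 64 + x % 64) := rfl
  unfold Gd at *
  simp only [dec, e, Prod.mk.injEq]
  omega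

theorem fng_spec {x : ℕ} (h : Gd x) : Gd (fng x) ∧ dec (fng x) = -dec x := by
  have e : fng x = 4160 - x := rfl
  unfold Gd at *
  simp only [dec, e, Prod.neg_mk, Prod.mk.injEq]
  omega

/-- the key all of whose exponents vanish -/
def ZK : ℕ := 2398662340505216616480

theorem rw6_ZK : rw6 ZK = fun _ => 2080 := by
  funext r; fin_cases r <;> rfl

namespace Ctx

variable {ι : Type} [Fintype ι] [DecidableEq ι] (T : Ctx ι)

def L2 (p : ℕ) : ι := if p < 2 then T.l1 else T.l2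
def L3 (p : ℕ) : ι := if p = 0 ∨ p = 2 then T.l1 else if p = 4 then T.l3 else T.l2

omit [Fintype ι] [DecidableEq ι] in
theorem hL2 (p : ℕ) : T.x ≠ T.L2 p := by
  unfold L2; split_ifs; exacts [T.h01, T.h02]

omit [Fintype ι] [DecidableEq ι] in
theorem hL3 (p : ℕ) : T.x ≠ T.L3 p := by
  unfold L3; split_ifs; exacts [T.h01, T.h03, T.h02]

noncomputable def Y (p : ℕ) (ds : List (ℤ × ℤ)) (e : Fin 6 → ℕ) : ℝ :=
  T.W T.x T.l1 (T.L2 p) (T.L3 p) ds (dec ∘ e)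

noncomputable def Yc (key : ℕ) : ℝ := T.Y (key % 8) [] (rw6 (key / 8))

theorem Y_sym (p : ℕ) (ds : List (ℤ × ℤ)) : Sym (T.Y p ds) :=
  sym_of_perm fun e π => T.W_perm ds (dec ∘ e) π

theorem Y_cons (p : ℕ) {d : ℤ × ℤ} (hd : okd d = true) (ds : List (ℤ × ℤ)) (e : Fin 6 → ℕ)
    (he : ∀ r, e r < 4096 ∧ safe (e r) = true) :
    T.Y p (d :: ds) e = ∑ r, T.Y p ds (Function.update e r (e r + zc d - 1040)) := by
  unfold Y
  rw [T.W_cons T.h01 (T.hL2 p) (T.hL3 p)]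
  refine sum_congr rfl fun r _ => ?_
  rw [Function.comp_update]
  congr 2
  have h1 := safe_spec (he r).1 (he r).2
  have h2 := of_decide_eq_true hd
  refine Prod.ext ?_ ?_ <;> simp only [dec, zc, Function.comp, Prod.fst_add, Prod.snd_add] <;> omega

theorem Y_12 (p : ℕ) (hp : p < 5) (e : Fin 6 → ℕ) (he : ∀ r, Gd (e r)) :
    T.Y (a12 p) [] (f12 ∘ e) = T.Y p [] e := by
  have e1 : dec ∘ f12 ∘ e = fun r => (((dec ∘ e) r).2, ((dec ∘ e) r).1) :=
    funext fun r => (f12_spec (he r)).2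
  unfold Y
  rw [e1, ← T.W_s12]
  have s0 := swap_apply_of_ne_of_ne T.h01 T.h02
  have s3 := swap_apply_of_ne_of_ne T.h13.symm T.h23.symm
  have s1 := swap_apply_left T.l1 T.l2
  have s2 := swap_apply_right T.l1 T.l2
  interval_cases p
  · rfl
  · rfl
  · change T.W T.x T.l2 T.l1 T.l2 _ _ = T.W T.x T.l1 T.l2 T.l1 _ _
    rw [← T.W_lab (swap T.l1 T.l2), s0, s1, s2]
  · change T.W T.x T.l2 T.l1 T.l1 _ _ = T.W T.x T.l1 T.l2 T.l2 _ _
    rw [← T.W_lab (swap T.l1 T.l2), s0, s1, s2]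
  · change T.W T.x T.l2 T.l1 T.l3 _ _ = T.W T.x T.l1 T.l2 T.l3 _ _
    rw [← T.W_lab (swap T.l1 T.l2), s0, s1, s2, s3]

theorem Y_23 (p : ℕ) (hp : p < 5) (e : Fin 6 → ℕ) (he : ∀ r, Gd (e r)) :
    T.Y (a23 p) [] (f23 ∘ e) = T.Y p [] e := by
  have e1 : dec ∘ f23 ∘ e = fun r => (((dec ∘ e) r).1, -((dec ∘ e) r).1 - ((dec ∘ e) r).2) :=
    funext fun r => (f23_spec (he r)).2
  unfold Y
  rw [e1, ← T.W_s23]
  interval_cases p
  · rfl
  · rfl
  · rfl
  · rfl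
  · change T.W T.x T.l1 T.l3 T.l2 _ _ = T.W T.x T.l1 T.l2 T.l3 _ _
    rw [← T.W_lab (swap T.l2 T.l3), swap_apply_of_ne_of_ne T.h02 T.h03,
      swap_apply_of_ne_of_ne T.h12 T.h13, swap_apply_left, swap_apply_right]

theorem Y_ng (p : ℕ) (e : Fin 6 → ℕ) (he : ∀ r, Gd (e r)) :
    T.Y p [] (fng ∘ e) = T.Y p [] e := by
  have e1 : dec ∘ fng ∘ e = fun r => -(dec ∘ e) r := funext fun r => (fng_spec (he r)).2
  unfold Y
  rw [e1, ← T.W_neg T.h01 (T.hL2 p) (T.hL3 p)]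

theorem Y_z1 (p : ℕ) (hp : p < 5) (e : Fin 6 → ℕ) (he : ∀ r, e r / 64 = 32) :
    T.Y (if p = 0 ∨ p = 3 then 0 else 1) [] e = T.Y p [] e := by
  have h : ∀ r, ((dec ∘ e) r).1 = 0 := fun r => by simp [dec, he r]
  have s0 := swap_apply_of_ne_of_ne T.h01 T.h02
  have s1 := swap_apply_left T.l1 T.l2
  have s2 := swap_apply_right T.l1 T.l2
  unfold Y
  interval_cases p
  · rfl
  · rfl
  · change T.W T.x T.l1 T.l1 T.l2 _ _ = T.W T.x T.l1 T.l2 T.l1 _ _
    rw [← T.W_lab (swap T.l1 T.l2), s0, s1, s2, T.W_z1 T.l1 h]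
  · change T.W T.x T.l1 T.l1 T.l1 _ _ = T.W T.x T.l1 T.l2 T.l2 _ _
    rw [← T.W_lab (swap T.l1 T.l2), s0, s1, T.W_z1 T.l1 h]
  · change T.W T.x T.l1 T.l1 T.l2 _ _ = T.W T.x T.l1 T.l2 T.l3 _ _
    rw [← T.W_lab (swap T.l2 T.l3), swap_apply_of_ne_of_ne T.h02 T.h03,
      swap_apply_of_ne_of_ne T.h12 T.h13, swap_apply_left, ← T.W_lab (swap T.l1 T.l2), s0, s1,
      swap_apply_of_ne_of_ne T.h13.symm T.h23.symm, T.W_z1 T.l1 h]

theorem Y_van (p : ℕ) (e : Fin 6 → ℕ) (h0 : e 0 / 64 = 31) (h1 : e 1 / 64 = 32)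
    (h2 : e 2 / 64 = 32) (h3 : e 3 / 64 = 32) (h4 : e 4 / 64 = 32) (h5 : e 5 / 64 = 33) :
    T.Y p [] e = 0 :=
  T.W_van T.h01 (by simp [dec, h0]) (by simp [dec, h1]) (by simp [dec, h2]) (by simp [dec, h3])
    (by simp [dec, h4]) (by simp [dec, h5])

theorem Y_ZK (p : ℕ) (ds : List (ℤ × ℤ)) :
    T.Y p ds (rw6 ZK) = T.W T.x T.l1 (T.L2 p) (T.L3 p) ds fun _ => 0 := by
  rw [Y, rw6_ZK]; rfl

theorem Y_top (p : ℕ) : T.Y p [] (rw6 ZK) = Sys.top ι := by rw [Y_ZK, T.W_zero]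

theorem Yc_bound (key : ℕ) : |T.Yc key| ≤ Sys.top ι := T.W_bound T.h01 (T.hL2 _) (T.hL3 _) _

theorem Yc_mk (key : ℕ) {p : ℕ} (hp : p < 8) : T.Yc (8 * key + p) = T.Y p [] (rw6 key) := by
  rw [Yc, show (8 * key + p) % 8 = p by omega, show (8 * key + p) / 8 = key by omega]

/-- a table of canonical keys -/
noncomputable def tc (K : ℕ) : ℕ → ℝ := fun k => T.Yc (dg 76 K k)

end Ctx

noncomputable def stg (t : ℕ) (F g : ℕ → ℕ) (p a b c d e f : ℕ)
    (k : ℕ → ℕ → ℕ → ℕ → ℕ → ℕ → ℕ → Bool) : Bool :=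
  @Bool.rec (fun _ => Bool) (k (g p) (F a) (F b) (F c) (F d) (F e) (F f)) (k p a b c d e f)
    (Nat.beq (Nat.mod t 2) 0)

/-- `p, e` is a valid description of the moment `y` -/
def Inv (Y : ℕ → (Fin 6 → ℕ) → ℝ) (y : ℝ) (p a b c d e f : ℕ) : Prop :=
  p < 5 ∧ (∀ r, Gd (![a, b, c, d, e, f] r)) ∧ Y p ![a, b, c, d, e, f] = y

theorem stg_sound {Y : ℕ → (Fin 6 → ℕ) → ℝ} {y : ℝ} {t : ℕ} {F g : ℕ → ℕ} {p a b c d e f : ℕ}
    {k : ℕ → ℕ → ℕ → ℕ → ℕ → ℕ → ℕ → Bool} (hF : ∀ x, Gd x → Gd (F x)) (hg : ∀ p < 5, g p < 5)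
    (hY : ∀ p < 5, ∀ e : Fin 6 → ℕ, (∀ r, Gd (e r)) → Y (g p) (F ∘ e) = Y p e)
    (h : Inv Y y p a b c d e f) (H : stg t F g p a b c d e f k = true) :
    ∃ p a b c d e f, Inv Y y p a b c d e f ∧ k p a b c d e f = true := by
  unfold stg at H
  cases hb : Nat.beq (Nat.mod t 2) 0
  · rw [hb] at H
    have e1 : ![F a, F b, F c, F d, F e, F f] = F ∘ ![a, b, c, d, e, f] := by
      funext r; fin_cases r <;> rfl
    refine ⟨_, _, _, _, _, _, _, ⟨hg p h.1, ?_, ?_⟩, H⟩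
    · rw [e1]; exact fun r => hF _ (h.2.1 r)
    · rw [e1, hY p h.1 _ h.2.1, h.2.2]
  · rw [hb] at H
    exact ⟨_, _, _, _, _, _, _, h, H⟩

noncomputable def hi6 (key a b c d e f : ℕ) : Bool :=
  rows key fun a' b' c' d' e' f' =>
    an (Nat.beq (Nat.div a' 64) a) (an (Nat.beq (Nat.div b' 64) b) (an (Nat.beq (Nat.div c' 64) c)
      (an (Nat.beq (Nat.div d' 64) d) (an (Nat.beq (Nat.div e' 64) e) (Nat.beq (Nat.div f' 64) f)))))

theorem hi6_spec {key a b c d e f : ℕ} (h : hi6 key a b c d e f = true) :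
    rw6 key 0 / 64 = a ∧ rw6 key 1 / 64 = b ∧ rw6 key 2 / 64 = c ∧ rw6 key 3 / 64 = d ∧
      rw6 key 4 / 64 = e ∧ rw6 key 5 / 64 = f := by
  rw [hi6, rows_eq] at h
  simp only [an_iff, Nat.beq_eq] at h
  exact h

noncomputable def ite0 {β : Type} (c : Bool) (a b : β) : β := @Bool.rec (fun _ => β) b a c

noncomputable def tgt (nC KC h p key : ℕ) : Bool :=
  ite0 (Nat.beq (Nat.div h 65536) 2) (hi6 key 31 32 32 32 32 33)
    (an (Nat.blt (Nat.mod h 4096) nC)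
      (ite0 (Nat.beq (Nat.div h 65536) 0)
        (Nat.beq (dg 76 KC (Nat.mod h 4096)) (Nat.add (Nat.mul 8 key) p))
        (ite0 (Nat.beq (Nat.div h 65536) 1)
          (an (hi6 key 32 32 32 32 32 32) (Nat.beq (dg 76 KC (Nat.mod h 4096))
            (Nat.add (Nat.mul 8 key) (if p = 0 ∨ p = 3 then 0 else 1))))
          (an (Nat.beq key ZK) (Nat.beq (dg 76 KC (Nat.mod h 4096)) (Nat.mul 8 ZK))))))

noncomputable def cU (h : ℕ) : ℕ := ite0 (Nat.beq (Nat.div h 65536) 2) 0 (pw 128 (Nat.mod h 4096))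

noncomputable def cChk (pre : ℕ → ℕ) (p nC KC key h : ℕ) : Bool :=
  rows key fun a b c d e f =>
    an (good (pre a)) (an (good (pre b)) (an (good (pre c)) (an (good (pre d)) (an (good (pre e))
      (an (good (pre f))
    (stg (Nat.div h 4096) f12 a12 p (pre a) (pre b) (pre c) (pre d) (pre e) (pre f)
      fun p a b c d e f => stg (Nat.div h 8192) f23 a23 p a b c d e f
      fun p a b c d e f => stg (Nat.div h 16384) f12 a12 p a b c d e f
      fun p a b c d e f => stg (Nat.div h 32768) fng id p a b c d e f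
      fun p a b c d e f => tgt nC KC h p (srt a b c d e f)))))))

namespace Ctx

variable {ι : Type} [Fintype ι] [DecidableEq ι] (T : Ctx ι)

theorem tgt_sound {nC KC h p key : ℕ} (hp : p < 5) (H : tgt nC KC h p key = true) :
    Rep 128 nC (T.tc KC) (cU h) 1 (T.Y p [] (rw6 key)) := by
  unfold tgt at H
  unfold cU
  cases h2 : Nat.beq (Nat.div h 65536) 2
  · simp only [h2, ite0, an_iff] at H ⊢
    have hu : Rep 128 nC (T.tc KC) (pw 128 (Nat.mod h 4096)) 1 (T.tc KC (Nat.mod h 4096)) :=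
      Rep.unit (Nat.blt_eq.mp H.1)
    have H2 := H.2
    suffices T.tc KC (Nat.mod h 4096) = T.Y p [] (rw6 key) by rwa [this] at hu
    unfold tc
    cases h0 : Nat.beq (Nat.div h 65536) 0
    · cases h1 : Nat.beq (Nat.div h 65536) 1
      · simp only [h0, h1, an_iff, Nat.beq_eq] at H2
        rw [H2.2, H2.1, T.Y_top]
        exact (T.Yc_mk ZK (p := 0) (by norm_num)).trans (T.Y_top 0)
      · simp only [h0, h1, an_iff, Nat.beq_eq] at H2
        have := hi6_spec H2.1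
        rw [H2.2, ← T.Y_z1 p hp _ fun r => by fin_cases r <;> simp [this]]
        exact T.Yc_mk key (by split_ifs <;> norm_num)
    · simp only [h0, Nat.beq_eq] at H2
      rw [H2]
      exact T.Yc_mk key (by omega)
  · simp only [h2, ite0] at H ⊢
    obtain ⟨a, b, c, d, e, f⟩ := hi6_spec H
    rw [T.Y_van p _ a b c d e f]
    exact Rep.zero.mono (by norm_num)

theorem cChk_sound {pre : ℕ → ℕ} {p nC KC key h : ℕ} (hp : p < 5)
    (H : cChk pre p nC KC key h = true) :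
    Rep 128 nC (T.tc KC) (cU h) 1 (T.Y p [] (pre ∘ rw6 key)) := by
  rw [cChk, rows_eq] at H
  simp only [an_iff] at H
  obtain ⟨g0, g1, g2, g3, g4, g5, H⟩ := H
  have I0 : Inv (fun p => T.Y p []) (T.Y p [] (pre ∘ rw6 key)) p (pre (rw6 key 0))
      (pre (rw6 key 1)) (pre (rw6 key 2)) (pre (rw6 key 3)) (pre (rw6 key 4))
      (pre (rw6 key 5)) := by
    refine ⟨hp, fun r => ?_, congrArg _ (eta6 (pre ∘ rw6 key))⟩
    fin_cases r
    exacts [good_spec g0, good_spec g1, good_spec g2, good_spec g3, good_spec g4, good_spec g5]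
  have b12 : ∀ p < 5, a12 p < 5 := by decide
  have b23 : ∀ p < 5, a23 p < 5 := by decide
  obtain ⟨_, _, _, _, _, _, _, I1, H⟩ := stg_sound (fun x h => (f12_spec h).1) b12 T.Y_12 I0 H
  obtain ⟨_, _, _, _, _, _, _, I2, H⟩ := stg_sound (fun x h => (f23_spec h).1) b23 T.Y_23 I1 H
  obtain ⟨_, _, _, _, _, _, _, I3, H⟩ := stg_sound (fun x h => (f12_spec h).1) b12 T.Y_12 I2 H
  obtain ⟨q, a, b, c, d, e, f, I4, H⟩ := stg_sound (fun x h => (fng_spec h).1) (fun _ h => h)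
    (fun p _ => T.Y_ng p) I3 H
  have lt : ∀ x, Gd x → x < 4096 := fun x h => by unfold Gd at h; omega
  have := T.tgt_sound I4.1 H
  rwa [T.Y_sym q [] _ _ (srt_spec (lt a (I4.2.1 0)) (lt b (I4.2.1 1)) (lt c (I4.2.1 2))
    (lt d (I4.2.1 3)) (lt e (I4.2.1 4)) (lt f (I4.2.1 5))),
    show T.Y q [] ![a, b, c, d, e, f] = _ from I4.2.2] at this

end Ctx

/-- canonicalise a whole table -/
noncomputable def cAll (pre : ℕ → ℕ) (p nC KC H n K : ℕ) : Bool :=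
  allN (fun k => cChk pre p nC KC (dg 72 K k) (dg 20 H k)) n

noncomputable def cAcc (H w n P : ℕ) : ℤ := acc w n P fun k => cU (dg 20 H k)

structure St where
  n : ℕ
  K : ℕ
  H : ℕ

noncomputable def chChk (p nC KC H : ℕ) : List (ℤ × ℤ) → List St → ℕ → ℕ → Bool
  | [], _, n, K => cAll id p nC KC H n K
  | _ :: _, [], _, _ => false
  | d :: ds, s :: dat, n, K => an (okd d) (an
      (allN (fun k => eChk (zc d) s.n s.K (dg 72 K k) (dg 72 s.H k)) n)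
      (chChk p nC KC H ds dat s.n s.K))

noncomputable def chAcc (H : ℕ) : List (ℤ × ℤ) → List St → ℕ → ℕ → ℕ → ℤ
  | [], _, w, n, P => cAcc H w n P
  | _ :: _, [], _, _, _ => 0
  | _ :: ds, s :: dat, w, n, P =>
      chAcc H ds dat 80 s.n (fin 80 s.n (acc w n P fun k => eU 80 (dg 72 s.H k)))

namespace Ctx

variable {ι : Type} [Fintype ι] [DecidableEq ι] (T : Ctx ι)

theorem cAll_sound {pre : ℕ → ℕ} {p nC KC H n K w P m : ℕ} {S : ℝ} (hp : p < 5)
    (hF : Form w n (tb (fun e => T.Y p [] (pre ∘ e)) K) P m S)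
    (h : cAll pre p nC KC H n K = true) : Rep 128 nC (T.tc KC) (cAcc H w n P) m S := by
  have := hF.acc (U := fun k => cU (dg 20 H k))
    fun k hk => T.cChk_sound hp (allN_sound h k hk)
  rwa [one_mul] at this

theorem chain_sound {p nC KC H : ℕ} (hp : p < 5) : ∀ (ds : List (ℤ × ℤ)) (dat : List St)
    (w n K P m : ℕ) (S : ℝ), Form w n (tb (T.Y p ds) K) P m S → 6 ^ ds.length * m < 2 ^ 79 →
    chChk p nC KC H ds dat n K = true →
    Rep 128 nC (T.tc KC) (chAcc H ds dat w n P) (6 ^ ds.length * m) S := by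
  intro ds
  induction ds with
  | nil =>
    intro dat w n K P m S hF _ h
    rw [chChk] at h
    rw [chAcc, List.length_nil, pow_zero, one_mul]
    exact T.cAll_sound (pre := id) hp (by simpa only [Function.id_comp] using hF) h
  | cons d ds ih =>
    intro dat w n K P m S hF hm h
    cases dat with
    | nil => simp [chChk] at h
    | cons s dat =>
      rw [chChk, an_iff, an_iff] at h
      rw [List.length_cons, pow_succ, mul_assoc] at hm ⊢
      rw [chAcc]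
      have hd := of_decide_eq_true h.1
      have hz : zc d / 64 < 32 ∧ zc d % 64 < 32 := by unfold zc; omega
      have h0 : ∀ k < n, Rep 80 s.n (tb (T.Y p ds) s.K) (eU 80 (dg 72 s.H k)) 6
          (T.Y p (d :: ds) (rw6 (dg 72 K k))) := fun k hk =>
        eChk_sound (T.Y_sym p ds) hz (T.Y_cons p h.1 ds) (allN_sound h.2.1 k hk)
      have h1 := hF.acc (U := fun k => eU 80 (dg 72 s.H k)) h0
      refine ih dat 80 s.n s.K _ _ S (h1.form (by norm_num) ?_) hm h.2.2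
      exact lt_of_le_of_lt (Nat.le_mul_of_pos_left _ (by positivity)) hm

end Ctx

end Vale.Agent.P355
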