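import Vale.Agent.P355.Rel

/-! Tables for Young symmetrisers, and the lists of permutations they use. -/

namespace Vale.Agent.P355

open Finset Equiv

/-- sum over a list -/
def ls {α : Type} (l : List α) (f : α → ℝ) : ℝ := (l.map f).sum

theorem ls_nil {α : Type} (f : α → ℝ) : ls [] f = 0 := rfl

theorem ls_cons {α : Type} (a : α) (l : List α) (f : α → ℝ) : ls (a :: l) f = f a + ls l f := by
  simp [ls]

theorem ls_congr {α : Type} {l : List α} {f g : α → ℝ} (h : ∀ a ∈ l, f a = g a) :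
    ls l f = ls l g := congrArg List.sum (List.map_congr_left h)

theorem ls_mul {α : Type} (l : List α) (c : ℝ) (f : α → ℝ) :
    ls l (fun a => c * f a) = c * ls l f := List.sum_map_mul_left _ _ _

theorem ls_mul' {α : Type} (l : List α) (c : ℝ) (f : α → ℝ) :
    ls l (fun a => f a * c) = ls l f * c := List.sum_map_mul_right _ _ _

theorem ls_add {α : Type} (l : List α) (f g : α → ℝ) :
    ls l (fun a => f a + g a) = ls l f + ls l g := List.sum_map_add

theorem ls_sum {α β : Type} (l : List α) (s : Finset β) (f : α → β → ℝ) :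
    ls l (fun a => ∑ b ∈ s, f a b) = ∑ b ∈ s, ls l fun a => f a b := by
  induction l with
  | nil => simp [ls_nil]
  | cons a l ih => simp only [ls_cons, ih, sum_add_distrib]

theorem ls_comm {α β : Type} (l : List α) (l' : List β) (f : α → β → ℝ) :
    ls l (fun a => ls l' (f a)) = ls l' fun b => ls l fun a => f a b := by
  induction l with
  | nil => simp [ls]
  | cons a l ih => simp only [ls_cons, ih, ls_add]

theorem ls_nonneg {α : Type} {l : List α} {f : α → ℝ} (h : ∀ a ∈ l, 0 ≤ f a) : 0 ≤ ls l f :=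
  List.sum_nonneg fun x hx => by
    obtain ⟨a, ha, rfl⟩ := List.mem_map.1 hx
    exact h a ha

theorem ls_range (n : ℕ) (f : ℕ → ℝ) : ls (List.range n) f = ∑ i ∈ range n, f i := rfl

/-- the sign carried by the lowest bit -/
noncomputable def sg (a : ℕ) : ℤ := ite0 (Nat.beq (Nat.mod a 2) 0) (Int.ofNat 1) (Int.negSucc 0)

theorem sg_abs (a : ℕ) : (sg a).natAbs = 1 := by
  unfold sg; cases Nat.beq (Nat.mod a 2) 0 <;> rfl

def pa (a r : ℕ) : ℕ := Nat.mul 8 (dg 3 (Nat.div a 2) r)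
def pb (b ρ r : ℕ) : ℕ := dg 3 (Nat.div b 2) (dg 3 ρ r)

noncomputable def fIn (nF KF : ℕ) (R : List ℕ) (a : ℕ) (l : List ℕ) : ℕ → Bool :=
  allL (Nat.mul 8 R.length) (fun b =>
    allL 8 (fun ρ h => lk nF KF h (Nat.add (pa a 0) (pb b ρ 0)) (Nat.add (pa a 1) (pb b ρ 1))
      (Nat.add (pa a 2) (pb b ρ 2)) (Nat.add (pa a 3) (pb b ρ 3)) (Nat.add (pa a 4) (pb b ρ 4))
      (Nat.add (pa a 5) (pb b ρ 5))) R) l

noncomputable def fNat (R l : List ℕ) : ℕ → ℕ :=
  natL (Nat.mul 8 R.length) (fun _ => natL 8 (fun _ h => pw 128 h) R) l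

def evn (l : List ℕ) : List ℕ := l.filter fun b => Nat.beq (Nat.mod b 2) 0
def odd (l : List ℕ) : List ℕ := l.filter fun b => !Nat.beq (Nat.mod b 2) 0

theorem ls_sg (l : List ℕ) (f : ℕ → ℝ) :
    (ls l fun b => sg b * f b) = ls (evn l) f - ls (odd l) f ∧
      (evn l).length + (odd l).length = l.length := by
  induction l with
  | nil => simp [ls, evn, odd]
  | cons b l ih =>
    unfold evn odd at *
    rw [ls_cons, ih.1, List.filter_cons, List.filter_cons, List.length_cons, ← ih.2, sg]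
    cases Nat.beq (Nat.mod b 2) 0
    · simp [ite0, ls_cons]; constructor <;> ring
    · simp [ite0, ls_cons]; constructor <;> ring

noncomputable def fChk (nF KF : ℕ) (R vi vj : List ℕ) : ℕ → Bool :=
  allL (Nat.mul (Nat.mul 8 R.length) vj.length) (fun a H => an (fIn nF KF R a (evn vj) H)
    (fIn nF KF R a (odd vj) (Nat.shiftRight H (Nat.mul (Nat.mul 8 R.length) (evn vj).length)))) vi

noncomputable def fAcc (R vi vj : List ℕ) : ℕ → ℤ :=
  sumL (Nat.mul (Nat.mul 8 R.length) vj.length) (fun a H => Int.mul (sg a)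
    (Int.subNatNat (fNat R (evn vj) H)
      (fNat R (odd vj) (Nat.shiftRight H (Nat.mul (Nat.mul 8 R.length) (evn vj).length))))) vi

noncomputable def fval (Φ : (Fin 6 → ℕ) → ℝ) (R vi vj : List ℕ) : ℝ :=
  ls vi fun a => sg a * ls vj fun b => sg b * ls R fun ρ => Φ fun r => pa a r + pb b ρ r

def FineOK (nF KF : ℕ) (R vi vj : List ℕ) (row : ℤ) : Prop :=
  ∀ Φ, Sym Φ → Rep 128 nF (tb Φ KF) row 32768 (fval Φ R vi vj)

def zeq (a b : ℤ) : Bool := Nat.beq (Int.natAbs (Int.sub a b)) 0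

theorem zeq_sound {a b : ℤ} (h : zeq a b = true) : a = b := by
  have : (a - b).natAbs = 0 := Nat.eq_of_beq_eq_true h
  omega

noncomputable def fine (nF KF : ℕ) (R vi vj : List ℕ) (row : ℤ) (H : ℕ) : Bool :=
  an (decide (vi.length * (vj.length * R.length) ≤ 32768))
    (an (fChk nF KF R vi vj H) (zeq (fAcc R vi vj H) row))

theorem pa_pb_lt (a b ρ r : ℕ) : Nat.add (pa a r) (pb b ρ r) < 4096 := by
  have h1 := dg_lt 3 (Nat.div a 2) r
  have h2 := dg_lt 3 (Nat.div b 2) (dg 3 ρ r)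
  change 8 * dg 3 (Nat.div a 2) r + dg 3 (Nat.div b 2) (dg 3 ρ r) < 4096
  omega

theorem fIn_sound {Φ : (Fin 6 → ℕ) → ℝ} (hs : Sym Φ) {nF KF : ℕ} {R : List ℕ} {a : ℕ} {l : List ℕ}
    {H : ℕ} (h : fIn nF KF R a l H = true) : Rep 128 nF (tb Φ KF) (fNat R l H)
      (l.length * R.length) (ls l fun b => ls R fun ρ => Φ fun r => pa a r + pb b ρ r) := by
  rw [fNat, natL_eq]
  refine rep_list (c := R.length) (fun b H h => ?_) l H h
  rw [natL_eq]
  refine (rep_list (c := 1) (fun ρ H h => ?_) R H h).mono (by rw [mul_one])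
  have := lk_sound (w := 128) hs (pa_pb_lt _ _ _ _) (pa_pb_lt _ _ _ _) (pa_pb_lt _ _ _ _)
    (pa_pb_lt _ _ _ _) (pa_pb_lt _ _ _ _) (pa_pb_lt _ _ _ _) h
  rw [← eta6 fun r : Fin 6 => pa a r + pb b ρ r]
  exact this

theorem fine_sound {nF KF : ℕ} {R vi vj : List ℕ} {row : ℤ} {H : ℕ}
    (h : fine nF KF R vi vj row H = true) : FineOK nF KF R vi vj row := by
  intro Φ hs
  rw [fine, an_iff, an_iff] at h
  rw [← zeq_sound h.2.2]
  refine (rep_list (c := vj.length * R.length) (fun a H h => ?_) vi H h.2.1).mono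
    (of_decide_eq_true h.1)
  rw [an_iff] at h
  have := ((fIn_sound hs h.1).add ((fIn_sound hs h.2).smul (-1))).smul (sg a)
  rw [Int.subNatNat_eq_coe, sub_eq_add_neg, ← neg_one_mul]
  refine this.cast (le_of_eq ?_) ?_
  · rw [sg_abs, one_mul, show (-1 : ℤ).natAbs = 1 from rfl, one_mul, ← add_mul,
      (ls_sg vj fun _ => 0).2]
  · rw [(ls_sg vj _).1]; push_cast; ring

/-! lists of permutations -/

def pc (ρ : Perm (Fin 6)) : ℕ :=
  ρ 0 + 8 * (ρ 1 + 8 * (ρ 2 + 8 * (ρ 3 + 8 * (ρ 4 + 8 * ρ 5))))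

theorem dg_pc (ρ : Perm (Fin 6)) (r : Fin 6) : dg 3 (pc ρ) r = ρ r := by
  have h0 := (ρ 0).2
  have h1 := (ρ 1).2
  have h2 := (ρ 2).2
  have h3 := (ρ 3).2
  have h4 := (ρ 4).2
  have h5 := (ρ 5).2
  rw [dg_eq, pc]
  fin_cases r <;> simp <;> omega

def allPerms : List ℕ := (permsOfList ([0, 1, 2, 3, 4, 5] : List (Fin 6))).map pc

def keep (row ρ : ℕ) : Bool := decide (∀ r : Fin 6, dg 3 row (dg 3 ρ r) = dg 3 row r)

/-- the list enumerates the row group -/
def REnum (row : ℕ) (R : List ℕ) : Prop := ∀ h : (Fin 6 → ℕ) → ℝ,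
  (ls R fun ρ => h fun r => dg 3 ρ r) = ∑ ρ ∈ Rg fun r => dg 3 row r, h fun r => ρ r

theorem renum (row : ℕ) : REnum row (allPerms.filter (keep row)) := by
  intro h
  have nd : (permsOfList ([0, 1, 2, 3, 4, 5] : List (Fin 6))).Nodup :=
    nodup_permsOfList (by decide)
  have e : Rg (fun r => dg 3 row r) =
      ((permsOfList ([0, 1, 2, 3, 4, 5] : List (Fin 6))).filter (keep row ∘ pc)).toFinset := by
    ext ρ
    have : ρ ∈ permsOfList ([0, 1, 2, 3, 4, 5] : List (Fin 6)) :=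
      mem_permsOfList_iff.2 fun {x} _ => by fin_cases x <;> simp
    simp [Rg, this, keep, dg_pc]
  rw [e, List.sum_toFinset _ (nd.filter _), allPerms, List.filter_map, ls, List.map_map]
  simp only [Function.comp_def, dg_pc]

/-! merging classes -/

def cz (κ κ' x : ℕ) : ℕ := Nat.add (Nat.mul 8 (dg 3 κ (Nat.div x 8))) (dg 3 κ' (Nat.mod x 8))

theorem cz_lt (κ κ' x : ℕ) : cz κ κ' x < 4096 := by
  have h1 := dg_lt 3 κ (Nat.div x 8)
  have h2 := dg_lt 3 κ' (Nat.mod x 8)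
  change 8 * dg 3 κ (Nat.div x 8) + dg 3 κ' (Nat.mod x 8) < 4096
  omega

noncomputable def coarse (nF KF κ κ' : ℕ) (c : St) : Bool :=
  allN (fun k => rows (dg 72 KF k) fun a b d e f g => lk c.n c.K (dg 8 c.H k)
    (cz κ κ' a) (cz κ κ' b) (cz κ κ' d) (cz κ κ' e) (cz κ κ' f) (cz κ κ' g)) nF

def CoarseOK (nF KF κ κ' : ℕ) (c : St) : Prop := ∀ Φ, Sym Φ → ∀ k < nF,
  Rep 128 c.n (tb Φ c.K) (pw 128 (dg 8 c.H k)) 1 (tb (fun e => Φ (cz κ κ' ∘ e)) KF k)

theorem coarse_sound {nF KF κ κ' : ℕ} {c : St} (h : coarse nF KF κ κ' c = true) :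
    CoarseOK nF KF κ κ' c := by
  intro Φ hs k hk
  have h1 := allN_sound h k hk
  rw [rows_eq] at h1
  have := lk_sound (w := 128) hs (cz_lt _ _ _) (cz_lt _ _ _) (cz_lt _ _ _) (cz_lt _ _ _)
    (cz_lt _ _ _) (cz_lt _ _ _) h1
  rw [tb, ← eta6 (cz κ κ' ∘ rw6 (dg 72 KF k))]
  exact this

/-! Gram matrices -/

structure It where
  i : ℕ
  pos : ℕ
  X : ℕ

noncomputable def wide (m col : ℕ) : ℤ := acc 40 m col (pw 128)

noncomputable def xChk (nv m : ℕ) (cols : List ℕ) (I : It) : Bool :=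
  an (decide (I.i < nv ∧ I.pos < m ∧ m ≤ 4096 ∧ cols.length ≤ 4096))
    (an (Nat.beq (fin 128 m (sumP (fun col => Int.mul (vl 40 col I.pos) (wide m col)) cols)) I.X)
      (allN (fun J => Nat.ble (Int.natAbs (vl 128 I.X J)) 1180591620717411303424) m))

def XOK (nv m : ℕ) (cols : List ℕ) (I : It) : Prop :=
  I.i < nv ∧ I.pos < m ∧ ∀ J < m, (vl 128 I.X J).natAbs ≤ 2 ^ 70 ∧
    (vl 128 I.X J : ℝ) = ls cols fun col => (vl 40 col I.pos : ℝ) * vl 40 col J

theorem xChk_sound {nv m : ℕ} {cols : List ℕ} {I : It} (h : xChk nv m cols I = true) :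
    XOK nv m cols I := by
  rw [xChk, an_iff, an_iff] at h
  obtain ⟨h1, h2, h3, h4⟩ := of_decide_eq_true h.1
  refine ⟨h1, h2, fun J hJ => ⟨Nat.le_of_ble_eq_true (allN_sound h.2.2 J hJ), ?_⟩⟩
  set Φ : ℕ → ℝ := fun k => if k = J then 1 else 0 with hΦ
  have ev : ∀ v : ℕ → ℤ, ∑ k ∈ range m, (v k : ℝ) * Φ k = v J := by
    intro v; simp [hΦ, hJ]
  have r1 : ∀ col ∈ cols, Rep 128 m Φ (vl 40 col I.pos * wide m col) (2 ^ 39 * (4096 * 2 ^ 39))
      ((vl 40 col I.pos : ℝ) * vl 40 col J) := by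
    intro col _
    have r := ((Form.start (w := 40) (n := m) (Φ := Φ) (by norm_num) col).acc (U := pw 128)
      fun k hk => Rep.unit hk).smul (vl 40 col I.pos)
    rw [ev] at r
    refine r.mono (Nat.mul_le_mul ?_ (by omega))
    have := abs_le.1 (abs_vl_le (w := 40) (by norm_num) col I.pos)
    omega
  have r2 := (Rep.lsum cols r1).form (by norm_num) (by
    rw [List.map_const', List.sum_replicate, smul_eq_mul]
    exact lt_of_le_of_lt (Nat.mul_le_mul_right _ h4) (by norm_num))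
  have e : fin 128 m (cols.map fun col => vl 40 col I.pos * wide m col).sum = I.X := by
    rw [← sumP_eq]; exact Nat.eq_of_beq_eq_true h.2.1
  rw [e] at r2
  rw [← ev (vl 128 I.X), ← r2.2, ls]

end Vale.Agent.P355
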