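import Vale.Agent.P355.FvH0
import Vale.Agent.P355.FvH1
import Vale.Agent.P355.FvH2
import Vale.Agent.P355.FvH3
import Vale.Agent.P355.FvH4
import Vale.Agent.P355.FvH5
import Vale.Agent.P355.FvH6
import Vale.Agent.P355.FvH7
import Vale.Agent.P355.FvH8
import Vale.Agent.P355.FvH9
import Vale.Agent.P355.FvH10
import Vale.Agent.P355.FvH11
import Vale.Agent.P355.FvH12
import Vale.Agent.P355.FvH13

namespace Vale.Agent.P355.Fv

noncomputable def segs : List Hd := hs0 ++ (hs1 ++ (hs2 ++ (hs3 ++ (hs4 ++ (hs5 ++ (hs6 ++ (hs7 ++ (hs8 ++ (hs9 ++ (hs10 ++ (hs11 ++ (hs12 ++ (hs13)))))))))))))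

noncomputable def ts : List ℤ := [(Int.negSucc 26033145521017872684), (Int.ofNat 247729714103783), (Int.ofNat 227171949469437), (Int.ofNat 275159671729999), (Int.ofNat 235018122162144), (Int.ofNat 257999843649318), (Int.ofNat 255941802948435), (Int.ofNat 212931289306820), (Int.ofNat 189553193340961), (Int.ofNat 227330571077167), (Int.ofNat 251398877108064), (Int.ofNat 203962326319221), (Int.ofNat 195075332099823), (Int.ofNat 229226891824414), (Int.ofNat 189286121383885), (Int.ofNat 185394626974067), (Int.ofNat 177483788159940), (Int.ofNat 189089974515545), (Int.ofNat 203461602701842), (Int.ofNat 174220813534443), (Int.ofNat 199875018328556), (Int.ofNat 211334638385464), (Int.ofNat 205232074401130), (Int.ofNat 201648139017411), (Int.ofNat 202707739918741), (Int.ofNat 202988345964591), (Int.ofNat 208479402727482), (Int.ofNat 210534998411361), (Int.ofNat 195305663855149), (Int.ofNat 177615577092575), (Int.ofNat 180512501076996), (Int.ofNat 196881907072511), (Int.ofNat 205325217542293), (Int.ofNat 211393970893744), (Int.ofNat 204721130945249), (Int.ofNat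 170363283835318), (Int.ofNat 232446778112488), (Int.ofNat 205028314916218), (Int.ofNat 166815141720537), (Int.ofNat 99025282178112)]

noncomputable def tt (j : ℕ) : ℤ := ts.getD j 0

end Vale.Agent.P355.Fv
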