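import Vale.Agent.P355.FvX
import Vale.Agent.P355.FvS0
import Vale.Agent.P355.FvS1
import Vale.Agent.P355.FvS2
import Vale.Agent.P355.FvS3
import Vale.Agent.P355.FvS4
import Vale.Agent.P355.FvS5
import Vale.Agent.P355.FvS6
import Vale.Agent.P355.FvS7
import Vale.Agent.P355.FvS8
import Vale.Agent.P355.FvS9
import Vale.Agent.P355.FvS10
import Vale.Agent.P355.FvS11
import Vale.Agent.P355.FvS12
import Vale.Agent.P355.FvS13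
import Vale.Agent.P355.FvC0
import Vale.Agent.P355.FvC1
import Vale.Agent.P355.FvC2

namespace Vale.Agent.P355.Fv

theorem sa : ∀ d ∈ segs, ∃ bl hs, segChk gd 40 d bl hs = true :=
  all_append sa0 (all_append sa1 (all_append sa2 (all_append sa3 (all_append sa4 (all_append sa5 (all_append sa6 (all_append sa7 (all_append sa8 (all_append sa9 (all_append sa10 (all_append sa11 (all_append sa12 (sa13)))))))))))))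

theorem ka : ∀ j < 40, ∃ nG G Hs, chunk segs j nG G Hs (tt j) = true :=
  UpTo.all ⟨k39, ⟨k38, ⟨k37, ⟨k36, ⟨k35, ⟨k34, ⟨k33, ⟨k32, ⟨k31, ⟨k30, ⟨k29, ⟨k28, ⟨k27, ⟨k26, ⟨k25, ⟨k24, ⟨k23, ⟨k22, ⟨k21, ⟨k20, ⟨k19, ⟨k18, ⟨k17, ⟨k16, ⟨k15, ⟨k14, ⟨k13, ⟨k12, ⟨k11, ⟨k10, ⟨k9, ⟨k8, ⟨k7, ⟨k6, ⟨k5, ⟨k4, ⟨k3, ⟨k2, ⟨k1, ⟨k0, trivial⟩⟩⟩⟩⟩⟩⟩⟩⟩⟩⟩⟩⟩⟩⟩⟩⟩⟩⟩⟩⟩⟩⟩⟩⟩⟩⟩⟩⟩⟩⟩⟩⟩⟩⟩⟩⟩⟩⟩⟩

theorem no (T : Ctx (Fin (1 + 4))) : False :=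
  T.final gok (Fintype.card_fin _) sa ka (by decide +kernel) (by decide +kernel) (by decide +kernel)

end Vale.Agent.P355.Fv
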