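import Vale.Agent.P355.FvG
import Vale.Agent.P355.BaseOK

namespace Vale.Agent.P355.Fv

theorem x0 : gramChk gd 0 = true := by decide +kernel

theorem x1 : gramChk gd 1 = true := by decide +kernel

theorem x2 : gramChk gd 2 = true := by decide +kernel

theorem x3 : gramChk gd 3 = true := by decide +kernel

theorem x4 : gramChk gd 4 = true := by decide +kernel

theorem x5 : gramChk gd 5 = true := by decide +kernel

theorem x6 : gramChk gd 6 = true := by decide +kernel

theorem x7 : gramChk gd 7 = true := by decide +kernel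

theorem x8 : gramChk gd 8 = true := by decide +kernel

theorem x9 : gramChk gd 9 = true := by decide +kernel

theorem xa : ∀ l < 10, gramChk gd l = true := UpTo.all ⟨x9, ⟨x8, ⟨x7, ⟨x6, ⟨x5, ⟨x4, ⟨x3, ⟨x2, ⟨x1, ⟨x0, trivial⟩⟩⟩⟩⟩⟩⟩⟩⟩⟩

theorem gok : gd.OK := gd.ok base_ok (by decide) (by decide +kernel) xa

end Vale.Agent.P355.Fv
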