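import Mathlib.Data.Nat.Notation

/-! Long numbers are written as trees of short ones. -/

namespace Vale.Agent.P355

def j0 (a b : ℕ) : ℕ := Nat.add a (Nat.shiftLeft b 2048)
def j1 (a b : ℕ) : ℕ := Nat.add a (Nat.shiftLeft b 4096)
def j2 (a b : ℕ) : ℕ := Nat.add a (Nat.shiftLeft b 8192)
def j3 (a b : ℕ) : ℕ := Nat.add a (Nat.shiftLeft b 16384)
def j4 (a b : ℕ) : ℕ := Nat.add a (Nat.shiftLeft b 32768)
def j5 (a b : ℕ) : ℕ := Nat.add a (Nat.shiftLeft b 65536)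
def j6 (a b : ℕ) : ℕ := Nat.add a (Nat.shiftLeft b 131072)
def j7 (a b : ℕ) : ℕ := Nat.add a (Nat.shiftLeft b 262144)

end Vale.Agent.P355
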