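import Vale.Agent.P355.Pack
import Mathlib.Data.Fin.Tuple.Sort
import Mathlib.Data.Fin.VecNotation
import Mathlib.Algebra.BigOperators.Fin
import Mathlib.Data.List.Sort
import Mathlib.Tactic.FinCases

/-! Keys: six rows of twelve bits, sorted by comparison networks. -/

namespace Vale.Agent.P355

open Finset

/-- the rows of a key -/
def rw6 (x : ℕ) : Fin 6 → ℕ := fun r => x / 4096 ^ (r : ℕ) % 4096

theorem rw6_lt (x : ℕ) (r : Fin 6) : rw6 x r < 4096 := Nat.mod_lt _ (by norm_num)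

def rows {β : Type} (x : ℕ) (k : ℕ → ℕ → ℕ → ℕ → ℕ → ℕ → β) : β :=
  k (Nat.mod x 4096) (Nat.mod (Nat.shiftRight x 12) 4096) (Nat.mod (Nat.shiftRight x 24) 4096)
    (Nat.mod (Nat.shiftRight x 36) 4096) (Nat.mod (Nat.shiftRight x 48) 4096)
    (Nat.mod (Nat.shiftRight x 60) 4096)

theorem rows_eq {β : Type} (x : ℕ) (k : ℕ → ℕ → ℕ → ℕ → ℕ → ℕ → β) :
    rows x k = k (rw6 x 0) (rw6 x 1) (rw6 x 2) (rw6 x 3) (rw6 x 4) (rw6 x 5) := by
  have e : rows x k = k (x % 4096) ((x >>> 12) % 4096) ((x >>> 24) % 4096) ((x >>> 36) % 4096)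
    ((x >>> 48) % 4096) ((x >>> 60) % 4096) := rfl
  rw [e]
  simp only [Nat.shiftRight_eq_div_pow, rw6]
  norm_num

theorem eta6 {α : Type} (e : Fin 6 → α) : ![e 0, e 1, e 2, e 3, e 4, e 5] = e := by
  funext r; fin_cases r <;> rfl

def pk (a b c d e f : ℕ) : ℕ :=
  Nat.add a (Nat.mul 4096 (Nat.add b (Nat.mul 4096 (Nat.add c (Nat.mul 4096
    (Nat.add d (Nat.mul 4096 (Nat.add e (Nat.mul 4096 f)))))))))

theorem rw6_pk {a b c d e f : ℕ} (ha : a < 4096) (hb : b < 4096) (hc : c < 4096) (hd : d < 4096)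
    (he : e < 4096) (hf : f < 4096) : rw6 (pk a b c d e f) = ![a, b, c, d, e, f] := by
  have h : pk a b c d e f =
    a + 4096 * (b + 4096 * (c + 4096 * (d + 4096 * (e + 4096 * f)))) := rfl
  funext r
  fin_cases r <;> simp [rw6, h] <;> omega

def cnt (c x : ℕ) : ℕ := if x = c then 1 else 0

/-- same multiset of rows -/
def Eqv (e e' : Fin 6 → ℕ) : Prop :=
  ∀ c, cnt c (e 0) + cnt c (e 1) + cnt c (e 2) + cnt c (e 3) + cnt c (e 4) + cnt c (e 5) =
    cnt c (e' 0) + cnt c (e' 1) + cnt c (e' 2) + cnt c (e' 3) + cnt c (e' 4) + cnt c (e' 5)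

def Sym (Φ : (Fin 6 → ℕ) → ℝ) : Prop := ∀ e e', Eqv e e' → Φ e = Φ e'

theorem Eqv.exists_perm {e e' : Fin 6 → ℕ} (h : Eqv e e') :
    ∃ π π' : Equiv.Perm (Fin 6), e ∘ π = e' ∘ π' := by
  refine ⟨Tuple.sort e, Tuple.sort e', List.ofFn_injective ?_⟩
  have p : (List.ofFn e).Perm (List.ofFn e') := by
    rw [List.perm_iff_count]
    intro c
    have := h c
    simp only [cnt] at this
    simp only [List.ofFn_succ, List.ofFn_zero, List.count_cons, List.count_nil, beq_iff_eq]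
    have e1 : (Fin.succ 0 : Fin 6) = 1 := rfl
    have e2 : (Fin.succ (Fin.succ 0) : Fin 6) = 2 := rfl
    have e3 : (Fin.succ (Fin.succ (Fin.succ 0)) : Fin 6) = 3 := rfl
    have e4 : (Fin.succ (Fin.succ (Fin.succ (Fin.succ 0))) : Fin 6) = 4 := rfl
    have e5 : (Fin.succ (Fin.succ (Fin.succ (Fin.succ (Fin.succ 0)))) : Fin 6) = 5 := rfl
    rw [e5, e4, e3, e2, e1]
    omega
  refine List.Perm.eq_of_sortedLE ?_ ?_ ?_
  · exact (Tuple.monotone_sort e).sortedLE_ofFn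
  · exact (Tuple.monotone_sort e').sortedLE_ofFn
  · exact ((Equiv.Perm.ofFn_comp_perm _ _).trans p).trans (Equiv.Perm.ofFn_comp_perm _ _).symm

theorem sym_of_perm {Φ : (Fin 6 → ℕ) → ℝ}
    (h : ∀ e (π : Equiv.Perm (Fin 6)), Φ (e ∘ π) = Φ e) : Sym Φ := by
  intro e e' he
  obtain ⟨π, π', q⟩ := he.exists_perm
  rw [← h e π, q, h]

theorem Sym.perm {Φ : (Fin 6 → ℕ) → ℝ} (h : Sym Φ) (e : Fin 6 → ℕ) (π : Equiv.Perm (Fin 6)) :
    Φ (e ∘ π) = Φ e := by
  refine h _ _ fun c => ?_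
  have := Equiv.sum_comp π (fun r => cnt c (e r))
  simpa only [Fin.sum_univ_six, Function.comp] using this

theorem Sym.map {Φ : (Fin 6 → ℕ) → ℝ} (h : Sym Φ) (f : ℕ → ℕ) : Sym fun e => Φ (f ∘ e) :=
  sym_of_perm fun e π => h.perm (f ∘ e) π

/-! compare and exchange -/

theorem cnt_ce (c a b : ℕ) :
    cnt c (Nat.sub a (Nat.sub a b)) + cnt c (Nat.add b (Nat.sub a b)) = cnt c a + cnt c b := by
  change cnt c (a - (a - b)) + cnt c (b + (a - b)) = _
  rcases le_total a b with hab | hab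
  · rw [Nat.sub_eq_zero_of_le hab, Nat.sub_zero, Nat.add_zero]
  · rw [Nat.sub_sub_self hab, Nat.add_sub_cancel' hab, add_comm]

theorem mn_lt {a : ℕ} (b : ℕ) (ha : a < 4096) : Nat.sub a (Nat.sub a b) < 4096 :=
  lt_of_le_of_lt (Nat.sub_le _ _) ha

theorem mx_lt {a b : ℕ} (ha : a < 4096) (hb : b < 4096) : Nat.add b (Nat.sub a b) < 4096 :=
  show b + (a - b) < 4096 by omega

theorem pk_spec {a b c d e f : ℕ} (ha : a < 4096) (hb : b < 4096) (hc : c < 4096)
    (hd : d < 4096) (he : e < 4096) (hf : f < 4096) :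
    Eqv (rw6 (pk a b c d e f)) ![a, b, c, d, e, f] := by
  rw [rw6_pk ha hb hc hd he hf]; intro _; rfl

def in5 (a b c d e f : ℕ) : ℕ :=
  pk a
    b
    c
    d
    (Nat.sub e (Nat.sub e f))
    (Nat.add f (Nat.sub e f))

theorem in5_spec {a b c d e f : ℕ} (ha : a < 4096) (hb : b < 4096) (hc : c < 4096)
    (hd : d < 4096) (he : e < 4096) (hf : f < 4096) :
    Eqv (rw6 (in5 a b c d e f)) ![a, b, c, d, e, f] := by
  intro t
  have h := pk_spec ha hb hc hd (mn_lt f he) (mx_lt he hf) t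
  have := cnt_ce t e f
  simp only [Matrix.cons_val] at h ⊢
  unfold in5
  omega

def in4 (a b c d e f : ℕ) : ℕ :=
  in5 a
    b
    c
    (Nat.sub d (Nat.sub d e))
    (Nat.add e (Nat.sub d e))
    f

theorem in4_spec {a b c d e f : ℕ} (ha : a < 4096) (hb : b < 4096) (hc : c < 4096)
    (hd : d < 4096) (he : e < 4096) (hf : f < 4096) :
    Eqv (rw6 (in4 a b c d e f)) ![a, b, c, d, e, f] := by
  intro t
  have h := in5_spec ha hb hc (mn_lt e hd) (mx_lt hd he) hf t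
  have := cnt_ce t d e
  simp only [Matrix.cons_val] at h ⊢
  unfold in4
  omega

def in3 (a b c d e f : ℕ) : ℕ :=
  in4 a
    b
    (Nat.sub c (Nat.sub c d))
    (Nat.add d (Nat.sub c d))
    e
    f

theorem in3_spec {a b c d e f : ℕ} (ha : a < 4096) (hb : b < 4096) (hc : c < 4096)
    (hd : d < 4096) (he : e < 4096) (hf : f < 4096) :
    Eqv (rw6 (in3 a b c d e f)) ![a, b, c, d, e, f] := by
  intro t
  have h := in4_spec ha hb (mn_lt d hc) (mx_lt hc hd) he hf t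
  have := cnt_ce t c d
  simp only [Matrix.cons_val] at h ⊢
  unfold in3
  omega

def in2 (a b c d e f : ℕ) : ℕ :=
  in3 a
    (Nat.sub b (Nat.sub b c))
    (Nat.add c (Nat.sub b c))
    d
    e
    f

theorem in2_spec {a b c d e f : ℕ} (ha : a < 4096) (hb : b < 4096) (hc : c < 4096)
    (hd : d < 4096) (he : e < 4096) (hf : f < 4096) :
    Eqv (rw6 (in2 a b c d e f)) ![a, b, c, d, e, f] := by
  intro t
  have h := in3_spec ha (mn_lt c hb) (mx_lt hb hc) hd he hf t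
  have := cnt_ce t b c
  simp only [Matrix.cons_val] at h ⊢
  unfold in2
  omega

def ins (a b c d e f : ℕ) : ℕ :=
  in2 (Nat.sub a (Nat.sub a b))
    (Nat.add b (Nat.sub a b))
    c
    d
    e
    f

theorem ins_spec {a b c d e f : ℕ} (ha : a < 4096) (hb : b < 4096) (hc : c < 4096)
    (hd : d < 4096) (he : e < 4096) (hf : f < 4096) :
    Eqv (rw6 (ins a b c d e f)) ![a, b, c, d, e, f] := by
  intro t
  have h := in2_spec (mn_lt b ha) (mx_lt ha hb) hc hd he hf t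
  have := cnt_ce t a b
  simp only [Matrix.cons_val] at h ⊢
  unfold ins
  omega

def sr5 (a b c d e f : ℕ) : ℕ :=
  pk a
    (Nat.sub b (Nat.sub b c))
    (Nat.add c (Nat.sub b c))
    (Nat.sub d (Nat.sub d e))
    (Nat.add e (Nat.sub d e))
    f

theorem sr5_spec {a b c d e f : ℕ} (ha : a < 4096) (hb : b < 4096) (hc : c < 4096)
    (hd : d < 4096) (he : e < 4096) (hf : f < 4096) :
    Eqv (rw6 (sr5 a b c d e f)) ![a, b, c, d, e, f] := by
  intro t
  have h := pk_spec ha (mn_lt c hb) (mx_lt hb hc) (mn_lt e hd) (mx_lt hd he) hf t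
  have := cnt_ce t b c
  have := cnt_ce t d e
  simp only [Matrix.cons_val] at h ⊢
  unfold sr5
  omega

def sr4 (a b c d e f : ℕ) : ℕ :=
  sr5 (Nat.sub a (Nat.sub a b))
    (Nat.add b (Nat.sub a b))
    (Nat.sub c (Nat.sub c d))
    (Nat.add d (Nat.sub c d))
    (Nat.sub e (Nat.sub e f))
    (Nat.add f (Nat.sub e f))

theorem sr4_spec {a b c d e f : ℕ} (ha : a < 4096) (hb : b < 4096) (hc : c < 4096)
    (hd : d < 4096) (he : e < 4096) (hf : f < 4096) :
    Eqv (rw6 (sr4 a b c d e f)) ![a, b, c, d, e, f] := by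
  intro t
  have h := sr5_spec (mn_lt b ha) (mx_lt ha hb) (mn_lt d hc) (mx_lt hc hd) (mn_lt f he) (mx_lt he hf) t
  have := cnt_ce t a b
  have := cnt_ce t c d
  have := cnt_ce t e f
  simp only [Matrix.cons_val] at h ⊢
  unfold sr4
  omega

def sr3 (a b c d e f : ℕ) : ℕ :=
  sr4 (Nat.sub a (Nat.sub a d))
    b
    (Nat.sub c (Nat.sub c f))
    (Nat.add d (Nat.sub a d))
    e
    (Nat.add f (Nat.sub c f))

theorem sr3_spec {a b c d e f : ℕ} (ha : a < 4096) (hb : b < 4096) (hc : c < 4096)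
    (hd : d < 4096) (he : e < 4096) (hf : f < 4096) :
    Eqv (rw6 (sr3 a b c d e f)) ![a, b, c, d, e, f] := by
  intro t
  have h := sr4_spec (mn_lt d ha) hb (mn_lt f hc) (mx_lt ha hd) he (mx_lt hc hf) t
  have := cnt_ce t a d
  have := cnt_ce t c f
  simp only [Matrix.cons_val] at h ⊢
  unfold sr3
  omega

def sr2 (a b c d e f : ℕ) : ℕ :=
  sr3 a
    (Nat.sub b (Nat.sub b c))
    (Nat.add c (Nat.sub b c))
    (Nat.sub d (Nat.sub d e))
    (Nat.add e (Nat.sub d e))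
    f

theorem sr2_spec {a b c d e f : ℕ} (ha : a < 4096) (hb : b < 4096) (hc : c < 4096)
    (hd : d < 4096) (he : e < 4096) (hf : f < 4096) :
    Eqv (rw6 (sr2 a b c d e f)) ![a, b, c, d, e, f] := by
  intro t
  have h := sr3_spec ha (mn_lt c hb) (mx_lt hb hc) (mn_lt e hd) (mx_lt hd he) hf t
  have := cnt_ce t b c
  have := cnt_ce t d e
  simp only [Matrix.cons_val] at h ⊢
  unfold sr2
  omega

def srt (a b c d e f : ℕ) : ℕ :=
  sr2 (Nat.sub a (Nat.sub a f))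
    (Nat.sub b (Nat.sub b d))
    (Nat.sub c (Nat.sub c e))
    (Nat.add d (Nat.sub b d))
    (Nat.add e (Nat.sub c e))
    (Nat.add f (Nat.sub a f))

theorem srt_spec {a b c d e f : ℕ} (ha : a < 4096) (hb : b < 4096) (hc : c < 4096)
    (hd : d < 4096) (he : e < 4096) (hf : f < 4096) :
    Eqv (rw6 (srt a b c d e f)) ![a, b, c, d, e, f] := by
  intro t
  have h := sr2_spec (mn_lt f ha) (mn_lt d hb) (mn_lt e hc) (mx_lt hb hd) (mx_lt hc he) (mx_lt ha hf) t
  have := cnt_ce t a f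
  have := cnt_ce t b d
  have := cnt_ce t c e
  simp only [Matrix.cons_val] at h ⊢
  unfold srt
  omega

/-- both six bit fields of the row lie between 16 and 47 -/
def safe (x : ℕ) : Bool := Nat.beq (Nat.land (Nat.add x 1040) 2080) 2080

theorem safe_spec {x : ℕ} (hx : x < 4096) (h : safe x = true) :
    16 ≤ x / 64 ∧ x / 64 ≤ 47 ∧ 16 ≤ x % 64 ∧ x % 64 ≤ 47 := by
  have : allN (fun x => decide (safe x = true →
      16 ≤ x / 64 ∧ x / 64 ≤ 47 ∧ 16 ≤ x % 64 ∧ x % 64 ≤ 47)) 4096 = true := by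
    decide +kernel
  exact of_decide_eq_true (allN_sound this x hx) h

/-- a function of the rows, read on a table of keys -/
def tb (Φ : (Fin 6 → ℕ) → ℝ) (K : ℕ) : ℕ → ℝ := fun k => Φ (rw6 (dg 72 K k))

/-! the expansion step -/

noncomputable def e1 (z n' K' h y a b c d e : ℕ) : Bool :=
  an (safe y) (an (Nat.blt h n')
    (Nat.beq (dg 72 K' h) (ins (Nat.sub (Nat.add y z) 1040) a b c d e)))

noncomputable def eChk (z n' K' key hs : ℕ) : Bool :=
  rows key fun a b c d e f => rows hs fun h0 h1 h2 h3 h4 h5 =>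
    an (e1 z n' K' h0 a b c d e f) (an (e1 z n' K' h1 b a c d e f) (an (e1 z n' K' h2 c a b d e f)
      (an (e1 z n' K' h3 d a b c e f) (an (e1 z n' K' h4 e a b c d f)
        (e1 z n' K' h5 f a b c d e)))))

def pw (w h : ℕ) : ℕ := Nat.pow 2 (Nat.mul w h)

def eU (w hs : ℕ) : ℕ :=
  rows hs fun h0 h1 h2 h3 h4 h5 =>
    Nat.add (Nat.add (Nat.add (pw w h0) (pw w h1)) (Nat.add (pw w h2) (pw w h3)))
      (Nat.add (pw w h4) (pw w h5))

theorem e1_sound {Φ : (Fin 6 → ℕ) → ℝ} (hs : Sym Φ) {w z n' K' h y a b c d e : ℕ}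
    (hz : z / 64 < 32 ∧ z % 64 < 32) (hy : y < 4096) (ha : a < 4096) (hb : b < 4096)
    (hc : c < 4096) (hd : d < 4096) (he : e < 4096) (H : e1 z n' K' h y a b c d e = true) :
    safe y = true ∧ Rep w n' (tb Φ K') (pw w h) 1 (Φ ![y + z - 1040, a, b, c, d, e]) := by
  rw [e1, an_iff, an_iff] at H
  obtain ⟨h1, h2, h3⟩ := H
  refine ⟨h1, ?_⟩
  have h4 := safe_spec hy h1
  have h5 : dg 72 K' h = ins (y + z - 1040) a b c d e := Nat.eq_of_beq_eq_true h3
  have h6 : tb Φ K' h = Φ ![y + z - 1040, a, b, c, d, e] := by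
    rw [tb, h5]
    exact hs _ _ (ins_spec (by omega) ha hb hc hd he)
  rw [← h6]
  exact Rep.unit (Nat.blt_eq.mp h2)

theorem eChk_sound {Φ Φ' : (Fin 6 → ℕ) → ℝ} (hs : Sym Φ') {w z n' K' key hh : ℕ}
    (hz : z / 64 < 32 ∧ z % 64 < 32)
    (hE : ∀ e : Fin 6 → ℕ, (∀ r, e r < 4096 ∧ safe (e r) = true) →
      Φ e = ∑ r, Φ' (Function.update e r (e r + z - 1040)))
    (H : eChk z n' K' key hh = true) : Rep w n' (tb Φ' K') (eU w hh) 6 (Φ (rw6 key)) := by
  rw [eChk, rows_eq, rows_eq] at H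
  simp only [an_iff] at H
  obtain ⟨h0, h1, h2, h3, h4, h5⟩ := H
  have b := rw6_lt key
  have g0 := e1_sound (w := w) hs hz (b _) (b _) (b _) (b _) (b _) (b _) h0
  have g1 := e1_sound (w := w) hs hz (b _) (b _) (b _) (b _) (b _) (b _) h1
  have g2 := e1_sound (w := w) hs hz (b _) (b _) (b _) (b _) (b _) (b _) h2
  have g3 := e1_sound (w := w) hs hz (b _) (b _) (b _) (b _) (b _) (b _) h3
  have g4 := e1_sound (w := w) hs hz (b _) (b _) (b _) (b _) (b _) (b _) h4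
  have g5 := e1_sound (w := w) hs hz (b _) (b _) (b _) (b _) (b _) (b _) h5
  have t := ((g0.2.add g1.2).add (g2.2.add g3.2)).add (g4.2.add g5.2)
  have eu : ((eU w hh : ℕ) : ℤ) = ((pw w (rw6 hh 0) : ℕ) + (pw w (rw6 hh 1) : ℕ) +
      ((pw w (rw6 hh 2) : ℕ) + (pw w (rw6 hh 3) : ℕ)) +
      ((pw w (rw6 hh 4) : ℕ) + (pw w (rw6 hh 5) : ℕ)) : ℤ) := by
    rw [eU, rows_eq]
    simp only [Nat.add_eq]
    push_cast; rfl
  rw [hE _ fun r => ⟨b r, by
    fin_cases r
    exacts [g0.1, g1.1, g2.1, g3.1, g4.1, g5.1]⟩, eu, Fin.sum_univ_six]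
  generalize rw6 key = e at *
  have q0 : Φ' (Function.update e 0 (e 0 + z - 1040)) =
      Φ' ![e 0 + z - 1040, e 1, e 2, e 3, e 4, e 5] := hs _ _ fun c => by simp
  have q1 : Φ' (Function.update e 1 (e 1 + z - 1040)) =
      Φ' ![e 1 + z - 1040, e 0, e 2, e 3, e 4, e 5] := hs _ _ fun c => by simp; omega
  have q2 : Φ' (Function.update e 2 (e 2 + z - 1040)) =
      Φ' ![e 2 + z - 1040, e 0, e 1, e 3, e 4, e 5] := hs _ _ fun c => by simp; omega
  have q3 : Φ' (Function.update e 3 (e 3 + z - 1040)) =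
      Φ' ![e 3 + z - 1040, e 0, e 1, e 2, e 4, e 5] := hs _ _ fun c => by simp; omega
  have q4 : Φ' (Function.update e 4 (e 4 + z - 1040)) =
      Φ' ![e 4 + z - 1040, e 0, e 1, e 2, e 3, e 5] := hs _ _ fun c => by simp; omega
  have q5 : Φ' (Function.update e 5 (e 5 + z - 1040)) =
      Φ' ![e 5 + z - 1040, e 0, e 1, e 2, e 3, e 4] := hs _ _ fun c => by simp; omega
  rw [q0, q1, q2, q3, q4, q5]
  have : ∀ a b c d e f : ℝ, a + b + c + d + e + f = a + b + (c + d) + (e + f) := by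
    intros; ring
  rw [this]
  exact t

/-- look a list of six rows up in a table after sorting -/
noncomputable def lk (n' K' h a b c d e f : ℕ) : Bool :=
  an (Nat.blt h n') (Nat.beq (dg 72 K' h) (srt a b c d e f))

theorem lk_sound {Φ : (Fin 6 → ℕ) → ℝ} (hs : Sym Φ) {w n' K' h a b c d e f : ℕ}
    (ha : a < 4096) (hb : b < 4096) (hc : c < 4096) (hd : d < 4096) (he : e < 4096)
    (hf : f < 4096) (H : lk n' K' h a b c d e f = true) :
    Rep w n' (tb Φ K') (pw w h) 1 (Φ ![a, b, c, d, e, f]) := by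
  rw [lk, an_iff] at H
  have h5 : dg 72 K' h = srt a b c d e f := Nat.eq_of_beq_eq_true H.2
  have h6 : tb Φ K' h = Φ ![a, b, c, d, e, f] := by
    rw [tb, h5]
    exact hs _ _ (srt_spec ha hb hc hd he hf)
  rw [← h6]
  exact Rep.unit (Nat.blt_eq.mp H.1)

end Vale.Agent.P355
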