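import Vale.Agent.P355.Seg
import Mathlib.Analysis.InnerProductSpace.PiL2

/-! From orthonormal bases to the abstract system. -/

namespace Vale.Agent.P355

open scoped InnerProductSpace

noncomputable def sysOf {ι : Type} (B : ι → OrthonormalBasis (Fin 6) ℂ (EuclideanSpace ℂ (Fin 6)))
    (h : ∀ i j, i ≠ j → ∀ a b, ‖⟪B i a, B j b⟫_ℂ‖ ^ 2 = 1 / 6) : Sys ι where
  u i a j b := (√6 : ℝ) * ⟪B i a, B j b⟫_ℂ
  s := √6
  hs := Real.mul_self_sqrt (by norm_num)
  cj i a j b := by rw [map_mul, Complex.conj_ofReal, inner_conj_symm]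
  uni i a j b hij := by
    have e : ((√6 : ℝ) : ℂ) * (√6 : ℝ) = 6 := by
      rw [← Complex.ofReal_mul, Real.mul_self_sqrt (by norm_num)]; rfl
    rw [mul_mul_mul_comm, e, ← inner_conj_symm (B j b), Complex.mul_conj', ← Complex.ofReal_pow,
      h i j hij]
    norm_num
  res i a j b k := by
    simp only [mul_mul_mul_comm ((√6 : ℝ) : ℂ)]
    rw [← Finset.mul_sum, OrthonormalBasis.sum_inner_mul_inner, mul_assoc]
  diag i a b := by
    rw [orthonormal_iff_ite.1 (B i).orthonormal]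
    split_ifs <;> simp

theorem le_of_cert {n : ℕ} (hn : ∀ _ : Ctx (Fin (n + 4)), False) (k : ℕ)
    (B : Fin k → OrthonormalBasis (Fin 6) ℂ (EuclideanSpace ℂ (Fin 6)))
    (h : ∀ i j, i ≠ j → ∀ a b, ‖⟪B i a, B j b⟫_ℂ‖ ^ 2 = 1 / 6) : k ≤ n + 3 := by
  by_contra hk
  have hk' : n + 4 ≤ k := by omega
  exact hn { sysOf (fun i => B (Fin.castLE hk' i))
      (fun i j hij => h _ _ ((Fin.castLE_injective hk').ne hij)) with
    x := ⟨0, by omega⟩
    l1 := ⟨1, by omega⟩
    l2 := ⟨2, by omega⟩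
    l3 := ⟨3, by omega⟩
    h01 := by simp
    h02 := by simp
    h03 := by simp
    h12 := by simp
    h13 := by simp
    h23 := by simp }

def Base.F (g : Base) (l i j : ℕ) : Prop := ∃ H, fine g.nF g.KF (g.lam l).R ((g.lam l).vec i)
  ((g.lam l).vec j) ((g.lam l).tab i j) H = true

theorem Base.ok (g : Base) (nv : ℕ → ℕ) (apl : List ℕ) (h0 : allPerms = apl) (hL : g.nL ≤ 16)
    (h1 : allN (fun l => decide (apl.filter (keep (g.lam l).row) = (g.lam l).R ∧
      (g.lam l).v.length = nv l)) g.nL = true)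
    (h2 : ∀ l < g.nL, ∀ i < nv l, ∀ j < nv l, g.F l i j)
    (h3 : ∀ t < g.nT, allN (fun t' => coarse g.nF g.KF (g.ka t) (g.ka t') (g.ct t t')) g.nT = true) :
    g.OK := by
  have h1' := fun l hl => of_decide_eq_true (allN_sound h1 l hl)
  refine ⟨hL, fun l hl => ?_, fun l hl i hi j hj => ?_,
    fun t ht t' ht' => coarse_sound (allN_sound (h3 t ht) t' ht')⟩
  · rw [← (h1' l hl).1, ← h0]
    exact renum _
  · rw [(h1' l hl).2] at hi hj
    obtain ⟨H, hH⟩ := h2 l hl i hi j hj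
    exact fine_sound hH

end Vale.Agent.P355
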