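import Mathlib.Algebra.BigOperators.Intervals
import Mathlib.Algebra.Order.BigOperators.Group.Finset
import Mathlib.Algebra.BigOperators.Ring.Finset
import Mathlib.Data.Real.Basic
import Mathlib.Tactic.Ring
import Mathlib.Tactic.Linarith
import Mathlib.Tactic.Positivity
import Mathlib.Tactic.NormNum

/-! Integer vectors packed into one big number, and linear forms stored that way. -/

namespace Vale.Agent.P355

open Finset

/-- digit `k` of `P` in base `2 ^ w` -/
def dg (w P k : ℕ) : ℕ := Nat.mod (Nat.shiftRight P (Nat.mul w k)) (Nat.pow 2 w)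

theorem dg_eq (w P k : ℕ) : dg w P k = P / (2 ^ w) ^ k % 2 ^ w := by
  have e : dg w P k = (P >>> (w * k)) % 2 ^ w := rfl
  rw [e, Nat.shiftRight_eq_div_pow, pow_mul]

theorem dg_lt (w P k : ℕ) : dg w P k < 2 ^ w := by
  rw [dg_eq]; exact Nat.mod_lt _ (by positivity)

/-- signed digit -/
def vl (w P k : ℕ) : ℤ := Int.subNatNat (dg w P k) (Nat.pow 2 (Nat.sub w 1))

theorem vl_eq (w P k : ℕ) : vl w P k = (dg w P k : ℤ) - 2 ^ (w - 1) := by
  have e : vl w P k = Int.subNatNat (dg w P k) (2 ^ (w - 1)) := rfl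
  rw [e, Int.subNatNat_eq_coe]; push_cast; rfl

theorem abs_vl_le {w : ℕ} (hw : 1 ≤ w) (P k : ℕ) : |vl w P k| ≤ 2 ^ (w - 1) := by
  have h := dg_lt w P k
  have e : 2 ^ w = 2 * 2 ^ (w - 1) := by
    rw [← pow_succ']; congr 1; omega
  rw [e] at h
  have h' : (dg w P k : ℤ) < 2 * 2 ^ (w - 1) := by exact_mod_cast h
  have h0 : (0 : ℤ) ≤ dg w P k := by positivity
  rw [vl_eq, abs_le]; constructor <;> linarith

theorem digit_sum (B : ℕ) (hB : 0 < B) : ∀ (n : ℕ) (d : ℕ → ℕ), (∀ k < n, d k < B) → ∀ j < n,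
    (∑ k ∈ range n, d k * B ^ k) / B ^ j % B = d j := by
  intro n
  induction n with
  | zero => intro d _ j hj; omega
  | succ n ih =>
    intro d hd j hj
    have e : ∑ k ∈ range (n + 1), d k * B ^ k = d 0 + B * ∑ k ∈ range n, d (k + 1) * B ^ k := by
      rw [sum_range_succ', mul_sum, add_comm]
      simp only [pow_zero, mul_one]
      congr 1
      exact sum_congr rfl fun k _ => by ring
    rw [e]
    have h0 := hd 0 (by omega)
    cases j with
    | zero => simp [Nat.mod_eq_of_lt h0]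
    | succ j =>
      rw [pow_succ', ← Nat.div_div_eq_div_mul, Nat.add_mul_div_left _ _ hB, Nat.div_eq_of_lt h0,
        zero_add]
      exact ih (fun k => d (k + 1)) (fun k hk => hd _ (by omega)) j (by omega)

/-- the number all of whose first `n` digits are `2 ^ (w - 1)` -/
def off (w n : ℕ) : ℕ :=
  Nat.mul (Nat.pow 2 (Nat.sub w 1))
    (Nat.div (Nat.sub (Nat.pow 2 (Nat.mul w n)) 1) (Nat.sub (Nat.pow 2 w) 1))

theorem off_eq {w : ℕ} (hw : 1 ≤ w) (n : ℕ) :
    off w n = ∑ k ∈ range n, 2 ^ (w - 1) * (2 ^ w) ^ k := by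
  have e : off w n = 2 ^ (w - 1) * ((2 ^ (w * n) - 1) / (2 ^ w - 1)) := rfl
  have h2 : 2 ≤ 2 ^ w := by
    calc 2 = 2 ^ 1 := rfl
      _ ≤ 2 ^ w := Nat.pow_le_pow_right (by norm_num) hw
  rw [e, ← mul_sum, pow_mul]
  congr 1
  generalize 2 ^ w = B at h2
  obtain ⟨b, rfl⟩ : ∃ b, B = b + 1 := ⟨B - 1, by omega⟩
  have : ∀ n, (b + 1) ^ n = b * ∑ k ∈ range n, (b + 1) ^ k + 1 := by
    intro n
    induction n with
    | zero => simp
    | succ n ih => rw [sum_range_succ, pow_succ, mul_add]; nlinarith [ih]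
  rw [this n, Nat.add_sub_cancel, Nat.add_sub_cancel, Nat.mul_div_cancel_left _ (by omega)]

/-- `V` packs an integer vector of mass at most `m` whose pairing with `Φ` is `S` -/
def Rep (w n : ℕ) (Φ : ℕ → ℝ) (V : ℤ) (m : ℕ) (S : ℝ) : Prop :=
  ∃ v : ℕ → ℤ, V = ∑ k ∈ range n, v k * ((2 : ℤ) ^ w) ^ k ∧ ∑ k ∈ range n, |v k| ≤ m ∧
    S = ∑ k ∈ range n, (v k : ℝ) * Φ k

/-- the signed digits of `P` have mass at most `m` and pair with `Φ` to `S` -/
def Form (w n : ℕ) (Φ : ℕ → ℝ) (P : ℕ) (m : ℕ) (S : ℝ) : Prop :=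
  ∑ k ∈ range n, |vl w P k| ≤ m ∧ S = ∑ k ∈ range n, (vl w P k : ℝ) * Φ k

variable {w n : ℕ} {Φ : ℕ → ℝ}

theorem Rep.zero : Rep w n Φ 0 0 0 := ⟨fun _ => 0, by simp, by simp, by simp⟩

theorem Rep.mono {V : ℤ} {m m' : ℕ} {S : ℝ} (h : Rep w n Φ V m S) (hm : m ≤ m') :
    Rep w n Φ V m' S := by
  obtain ⟨v, a, b, c⟩ := h
  exact ⟨v, a, b.trans (by exact_mod_cast hm), c⟩

theorem Rep.add {V V' : ℤ} {m m' : ℕ} {S S' : ℝ} (h : Rep w n Φ V m S) (h' : Rep w n Φ V' m' S') :
    Rep w n Φ (V + V') (m + m') (S + S') := by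
  obtain ⟨v, a, b, c⟩ := h
  obtain ⟨v', a', b', c'⟩ := h'
  refine ⟨fun k => v k + v' k, ?_, ?_, ?_⟩
  · rw [a, a', ← sum_add_distrib]; exact sum_congr rfl fun k _ => by ring
  · calc ∑ k ∈ range n, |v k + v' k| ≤ ∑ k ∈ range n, (|v k| + |v' k|) :=
          sum_le_sum fun k _ => abs_add_le _ _
      _ ≤ _ := by rw [sum_add_distrib]; push_cast; linarith
  · rw [c, c', ← sum_add_distrib]; exact sum_congr rfl fun k _ => by push_cast; ring

theorem Rep.smul {V : ℤ} {m : ℕ} {S : ℝ} (h : Rep w n Φ V m S) (c : ℤ) :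
    Rep w n Φ (c * V) (c.natAbs * m) (c * S) := by
  obtain ⟨v, a, b, d⟩ := h
  refine ⟨fun k => c * v k, ?_, ?_, ?_⟩
  · rw [a, mul_sum]; exact sum_congr rfl fun k _ => by ring
  · simp only [abs_mul]
    rw [← mul_sum]; push_cast
    exact mul_le_mul_of_nonneg_left b (abs_nonneg c)
  · rw [d, mul_sum]; exact sum_congr rfl fun k _ => by push_cast; ring

theorem Rep.unit {h : ℕ} (hh : h < n) : Rep w n Φ ((2 ^ (w * h) : ℕ) : ℤ) 1 (Φ h) := by
  refine ⟨fun k => if k = h then 1 else 0, ?_, ?_, ?_⟩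
  · simp [hh, pow_mul]
  · simp only [apply_ite abs, abs_one, abs_zero]
    simp [hh]
  · simp [hh]

theorem Rep.sum {α : Type} (s : Finset α) {V : α → ℤ} {m : α → ℕ} {S : α → ℝ}
    (h : ∀ a ∈ s, Rep w n Φ (V a) (m a) (S a)) :
    Rep w n Φ (∑ a ∈ s, V a) (∑ a ∈ s, m a) (∑ a ∈ s, S a) := by
  classical
  induction s using Finset.induction_on with
  | empty => simpa using Rep.zero
  | insert a s ha ih =>
    rw [sum_insert ha, sum_insert ha, sum_insert ha]
    exact (h a (mem_insert_self _ _)).add (ih fun b hb => h b (mem_insert_of_mem hb))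

/-- from a signed packing to digits -/
def fin (w n : ℕ) (V : ℤ) : ℕ := Int.toNat (Int.add V (Int.ofNat (off w n)))

theorem Rep.form {V : ℤ} {m : ℕ} {S : ℝ} (h : Rep w n Φ V m S) (hw : 1 ≤ w)
    (hm : m < 2 ^ (w - 1)) : Form w n Φ (fin w n V) m S := by
  obtain ⟨v, a, b, c⟩ := h
  have hv : ∀ k < n, |v k| < 2 ^ (w - 1) := by
    intro k hk
    have h1 : |v k| ≤ ∑ k ∈ range n, |v k| :=
      single_le_sum (f := fun k => |v k|) (fun k _ => abs_nonneg _) (mem_range.2 hk)
    have h2 : (m : ℤ) < 2 ^ (w - 1) := by exact_mod_cast hm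
    linarith
  have e2 : (2 : ℤ) ^ w = 2 * 2 ^ (w - 1) := by
    rw [← pow_succ']; congr 1; omega
  have hd : ∀ k < n, (((v k + 2 ^ (w - 1)).toNat : ℕ) : ℤ) = v k + 2 ^ (w - 1) := by
    intro k hk
    have := abs_lt.1 (hv k hk)
    exact Int.toNat_of_nonneg (by linarith)
  have e : fin w n V = ∑ k ∈ range n, (v k + 2 ^ (w - 1)).toNat * (2 ^ w) ^ k := by
    have e1 : fin w n V = (V + (off w n : ℤ)).toNat := rfl
    rw [e1, off_eq hw, a]
    have : ∑ k ∈ range n, v k * ((2 : ℤ) ^ w) ^ k + ((∑ k ∈ range n, 2 ^ (w - 1) * (2 ^ w) ^ k : ℕ) : ℤ)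
        = ((∑ k ∈ range n, (v k + 2 ^ (w - 1)).toNat * (2 ^ w) ^ k : ℕ) : ℤ) := by
      push_cast
      rw [← sum_add_distrib]
      refine sum_congr rfl fun k hk => ?_
      rw [hd k (mem_range.1 hk)]; ring
    rw [this, Int.toNat_natCast]
  have key : ∀ k ∈ range n, vl w (fin w n V) k = v k := by
    intro k hk
    have hk' := mem_range.1 hk
    rw [vl_eq, dg_eq, e, digit_sum _ (by positivity) n _ (fun j hj => ?_) k hk', hd k hk']
    · ring
    · have := abs_lt.1 (hv j hj)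
      have h3 : (((v j + 2 ^ (w - 1)).toNat : ℕ) : ℤ) < ((2 ^ w : ℕ) : ℤ) := by
        rw [hd j hj]; push_cast; linarith
      exact_mod_cast h3
  refine ⟨?_, ?_⟩
  · rw [sum_congr rfl fun k hk => by rw [key k hk]]; exact b
  · rw [c]; exact sum_congr rfl fun k hk => by rw [key k hk]

theorem Form.start (hw : 1 ≤ w) (P : ℕ) :
    Form w n Φ P (n * 2 ^ (w - 1)) (∑ k ∈ range n, (vl w P k : ℝ) * Φ k) := by
  refine ⟨?_, rfl⟩
  calc ∑ k ∈ range n, |vl w P k| ≤ ∑ _k ∈ range n, (2 : ℤ) ^ (w - 1) :=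
        sum_le_sum fun k _ => abs_vl_le hw P k
    _ = _ := by simp

theorem Form.mono {P m m' : ℕ} {S : ℝ} (h : Form w n Φ P m S) (hm : m ≤ m') :
    Form w n Φ P m' S := ⟨h.1.trans (by exact_mod_cast hm), h.2⟩

/-! loops written with bare recursors -/

noncomputable def an (a b : Bool) : Bool := @Bool.rec (fun _ => Bool) false b a

theorem an_iff {a b : Bool} : an a b = true ↔ a = true ∧ b = true := by
  cases a <;> simp [an]

noncomputable def all0 (f : ℕ → Bool) (n : ℕ) : Bool :=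
  @Nat.rec (fun _ => Bool) true (fun k ih => an (f k) ih) n

theorem all0_sound {f : ℕ → Bool} {n : ℕ} (h : all0 f n = true) : ∀ k < n, f k = true := by
  induction n with
  | zero => intro k hk; omega
  | succ n ih =>
    have e : all0 f (n + 1) = an (f n) (all0 f n) := rfl
    rw [e, an_iff] at h
    intro k hk
    rcases Nat.lt_succ_iff_lt_or_eq.1 hk with hk | rfl
    · exact ih h.2 k hk
    · exact h.1

noncomputable def allN (f : ℕ → Bool) (n : ℕ) : Bool :=
  an (all0 (fun j => all0 (fun i => f (Nat.add (Nat.mul 64 j) i)) 64) (Nat.div n 64))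
    (all0 (fun i => f (Nat.add (Nat.mul 64 (Nat.div n 64)) i)) (Nat.mod n 64))

theorem allN_sound {f : ℕ → Bool} {n : ℕ} (h : allN f n = true) : ∀ k < n, f k = true := by
  rw [allN, an_iff] at h
  intro k hk
  by_cases c : k / 64 < n / 64
  · have := all0_sound (all0_sound h.1 _ c) (k % 64) (Nat.mod_lt _ (by norm_num))
    have e : Nat.add (Nat.mul 64 (k / 64)) (k % 64) = k := Nat.div_add_mod k 64
    rwa [e] at this
  · have := all0_sound h.2 (k - 64 * (n / 64)) (show _ < n % 64 by omega)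
    have e : Nat.add (Nat.mul 64 (Nat.div n 64)) (k - 64 * (n / 64)) = k :=
      show 64 * (n / 64) + (k - 64 * (n / 64)) = k by omega
    rwa [e] at this

noncomputable def sum0 (f : ℕ → ℤ) (n : ℕ) : ℤ :=
  @Nat.rec (fun _ => ℤ) (Int.ofNat 0) (fun k ih => Int.add ih (f k)) n

theorem sum0_eq (f : ℕ → ℤ) (n : ℕ) : sum0 f n = ∑ k ∈ range n, f k := by
  induction n with
  | zero => rfl
  | succ n ih => rw [sum_range_succ, ← ih]; rfl

noncomputable def sumN (f : ℕ → ℤ) (n : ℕ) : ℤ :=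
  Int.add (sum0 (fun j => sum0 (fun i => f (Nat.add (Nat.mul 64 j) i)) 64) (Nat.div n 64))
    (sum0 (fun i => f (Nat.add (Nat.mul 64 (Nat.div n 64)) i)) (Nat.mod n 64))

theorem sumN_eq (f : ℕ → ℤ) (n : ℕ) : sumN f n = ∑ k ∈ range n, f k := by
  have h : ∀ q, ∑ j ∈ range q, ∑ i ∈ range 64, f (64 * j + i) = ∑ k ∈ range (64 * q), f k := by
    intro q
    induction q with
    | zero => rfl
    | succ q ih => rw [sum_range_succ, ih, Nat.mul_succ, sum_range_add]
  have e : sumN f n = sum0 (fun j => sum0 (fun i => f (64 * j + i)) 64) (n / 64) +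
      sum0 (fun i => f (64 * (n / 64) + i)) (n % 64) := rfl
  rw [e]
  simp only [sum0_eq]
  rw [h, ← sum_range_add, Nat.div_add_mod]

noncomputable def nat0 (f : ℕ → ℕ) (n : ℕ) : ℕ :=
  @Nat.rec (fun _ => ℕ) 0 (fun k ih => Nat.add ih (f k)) n

theorem nat0_eq (f : ℕ → ℕ) (n : ℕ) : nat0 f n = ∑ k ∈ range n, f k := by
  induction n with
  | zero => rfl
  | succ n ih => rw [sum_range_succ, ← ih]; rfl

noncomputable def natN (f : ℕ → ℕ) (n : ℕ) : ℕ :=
  Nat.add (nat0 (fun j => nat0 (fun i => f (Nat.add (Nat.mul 64 j) i)) 64) (Nat.div n 64))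
    (nat0 (fun i => f (Nat.add (Nat.mul 64 (Nat.div n 64)) i)) (Nat.mod n 64))

theorem natN_eq (f : ℕ → ℕ) (n : ℕ) : natN f n = ∑ k ∈ range n, f k := by
  have h : ∀ q, ∑ j ∈ range q, ∑ i ∈ range 64, f (64 * j + i) = ∑ k ∈ range (64 * q), f k := by
    intro q
    induction q with
    | zero => simp
    | succ q ih => rw [Nat.mul_succ, sum_range_add f, ← ih, sum_range_succ]
  rw [natN]
  simp only [nat0_eq, Nat.add_eq, Nat.mul_eq]
  rw [h, ← sum_range_add]
  exact congrArg (fun n => ∑ k ∈ range n, f k) (Nat.div_add_mod n 64)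

/-- push a form through a map sending each basis element to a packed vector -/
noncomputable def acc (w n P : ℕ) (U : ℕ → ℕ) : ℤ :=
  Int.subNatNat (natN (fun k => Nat.mul (dg w P k) (U k)) n)
    (Nat.mul (Nat.pow 2 (Nat.sub w 1)) (natN U n))

theorem acc_eq (w n P : ℕ) (U : ℕ → ℕ) :
    acc w n P U = ∑ k ∈ range n, vl w P k * (U k : ℤ) := by
  rw [acc, Int.subNatNat_eq_coe, natN_eq, natN_eq]
  simp only [Nat.mul_eq, Nat.pow_eq, Nat.sub_eq]
  push_cast
  rw [mul_sum, ← sum_sub_distrib]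
  exact sum_congr rfl fun k _ => by rw [vl_eq]; ring

theorem Form.acc {P m : ℕ} {S : ℝ} (h : Form w n Φ P m S) {w' n' c : ℕ} {Φ' : ℕ → ℝ}
    {U : ℕ → ℕ} (hU : ∀ k < n, Rep w' n' Φ' (U k) c (Φ k)) :
    Rep w' n' Φ' (acc w n P U) (c * m) S := by
  rw [acc_eq, h.2]
  refine (Rep.sum (range n) fun k hk => (hU k (mem_range.1 hk)).smul (vl w P k)).mono ?_
  rw [← sum_mul, mul_comm]
  refine Nat.mul_le_mul_left _ ?_
  have := h.1
  have e2 : ∑ k ∈ range n, |vl w P k| = ((∑ k ∈ range n, (vl w P k).natAbs : ℕ) : ℤ) := by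
    push_cast; rfl
  rw [e2] at this
  exact_mod_cast this

/-- loops over a list that consume `b` bits of hints per element -/
noncomputable def allL {α : Type} (b : ℕ) (f : α → ℕ → Bool) (l : List α) : ℕ → Bool :=
  @List.rec α (fun _ => ℕ → Bool) (fun _ => true)
    (fun a _ ih H => an (f a (Nat.mod H (Nat.pow 2 b))) (ih (Nat.shiftRight H b))) l

noncomputable def sumL {α : Type} (b : ℕ) (f : α → ℕ → ℤ) (l : List α) : ℕ → ℤ :=
  @List.rec α (fun _ => ℕ → ℤ) (fun _ => Int.ofNat 0)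
    (fun a _ ih H => Int.add (f a (Nat.mod H (Nat.pow 2 b))) (ih (Nat.shiftRight H b))) l

theorem rep_list {α : Type} {b c : ℕ} {f : α → ℕ → Bool} {U : α → ℕ → ℤ} {G : α → ℝ}
    (hf : ∀ a H, f a H = true → Rep w n Φ (U a H) c (G a)) :
    ∀ (l : List α) (H : ℕ), allL b f l H = true →
      Rep w n Φ (sumL b U l H) (l.length * c) (l.map G).sum := by
  intro l
  induction l with
  | nil =>
    intro H _
    rw [List.length_nil, zero_mul]
    exact (Rep.zero : Rep w n Φ 0 0 0)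
  | cons a l ih =>
    intro H h
    have e : allL b f (a :: l) H = an (f a (H % 2 ^ b)) (allL b f l (H >>> b)) := rfl
    have e' : sumL b U (a :: l) H = U a (H % 2 ^ b) + sumL b U l (H >>> b) := rfl
    rw [e, an_iff] at h
    rw [e', List.map_cons, List.sum_cons, List.length_cons, Nat.succ_mul, add_comm (_ * c)]
    exact (hf _ _ h.1).add (ih _ h.2)

noncomputable def natL {α : Type} (b : ℕ) (f : α → ℕ → ℕ) (l : List α) : ℕ → ℕ :=
  @List.rec α (fun _ => ℕ → ℕ) (fun _ => 0)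
    (fun a _ ih H => Nat.add (f a (Nat.mod H (Nat.pow 2 b))) (ih (Nat.shiftRight H b))) l

theorem natL_eq {α : Type} (b : ℕ) (f : α → ℕ → ℕ) (l : List α) :
    ∀ H, (natL b f l H : ℤ) = sumL b (fun a H => (f a H : ℤ)) l H := by
  induction l with
  | nil => intro H; rfl
  | cons a l ih =>
    intro H
    have e : natL b f (a :: l) H = f a (H % 2 ^ b) + natL b f l (H >>> b) := rfl
    rw [e, Nat.cast_add, ih]; rfl

/-- loops over a plain list -/
noncomputable def allP {α : Type} (f : α → Bool) (l : List α) : Bool :=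
  @List.rec α (fun _ => Bool) true (fun a _ ih => an (f a) ih) l

theorem allP_sound {α : Type} {f : α → Bool} {l : List α} (h : allP f l = true) :
    ∀ a ∈ l, f a = true := by
  induction l with
  | nil => simp
  | cons a l ih =>
    have e : allP f (a :: l) = an (f a) (allP f l) := rfl
    rw [e, an_iff] at h
    intro b hb
    rcases List.mem_cons.1 hb with rfl | hb
    · exact h.1
    · exact ih h.2 b hb

noncomputable def sumP {α : Type} (f : α → ℤ) (l : List α) : ℤ :=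
  @List.rec α (fun _ => ℤ) (Int.ofNat 0) (fun a _ ih => Int.add (f a) ih) l

theorem sumP_eq {α : Type} (f : α → ℤ) (l : List α) : sumP f l = (l.map f).sum := by
  induction l with
  | nil => rfl
  | cons a l ih => rw [List.map_cons, List.sum_cons, ← ih]; rfl

noncomputable def natP {α : Type} (f : α → ℕ) (l : List α) : ℕ :=
  @List.rec α (fun _ => ℕ) 0 (fun a _ ih => Nat.add (f a) ih) l

theorem natP_eq {α : Type} (f : α → ℕ) (l : List α) : natP f l = (l.map f).sum := by
  induction l with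
  | nil => rfl
  | cons a l ih => rw [List.map_cons, List.sum_cons, ← ih]; rfl

theorem Rep.lsum {α : Type} (l : List α) {V : α → ℤ} {m : α → ℕ} {S : α → ℝ}
    (h : ∀ a ∈ l, Rep w n Φ (V a) (m a) (S a)) :
    Rep w n Φ (l.map V).sum (l.map m).sum (l.map S).sum := by
  induction l with
  | nil => simpa using (Rep.zero : Rep w n Φ 0 0 0)
  | cons a l ih =>
    simp only [List.map_cons, List.sum_cons]
    exact (h a List.mem_cons_self).add (ih fun b hb => h b (List.mem_cons_of_mem _ hb))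

end Vale.Agent.P355
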