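import Vale.Agent.P355.Fine

/-! The positive semidefinite part of a certificate. -/

namespace Vale.Agent.P355

open Finset Equiv Sys

structure Lam where
  row : ℕ
  R : List ℕ
  v : List (List ℕ)
  T : List (List ℤ)

structure Cl where
  m0 : ℕ
  c0 : List ℕ
  m1 : ℕ
  c1 : List ℕ

structure Orb where
  vc : ℕ
  ty : ℕ
  it : List (List It × List It × List It)

/-- data that does not depend on the certificate -/
structure Base where
  nL : ℕ
  nT : ℕ
  nF : ℕ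
  KF : ℕ
  lams : List Lam
  kap : List ℕ
  cts : List (List St)

structure GD extends Base where
  K : ℕ
  nO : ℕ
  orbs : List Orb
  cls : List Cl
  ord : ℕ
  inv : ℕ
  sc : ℕ

def Lam.vec (L : Lam) (i : ℕ) : List ℕ := L.v.getD i []
def Lam.tab (L : Lam) (i j : ℕ) : ℤ := (L.T.getD i []).getD j 0

def Orb.U (O : Orb) (s l : ℕ) : List It :=
  if s = 0 then (O.it.getD l ([], [], [])).1
  else if s = 1 then (O.it.getD l ([], [], [])).2.1 else (O.it.getD l ([], [], [])).2.2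

namespace Base

variable (g : Base)

def lam (l : ℕ) : Lam := g.lams.getD l ⟨0, [], [], []⟩
def ka (t : ℕ) : ℕ := g.kap.getD t 0
def ct (t t' : ℕ) : St := (g.cts.getD t []).getD t' ⟨0, 0, 0⟩

structure OK : Prop where
  hL : g.nL ≤ 16
  ren : ∀ l < g.nL, REnum (g.lam l).row (g.lam l).R
  fin : ∀ l < g.nL, ∀ i < (g.lam l).v.length, ∀ j < (g.lam l).v.length,
    FineOK g.nF g.KF (g.lam l).R ((g.lam l).vec i) ((g.lam l).vec j) ((g.lam l).tab i j)
  crs : ∀ t < g.nT, ∀ t' < g.nT, CoarseOK g.nF g.KF (g.ka t) (g.ka t') (g.ct t t')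

end Base

namespace GD

variable (g : GD)

def orb (o : ℕ) : Orb := g.orbs.getD o ⟨0, 0, []⟩
def cl (l : ℕ) : Cl := g.cls.getD l ⟨0, [], 0, []⟩
def msz (l s : ℕ) : ℕ := if s < 2 then (g.cl l).m0 else (g.cl l).m1
def cols (l s : ℕ) : List ℕ := if s < 2 then (g.cl l).c0 else (g.cl l).c1

structure OK : Prop extends Base.OK g.toBase where
  hK : g.K ≤ 5
  hK1 : 1 ≤ g.K
  ty : ∀ o < g.nO, (g.orb o).ty < g.nT
  len : ∀ l < g.nL, ∀ o < g.nO, ∀ s < 3, ((g.orb o).U s l).length ≤ 8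
  gram : ∀ l < g.nL, ∀ o < g.nO, ∀ s < 3, ∀ I ∈ (g.orb o).U s l,
    XOK (g.lam l).v.length (g.msz l s) (g.cols l s) I

noncomputable def asum (O O' : Orb) (s t : ℕ) : ℤ :=
  sum0 (fun l => sumP (fun I => sumP (fun J =>
    Int.mul (vl 128 I.X J.pos) ((g.lam l).tab I.i J.i)) (O'.U t l)) (O.U s l)) g.nL

noncomputable def aval (Φ : (Fin 6 → ℕ) → ℝ) (O O' : Orb) (s t : ℕ) : ℝ :=
  ∑ l ∈ range g.nL, ls (O.U s l) fun I => ls (O'.U t l) fun J => (vl 128 I.X J.pos : ℝ) *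
    fval Φ (g.lam l).R ((g.lam l).vec I.i) ((g.lam l).vec J.i)

variable {g}

theorem asum_sound (h : g.OK) {o o' s t : ℕ} (ho : o < g.nO) (ho' : o' < g.nO) (hs : s < 3)
    (ht : t < 3) (hst : s < 2 ↔ t < 2) {Φ : (Fin 6 → ℕ) → ℝ} (hΦ : Sym Φ) :
    Rep 128 g.nF (tb Φ g.KF) (g.asum (g.orb o) (g.orb o') s t) (2 ^ 95)
      (g.aval Φ (g.orb o) (g.orb o') s t) := by
  rw [asum, sum0_eq, aval]
  refine (Rep.sum (range g.nL) (m := fun _ => 2 ^ 91) fun l hl => ?_).mono ?_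
  · have hl := mem_range.1 hl
    rw [sumP_eq]
    refine (Rep.lsum _ (m := fun _ => 2 ^ 88) fun I hI => ?_).mono ?_
    · rw [sumP_eq]
      refine (Rep.lsum _ (m := fun _ => 2 ^ 85) fun J hJ => ?_).mono ?_
      · have xI := h.gram l hl o ho s hs I hI
        have xJ := h.gram l hl o' ho' t ht J hJ
        have e : g.msz l t = g.msz l s := by simp only [GD.msz, hst]
        refine ((h.fin l hl _ xI.1 _ xJ.1 Φ hΦ).smul _).mono ?_
        have := (xI.2.2 J.pos (e ▸ xJ.2.1)).1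
        omega
      · rw [List.map_const', List.sum_replicate, smul_eq_mul]
        have := h.len l hl o' ho' t ht
        omega
    · rw [List.map_const', List.sum_replicate, smul_eq_mul]
      have := h.len l hl o ho s hs
      omega
  · rw [sum_const, card_range, smul_eq_mul]
    have := h.hL
    omega

end GD

def vq (vc i : ℕ) : ℕ := Nat.add 16 (dg 5 vc i)

def pv (vc vc' x : ℕ) : ℕ :=
  Nat.add (Nat.mul 64 (Nat.sub (Nat.add (vq vc' (Nat.mod x 8)) 32) (vq vc (Nat.div x 8))))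
    (vq vc (Nat.div x 8))

/-- the vector in the orbit `O` described by a filling -/
def bet (g : GD) (O : Orb) (a : ℕ) : Fin 6 → ℤ :=
  fun r => (dg 5 O.vc (dg 3 (g.ka O.ty) (dg 3 (a / 2) r)) : ℤ) - 16

theorem dec_pv (vc vc' κ κ' a : ℕ) {b : ℕ} (hb : b < 8) :
    dec (pv vc vc' (cz κ κ' (8 * a + b))) =
      (((dg 5 vc' (dg 3 κ' b) : ℤ) - 16) - ((dg 5 vc (dg 3 κ a) : ℤ) - 16),
        (dg 5 vc (dg 3 κ a) : ℤ) - 16) := by
  have e1 : cz κ κ' (8 * a + b) = 8 * dg 3 κ ((8 * a + b) / 8) + dg 3 κ' ((8 * a + b) % 8) := rfl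
  rw [show (8 * a + b) / 8 = a by omega, show (8 * a + b) % 8 = b by omega] at e1
  have h1 := dg_lt 3 κ' b
  have e2 : ∀ x, pv vc vc' x = 64 * (16 + dg 5 vc' (x % 8) + 32 - (16 + dg 5 vc (x / 8))) +
    (16 + dg 5 vc (x / 8)) := fun _ => rfl
  rw [e1, e2, show (8 * dg 3 κ a + dg 3 κ' b) / 8 = dg 3 κ a by omega,
    show (8 * dg 3 κ a + dg 3 κ' b) % 8 = dg 3 κ' b by omega]
  have h2 := dg_lt 5 vc (dg 3 κ a)
  have h3 := dg_lt 5 vc' (dg 3 κ' b)
  generalize dg 5 vc (dg 3 κ a) = u at *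
  generalize dg 5 vc' (dg 3 κ' b) = w at *
  simp only [dec, Prod.mk.injEq]
  omega

noncomputable def meas (g : GD) (l s col : ℕ) : Ms :=
  (List.range g.nO).flatMap fun o => ((g.orb o).U s l).flatMap fun I =>
    ((g.lam l).vec I.i).map fun a => ((vl 40 col I.pos : ℝ) * sg a, bet g (g.orb o) a)

theorem ev_flat {α : Type} (l : List α) (f : α → Ms) (h : (Fin 6 → ℤ) → ℝ) :
    ev (l.flatMap f) h = ls l fun a => ev (f a) h := by
  induction l with
  | nil => rfl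
  | cons a l ih =>
    rw [List.flatMap_cons, ls_cons, ← ih, ev, List.map_append, List.sum_append]; rfl

theorem ev_meas (g : GD) (l s col : ℕ) (h : (Fin 6 → ℤ) → ℝ) :
    ev (meas g l s col) h = ∑ o ∈ range g.nO, ls ((g.orb o).U s l) fun I =>
      (vl 40 col I.pos : ℝ) * ls ((g.lam l).vec I.i) fun a => sg a * h (bet g (g.orb o) a) := by
  rw [meas, ev_flat, ls_range]
  refine sum_congr rfl fun o _ => ?_
  rw [ev_flat]
  refine ls_congr fun I _ => ?_
  rw [← ls_mul, ev, List.map_map, ls]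
  simp only [Function.comp_def, mul_assoc]

/-- the five packed vectors attached to a pair of orbits -/
noncomputable def pV (g : GD) (O O' : Orb) (p : ℕ) : ℤ :=
  if p = 0 then g.asum O O' 0 0 else if p = 1 then g.K * g.asum O O' 0 1
  else if p = 2 then g.K * g.asum O O' 1 0
  else if p = 3 then g.K * g.asum O O' 1 1 + g.asum O O' 2 2
  else (g.K * (g.K - 1) : ℕ) * g.asum O O' 1 1 + (-1) * g.asum O O' 2 2

noncomputable def pChk (g : GD) (nC KC : ℕ) (O O' : Orb) (H : ℕ) : Bool :=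
  all0 (fun p => cAll (pv O.vc O'.vc) p nC KC (dg (20 * (g.ct O.ty O'.ty).n) H p)
    (g.ct O.ty O'.ty).n (g.ct O.ty O'.ty).K) 5

noncomputable def pAcc (g : GD) (O O' : Orb) (H : ℕ) : ℤ :=
  sum0 (fun p => cAcc (dg (20 * (g.ct O.ty O'.ty).n) H p) 128 (g.ct O.ty O'.ty).n
    (fin 128 (g.ct O.ty O'.ty).n (acc 128 g.nF (fin 128 g.nF (pV g O O' p))
      fun k => pw 128 (dg 8 (g.ct O.ty O'.ty).H k)))) 5

namespace Ctx

variable {ι : Type} [Fintype ι] [DecidableEq ι] (T : Ctx ι)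

noncomputable def Ph (g : GD) (O O' : Orb) (p : ℕ) (e : Fin 6 → ℕ) : ℝ :=
  T.Y p [] (pv O.vc O'.vc ∘ cz (g.ka O.ty) (g.ka O'.ty) ∘ e)

theorem Ph_sym (g : GD) (O O' : Orb) (p : ℕ) : Sym (T.Ph g O O' p) :=
  ((T.Y_sym p []).map _).map _

noncomputable def pS (g : GD) (O O' : Orb) (p : ℕ) : ℝ :=
  if p = 0 then g.aval (T.Ph g O O' p) O O' 0 0
  else if p = 1 then g.K * g.aval (T.Ph g O O' p) O O' 0 1
  else if p = 2 then g.K * g.aval (T.Ph g O O' p) O O' 1 0
  else if p = 3 then g.K * g.aval (T.Ph g O O' p) O O' 1 1 + g.aval (T.Ph g O O' p) O O' 2 2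
  else g.K * (g.K - 1) * g.aval (T.Ph g O O' p) O O' 1 1 - g.aval (T.Ph g O O' p) O O' 2 2

noncomputable def bv (g : GD) (o o' : ℕ) : ℝ := ∑ p ∈ range 5, T.pS g (g.orb o) (g.orb o') p

variable {g : GD}

theorem pV_sound (h : g.OK) {o o' : ℕ} (ho : o < g.nO) (ho' : o' < g.nO) (p : ℕ) :
    Rep 128 g.nF (tb (T.Ph g (g.orb o) (g.orb o') p) g.KF) (pV g (g.orb o) (g.orb o') p)
      (2 ^ 100) (T.pS g (g.orb o) (g.orb o') p) := by
  have A := fun s t hs ht hst =>
    GD.asum_sound h ho ho' (s := s) (t := t) hs ht hst (T.Ph_sym g (g.orb o) (g.orb o') p)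
  have hK := h.hK
  have hK1 := h.hK1
  unfold pV pS
  split_ifs
  · exact (A 0 0 (by norm_num) (by norm_num) Iff.rfl).mono (by norm_num)
  · refine ((A 0 1 (by norm_num) (by norm_num) (by norm_num)).smul g.K).cast ?_ (by norm_num)
    rw [Int.natAbs_natCast]; omega
  · refine ((A 1 0 (by norm_num) (by norm_num) (by norm_num)).smul g.K).cast ?_ (by norm_num)
    rw [Int.natAbs_natCast]; omega
  · refine (((A 1 1 (by norm_num) (by norm_num) Iff.rfl).smul g.K).add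
      (A 2 2 (by norm_num) (by norm_num) Iff.rfl)).cast ?_ (by norm_num)
    rw [Int.natAbs_natCast]; omega
  · refine (((A 1 1 (by norm_num) (by norm_num) Iff.rfl).smul (g.K * (g.K - 1) : ℕ)).add
      ((A 2 2 (by norm_num) (by norm_num) Iff.rfl).smul (-1))).cast ?_ ?_
    · have : g.K * (g.K - 1) ≤ 5 * 4 := Nat.mul_le_mul hK (by omega)
      rw [Int.natAbs_natCast, show (-1 : ℤ).natAbs = 1 from rfl]; omega
    · push_cast [Nat.cast_pred hK1]; ring

theorem pChk_sound (h : g.OK) {o o' : ℕ} (ho : o < g.nO) (ho' : o' < g.nO) {nC KC H : ℕ}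
    (hc : pChk g nC KC (g.orb o) (g.orb o') H = true) :
    Rep 128 nC (T.tc KC) (pAcc g (g.orb o) (g.orb o') H) (2 ^ 103) (T.bv g o o') := by
  rw [pAcc, sum0_eq, bv]
  refine (Rep.sum (range 5) (m := fun _ => 2 ^ 100) fun p hp => ?_).mono (by simp)
  have hp := mem_range.1 hp
  have r1 := (T.pV_sound h ho ho' p).form (by norm_num) (by norm_num)
  have r2 := (r1.acc (h.crs _ (h.ty o ho) _ (h.ty o' ho') _
    ((T.Y_sym p []).map (pv (g.orb o).vc (g.orb o').vc)))).form (by norm_num) (by norm_num)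
  rw [one_mul] at r2
  exact T.cAll_sound hp r2 (all0_sound hc p hp)

theorem fval_eq (h : g.OK) {l : ℕ} (hl : l < g.nL) (O O' : Orb) (p : ℕ) (vi vj : List ℕ) :
    fval (T.Ph g O O' p) (g.lam l).R vi vj = ls vi fun a => sg a * ls vj fun b => sg b *
      T.G T.x T.l1 (T.L2 p) (T.L3 p) (fun r => dg 3 (g.lam l).row r) (bet g O a) (bet g O' b) := by
  refine ls_congr fun a _ => congrArg _ (ls_congr fun b _ => congrArg _ ?_)
  have e := h.ren l hl fun ρ => T.Ph g O O' p fun r => pa a r + dg 3 (Nat.div b 2) (ρ r)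
  unfold pb G
  rw [e]
  refine sum_congr rfl fun ρ _ => ?_
  unfold Ph Y
  congr 1
  funext r
  exact dec_pv _ _ _ _ _ (dg_lt 3 _ _)

theorem bl_eq (h : g.OK) {l : ℕ} (hl : l < g.nL) (p : ℕ) {s t : ℕ} (hs : s < 3) (ht : t < 3)
    (hst : s < 2 ↔ t < 2) :
    (ls (g.cols l s) fun col => T.Bl T.x T.l1 (T.L2 p) (T.L3 p)
      (fun r => dg 3 (g.lam l).row r) (meas g l s col) (meas g l t col)) =
    ∑ o ∈ range g.nO, ∑ o' ∈ range g.nO, ls ((g.orb o).U s l) fun I => ls ((g.orb o').U t l)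
      fun J => (vl 128 I.X J.pos : ℝ) * fval (T.Ph g (g.orb o) (g.orb o') p) (g.lam l).R
        ((g.lam l).vec I.i) ((g.lam l).vec J.i) := by
  simp only [Bl, ev_meas, T.fval_eq h hl]
  rw [ls_sum]
  refine sum_congr rfl fun o ho => ?_
  rw [← ls_sum, ls_comm]
  refine ls_congr fun I hI => ?_
  simp only [mul_sum, ls_sum]
  refine sum_congr rfl fun o' ho' => ?_
  have xI := h.gram l hl o (mem_range.1 ho) s hs I hI
  have e : g.msz l t = g.msz l s := by simp only [GD.msz, hst]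
  rw [ls_congr (l := (g.orb o').U t l) fun J hJ => congrArg (· * _)
    (xI.2.2 J.pos (e ▸ (h.gram l hl o' (mem_range.1 ho') t ht J hJ).2.1)).2]
  simp only [← ls_mul', ← ls_mul]
  conv_rhs => rw [ls_comm]
  refine (ls_comm _ _ _).trans (ls_congr fun a _ => ?_)
  refine (ls_comm _ _ _).trans (ls_congr fun J _ => ?_)
  refine (ls_comm _ _ _).trans (ls_congr fun b _ => ls_congr fun col _ => ?_)
  ring

theorem psd_total (h : g.OK) (hK : Fintype.card ι = g.K + 2) :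
    0 ≤ ∑ o ∈ range g.nO, ∑ o' ∈ range g.nO, T.bv g o o' := by
  set E : ℕ → ℕ → ℕ → ℕ → ℝ := fun p s t l => ∑ o ∈ range g.nO, ∑ o' ∈ range g.nO,
    ls ((g.orb o).U s l) fun I => ls ((g.orb o').U t l)
      fun J => (vl 128 I.X J.pos : ℝ) * fval (T.Ph g (g.orb o) (g.orb o') p) (g.lam l).R
        ((g.lam l).vec I.i) ((g.lam l).vec J.i) with hE
  have key : ∀ l ∈ range g.nL, 0 ≤ (E 0 0 0 l + g.K * E 1 0 1 l + g.K * E 2 1 0 l +
      g.K * E 3 1 1 l + g.K * (g.K - 1) * E 4 1 1 l) + (E 3 2 2 l + -1 * E 4 2 2 l) := by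
    intro l hl
    have hl := mem_range.1 hl
    have h0 := ls_nonneg (l := g.cols l 0) fun col _ => T.psd0 T.h01 T.h02 T.h03 T.h12
      T.h13 T.h23 hK (fun r => dg 3 (g.lam l).row r) (meas g l 0 col) (meas g l 1 col)
    have h1 := ls_nonneg (l := g.cols l 2) fun col _ => T.psd1 T.h01 T.h02 T.h03 T.h12
      T.h13 (fun r => dg 3 (g.lam l).row r) (meas g l 2 col)
    simp only [sub_eq_add_neg, ← neg_one_mul (T.Bl _ _ _ _ _ _ _), ls_add, ls_mul] at h0 h1
    have e0 := T.bl_eq h hl 0 (s := 0) (t := 0) (by norm_num) (by norm_num) Iff.rfl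
    have e1 := T.bl_eq h hl 1 (s := 0) (t := 1) (by norm_num) (by norm_num) (by norm_num)
    have e2 := T.bl_eq h hl 2 (s := 1) (t := 0) (by norm_num) (by norm_num) (by norm_num)
    have e3 := T.bl_eq h hl 3 (s := 1) (t := 1) (by norm_num) (by norm_num) Iff.rfl
    have e4 := T.bl_eq h hl 4 (s := 1) (t := 1) (by norm_num) (by norm_num) Iff.rfl
    have e5 := T.bl_eq h hl 3 (s := 2) (t := 2) (by norm_num) (by norm_num) Iff.rfl
    have e6 := T.bl_eq h hl 4 (s := 2) (t := 2) (by norm_num) (by norm_num) Iff.rfl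
    simp only [hE, ← e0, ← e1, ← e2, ← e3, ← e4, ← e5, ← e6, sub_eq_add_neg]
    exact add_nonneg h0 h1
  refine (sum_nonneg key).trans (le_of_eq ?_)
  simp only [bv, sum_range_succ, range_zero, sum_empty, pS, GD.aval, hE]
  norm_num
  simp only [sum_add_distrib, sum_sub_distrib, sum_neg_distrib, ← mul_sum,
    sum_comm (s := range g.nL)]
  ring

end Ctx

end Vale.Agent.P355
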