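import Vale.Agent.P355.Code

/-! Linear relations between moments. -/

namespace Vale.Agent.P355

open Finset Sys

def clp (x : ℕ) : ℕ := Nat.add 2048 (Nat.mod x 64)

inductive Blk : Type
  | a1 (p n K P : ℕ) (s : St) (H1 H0 : ℕ) : Blk
  | a2 (p n K P : ℕ) (s t : St) (H2 H0 : ℕ) : Blk
  | hid (t : ℕ) (a b c d mu : ℤ) (d1 : List St) (H1 : ℕ) (d2 : List St) (H2 : ℕ) : Blk

def hidP (t : ℕ) : ℕ := if t = 0 then 0 else if t = 1 then 1 else 4

def hid1 (t : ℕ) (a b c d : ℤ) : List (ℤ × ℤ) :=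
  if t = 0 then inc33 a b c d else if t = 1 then inc221 a b c d else inc1 a b c

def hid2 (t : ℕ) (a b c d : ℤ) : List (ℤ × ℤ) :=
  if t = 0 then inc33 (-a) (-c) (-b) (-d) else if t = 1 then inc221 (-a) (-c) (-b) (-d)
  else inc1 (-a) c b

def hE1 (t : ℕ) (a b c d : ℤ) : ℕ :=
  if t = 0 then 0 else if t = 1 then (a + c).natAbs + (b + d).natAbs
  else c.natAbs + ((a - c).natAbs + (b + c).natAbs)

def hE2 (t : ℕ) (a b c d : ℤ) : ℕ :=
  if t = 0 then 0 else if t = 1 then (-a + -b).natAbs + (-c + -d).natAbs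
  else b.natAbs + ((-a - b).natAbs + (c + b).natAbs)

def hI (t : ℕ) (a b c d : ℤ) : ℕ := (hE2 t a b c d - hE1 t a b c d) / 2
def hJ (t : ℕ) (a b c d : ℤ) : ℕ := (hE1 t a b c d - hE2 t a b c d) / 2

noncomputable def blkChk (nC KC : ℕ) : Blk → Bool
  | .a1 p n K _ s H1 H0 => an (decide ((p = 0 ∨ p = 2) ∧ n ≤ 4096))
      (an (chChk p nC KC H1 [(-1, 0)] [s] n K) (cAll clp p nC KC H0 n K))
  | .a2 p n K _ s t H2 H0 => an (decide ((p = 1 ∨ p = 3 ∨ p = 4) ∧ n ≤ 4096))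
      (an (chChk p nC KC H2 [(-1, 0), (1, 0)] [s, t] n K) (cAll id p nC KC H0 n K))
  | .hid t a b c d _ d1 H1 d2 H2 =>
      an (decide (2 * hI t a b c d + hE1 t a b c d = 2 * hJ t a b c d + hE2 t a b c d ∧
        (hid1 t a b c d).length ≤ 30 ∧ (hid2 t a b c d).length ≤ 30))
      (an (chChk (hidP t) nC KC H1 (hid1 t a b c d) d1 1 ZK)
        (chChk (hidP t) nC KC H2 (hid2 t a b c d) d2 1 ZK))

noncomputable def blkAcc (sc : ℕ) : Blk → ℤ
  | .a1 _ n _ P s H1 H0 =>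
      (sc : ℤ) * (chAcc H1 [(-1, 0)] [s] 56 n P + (-1) * cAcc H0 56 n P)
  | .a2 _ n _ P s t H2 H0 =>
      (sc : ℤ) * (chAcc H2 [(-1, 0), (1, 0)] [s, t] 56 n P + (-6) * cAcc H0 56 n P)
  | .hid t a b c d mu d1 H1 d2 H2 =>
      mu * (6 ^ hI t a b c d * chAcc H1 (hid1 t a b c d) d1 56 1 36028797018963969 +
        (-6 ^ hJ t a b c d) * chAcc H2 (hid2 t a b c d) d2 56 1 36028797018963969)

def blkMass (sc : ℕ) : Blk → ℕ
  | .a1 _ n _ _ _ _ _ => sc * (7 * (n * 2 ^ 55))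
  | .a2 _ n _ _ _ _ _ _ => sc * (42 * (n * 2 ^ 55))
  | .hid t a b c d mu _ _ _ _ => mu.natAbs * (6 ^ hI t a b c d * 6 ^ (hid1 t a b c d).length +
      6 ^ hJ t a b c d * 6 ^ (hid2 t a b c d).length)

theorem Rep.cast {w n : ℕ} {Φ : ℕ → ℝ} {V : ℤ} {m m' : ℕ} {S S' : ℝ} (h : Rep w n Φ V m S)
    (hm : m ≤ m') (hS : S = S') : Rep w n Φ V m' S' := hS ▸ h.mono hm

theorem form_one (Φ : (Fin 6 → ℕ) → ℝ) :
    Form 56 1 (tb Φ ZK) 36028797018963969 1 (Φ (rw6 ZK)) := by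
  have h1 : vl 56 36028797018963969 0 = 1 := by decide +kernel
  have h2 : dg 72 ZK 0 = ZK := by decide +kernel
  simp [Form, h1, tb, h2]

namespace Ctx

variable {ι : Type} [Fintype ι] [DecidableEq ι] (T : Ctx ι)

theorem Y_A1 {p : ℕ} (hp : p = 0 ∨ p = 2) (e : Fin 6 → ℕ) :
    T.Y p [(-1, 0)] e = T.Y p [] (clp ∘ e) := by
  have h3 : T.L3 p = T.l1 := if_pos hp
  unfold Y
  rw [h3, T.W_A1 T.h01]
  congr 1
  funext r
  have : clp (e r) = 2048 + e r % 64 := rfl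
  simp only [Function.comp, dec, this, Prod.mk.injEq]
  omega

theorem Y_A2 {p : ℕ} (hp : p = 1 ∨ p = 3 ∨ p = 4) (e : Fin 6 → ℕ) :
    T.Y p [(-1, 0), (1, 0)] e = 6 * T.Y p [] e := by
  refine T.W_A2 T.h01 (T.hL3 p) ?_ _
  rcases hp with rfl | rfl | rfl
  exacts [T.h12, T.h12, T.h13]

theorem Y_hid {t : ℕ} {a b c d : ℤ} {i j : ℕ}
    (h : 2 * i + hE1 t a b c d = 2 * j + hE2 t a b c d) :
    6 ^ i * T.Y (hidP t) (hid1 t a b c d) (rw6 ZK) =
      6 ^ j * T.Y (hidP t) (hid2 t a b c d) (rw6 ZK) := by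
  rw [Y_ZK, Y_ZK]
  unfold hidP hid1 hid2 hE1 hE2 at *
  by_cases h0 : t = 0
  · simp only [if_pos h0] at *
    obtain rfl : i = j := by omega
    exact congrArg _ (T.W_33 T.h01 a b c d)
  · by_cases h1 : t = 1
    · simp only [if_neg h0, if_pos h1] at *
      exact T.W_221 T.h01 T.h02 T.h12 a b c d h
    · simp only [if_neg h0, if_neg h1] at *
      exact T.W_1 T.h01 T.h02 T.h03 T.h12 T.h13 T.h23 a b c h

theorem blk_sound {nC KC : ℕ} (sc : ℕ) (B : Blk) (h : blkChk nC KC B = true) :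
    Rep 128 nC (T.tc KC) (blkAcc sc B) (blkMass sc B) 0 := by
  cases B with
  | a1 p n K P s H1 H0 =>
    rw [blkChk, an_iff, an_iff] at h
    obtain ⟨hp, hn⟩ := of_decide_eq_true h.1
    have hp5 : p < 5 := by omega
    have r1 := T.chain_sound hp5 _ _ 56 n K P _ _ (Form.start (by norm_num) P)
      (by norm_num; omega) h.2.1
    have r2 := T.cAll_sound hp5 (Form.start (w := 56) (by norm_num) P) h.2.2
    have r := (r1.add (r2.smul (-1))).smul sc
    simp only [tb, T.Y_A1 hp] at r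
    rw [blkAcc, blkMass]
    refine r.cast (le_of_eq ?_) (by push_cast; ring)
    simp only [Int.natAbs_natCast, List.length_cons, List.length_nil, Int.reduceNeg,
      Int.natAbs_neg]
    congr 1
    norm_num; ring
  | a2 p n K P s t H2 H0 =>
    rw [blkChk, an_iff, an_iff] at h
    obtain ⟨hp, hn⟩ := of_decide_eq_true h.1
    have hp5 : p < 5 := by omega
    have r1 := T.chain_sound hp5 _ _ 56 n K P _ _ (Form.start (by norm_num) P)
      (by norm_num; omega) h.2.1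
    have r2 := T.cAll_sound hp5 (Form.start (w := 56) (by norm_num) P) h.2.2
    have r := (r1.add (r2.smul (-6))).smul sc
    simp only [tb, T.Y_A2 hp, Function.id_comp, mul_left_comm _ (6 : ℝ), ← mul_sum] at r
    rw [blkAcc, blkMass]
    refine r.cast (le_of_eq ?_) (by push_cast; ring)
    simp only [Int.natAbs_natCast, List.length_cons, List.length_nil, Int.reduceNeg,
      Int.natAbs_neg]
    congr 1
    norm_num; ring
  | hid t a b c d mu d1 H1 d2 H2 =>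
    rw [blkChk, an_iff, an_iff] at h
    obtain ⟨he, l1, l2⟩ := of_decide_eq_true h.1
    have hp5 : hidP t < 5 := by unfold hidP; split_ifs <;> norm_num
    have bd : ∀ l, l ≤ 30 → 6 ^ l * 1 < 2 ^ 79 := fun l hl =>
      lt_of_le_of_lt (b := 6 ^ 30) (by rw [mul_one]; exact Nat.pow_le_pow_right (by norm_num) hl)
        (by norm_num)
    have r1 := T.chain_sound hp5 _ _ 56 1 ZK _ _ _ (form_one _) (bd _ l1) h.2.1
    have r2 := T.chain_sound hp5 _ _ 56 1 ZK _ _ _ (form_one _) (bd _ l2) h.2.2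
    have r := ((r1.smul (6 ^ hI t a b c d)).add (r2.smul (-6 ^ hJ t a b c d))).smul mu
    have e := T.Y_hid he
    rw [blkAcc, blkMass]
    refine r.cast (le_of_eq ?_) (by push_cast; rw [e]; ring)
    simp [Int.natAbs_pow]

end Ctx

end Vale.Agent.P355
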