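import Vale.Agent.P355.Psd

/-! Segments, chunks and the final contradiction. -/

namespace Vale.Agent.P355

open Finset Sys

structure Hd where
  n : ℕ
  K : ℕ
  P : ℕ
  Bd : ℕ
  qlo : ℕ
  qhi : ℕ

def GD.o1 (g : GD) (q : ℕ) : ℕ := Nat.div (dg 16 g.ord q) g.nO
def GD.o2 (g : GD) (q : ℕ) : ℕ := Nat.mod (dg 16 g.ord q) g.nO

noncomputable def pAll (g : GD) (nC KC : ℕ) (hs : List ℕ) : ℕ → Bool :=
  @List.rec ℕ (fun _ => ℕ → Bool) (fun _ => true) (fun H _ ih q =>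
    an (Nat.blt (dg 16 g.ord q) (Nat.mul g.nO g.nO))
      (an (pChk g nC KC (g.orb (g.o1 q)) (g.orb (g.o2 q)) H) (ih (Nat.add q 1)))) hs

noncomputable def pSum (g : GD) (hs : List ℕ) : ℕ → ℤ :=
  @List.rec ℕ (fun _ => ℕ → ℤ) (fun _ => Int.ofNat 0) (fun H _ ih q =>
    Int.add (pAcc g (g.orb (g.o1 q)) (g.orb (g.o2 q)) H) (ih (Nat.add q 1))) hs

noncomputable def segChk (g : GD) (nJ : ℕ) (d : Hd) (bl : List Blk) (hs : List ℕ) : Bool :=
  an (decide (d.qhi = d.qlo + hs.length ∧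
      natP (blkMass g.sc) bl + hs.length * 2 ^ 103 ≤ 2 ^ 116 ∧ dg 16 d.Bd 0 = 0 ∧
      dg 16 d.Bd nJ = d.n))
    (an (allP (blkChk d.n d.K) bl) (an (pAll g d.n d.K hs d.qlo)
      (Nat.beq (fin 128 d.n (Int.add (sumP (blkAcc g.sc) bl) (pSum g hs d.qlo))) d.P)))

noncomputable def pcChk (nG G j : ℕ) (q : Hd × ℕ) : Bool :=
  an (Nat.ble (dg 16 q.1.Bd j) (dg 16 q.1.Bd (Nat.add j 1)))
    (an (Nat.ble (dg 16 q.1.Bd (Nat.add j 1)) q.1.n)
      (allN (fun k => an (Nat.blt (dg 12 q.2 k) nG) (Nat.beq (dg 76 G (dg 12 q.2 k))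
        (dg 76 (Nat.shiftRight q.1.K (Nat.mul 76 (dg 16 q.1.Bd j))) k)))
        (Nat.sub (dg 16 q.1.Bd (Nat.add j 1)) (dg 16 q.1.Bd j))))

noncomputable def pcAcc (j : ℕ) (q : Hd × ℕ) : ℤ :=
  acc 128 (Nat.sub (dg 16 q.1.Bd (Nat.add j 1)) (dg 16 q.1.Bd j))
    (Nat.shiftRight q.1.P (Nat.mul 128 (dg 16 q.1.Bd j))) fun k => pw 128 (dg 12 q.2 k)

noncomputable def tSum (nG G P : ℕ) : ℤ :=
  sumN (fun k => ite0 (Nat.beq (dg 76 G k) (Nat.mul 8 ZK)) (vl 128 P k)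
    (Int.ofNat (Int.natAbs (vl 128 P k)))) nG

noncomputable def chunk (segs : List Hd) (j nG G : ℕ) (Hs : List ℕ) (t : ℤ) : Bool :=
  an (decide (Hs.length = segs.length ∧ segs.length ≤ 1024))
    (an (allP (pcChk nG G j) (segs.zip Hs))
      (decide (tSum nG G (fin 128 nG (sumP (pcAcc j) (segs.zip Hs))) ≤ t)))

theorem dg_shift (w P a k : ℕ) : dg w (Nat.shiftRight P (Nat.mul w a)) k = dg w P (a + k) := by
  have e : Nat.shiftRight P (Nat.mul w a) = P >>> (w * a) := rfl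
  rw [dg_eq, dg_eq, e, Nat.shiftRight_eq_div_pow, pow_mul, Nat.div_div_eq_div_mul, ← pow_add]

def cover : List Hd → ℕ → ℕ → Bool
  | [], q, N => Nat.beq q N
  | d :: l, q, N => Nat.beq d.qlo q && cover l d.qhi N

theorem cover_sound (f : ℕ → ℝ) (N : ℕ) : ∀ (l : List Hd) (q : ℕ), cover l q N = true →
    (∀ d ∈ l, d.qlo ≤ d.qhi) →
    q ≤ N ∧ (ls l fun d => ∑ i ∈ Ico d.qlo d.qhi, f i) = ∑ i ∈ Ico q N, f i := by
  intro l
  induction l with
  | nil =>
    intro q h _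
    obtain rfl : q = N := Nat.eq_of_beq_eq_true h
    simp [ls_nil]
  | cons d l ih =>
    intro q h hl
    rw [cover, Bool.and_eq_true] at h
    obtain rfl : d.qlo = q := Nat.eq_of_beq_eq_true h.1
    have h1 := hl d List.mem_cons_self
    obtain ⟨h2, h3⟩ := ih _ h.2 fun e he => hl e (List.mem_cons_of_mem _ he)
    exact ⟨h1.trans h2, by rw [ls_cons, h3, sum_Ico_consecutive _ h1 h2]⟩

theorem tele (f : ℕ → ℝ) (b : ℕ → ℕ) : ∀ n, (∀ j < n, b j ≤ b (j + 1)) →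
    b 0 ≤ b n ∧ ∑ j ∈ range n, ∑ i ∈ Ico (b j) (b (j + 1)), f i = ∑ i ∈ Ico (b 0) (b n), f i := by
  intro n
  induction n with
  | zero => simp
  | succ n ih =>
    intro h
    obtain ⟨h1, h2⟩ := ih fun j hj => h j (by omega)
    have h3 := h n (by omega)
    exact ⟨h1.trans h3, by rw [sum_range_succ, h2, sum_Ico_consecutive _ h1 h3]⟩

theorem sum_divmod (f : ℕ → ℕ → ℝ) (b : ℕ) : ∀ a, ∑ i ∈ range (a * b), f (i / b) (i % b) =
    ∑ o ∈ range a, ∑ o' ∈ range b, f o o' := by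
  intro a
  induction a with
  | zero => simp
  | succ a ih =>
    rw [Nat.succ_mul, sum_range_add, ih, sum_range_succ]
    refine congrArg _ (sum_congr rfl fun i hi => ?_)
    have hi := mem_range.1 hi
    rw [mul_comm, Nat.mul_add_div (by omega), Nat.mul_add_mod, Nat.div_eq_of_lt hi,
      Nat.mod_eq_of_lt hi, add_zero]

noncomputable def ordChk (g : GD) : Bool :=
  allN (fun q => decide (dg 16 g.ord q < g.nO * g.nO ∧ dg 16 g.inv (dg 16 g.ord q) = q ∧
    dg 16 g.inv q < g.nO * g.nO ∧ dg 16 g.ord (dg 16 g.inv q) = q)) (g.nO * g.nO)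

namespace Ctx

variable {ι : Type} [Fintype ι] [DecidableEq ι] (T : Ctx ι) {g : GD}

noncomputable def bq (g : GD) (q : ℕ) : ℝ := T.bv g (g.o1 q) (g.o2 q)

def SegOK (g : GD) (nJ : ℕ) (d : Hd) : Prop :=
  Form 128 d.n (T.tc d.K) d.P (2 ^ 116) (∑ q ∈ Ico d.qlo d.qhi, T.bq g q) ∧ d.qlo ≤ d.qhi ∧
    dg 16 d.Bd 0 = 0 ∧ dg 16 d.Bd nJ = d.n

theorem pAll_sound (h : g.OK) {nC KC : ℕ} : ∀ (hs : List ℕ) (q : ℕ), pAll g nC KC hs q = true →
    Rep 128 nC (T.tc KC) (pSum g hs q) (hs.length * 2 ^ 103)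
      (∑ i ∈ Ico q (q + hs.length), T.bq g i) := by
  intro hs
  induction hs with
  | nil => intro q _; exact Rep.zero.cast (by simp) (by simp)
  | cons H hs ih =>
    intro q hq
    have e : pAll g nC KC (H :: hs) q = an (Nat.blt (dg 16 g.ord q) (g.nO * g.nO))
      (an (pChk g nC KC (g.orb (g.o1 q)) (g.orb (g.o2 q)) H) (pAll g nC KC hs (q + 1))) := rfl
    have e' : pSum g (H :: hs) q =
      pAcc g (g.orb (g.o1 q)) (g.orb (g.o2 q)) H + pSum g hs (q + 1) := rfl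
    rw [e, an_iff, an_iff] at hq
    have h1 : dg 16 g.ord q < g.nO * g.nO := Nat.blt_eq.mp hq.1
    have h2 : g.o1 q < g.nO := Nat.div_lt_of_lt_mul h1
    have h3 : g.o2 q < g.nO := Nat.mod_lt _ (by omega)
    rw [e']
    refine ((T.pChk_sound h h2 h3 hq.2.1).add (ih _ hq.2.2)).cast
      (by rw [List.length_cons]; omega) ?_
    rw [List.length_cons, sum_eq_sum_Ico_succ_bot (show q < q + (hs.length + 1) by omega), bq,
      show q + (hs.length + 1) = q + 1 + hs.length by omega]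

theorem seg_sound (h : g.OK) {nJ : ℕ} {d : Hd} {bl : List Blk} {hs : List ℕ}
    (H : segChk g nJ d bl hs = true) : T.SegOK g nJ d := by
  rw [segChk, an_iff, an_iff, an_iff] at H
  obtain ⟨h1, h2, h3, h4⟩ := H
  obtain ⟨a, b, c, e⟩ := of_decide_eq_true h1
  refine ⟨?_, by omega, c, e⟩
  have r1 := Rep.lsum bl fun B hB => T.blk_sound g.sc B (allP_sound h2 B hB)
  rw [← sumP_eq, ← natP_eq] at r1
  have r2 := ((r1.add (T.pAll_sound h hs _ h3)).cast b (S' := ∑ q ∈ Ico d.qlo d.qhi, T.bq g q)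
    (by rw [a]; simp)).form (by norm_num) (by norm_num)
  rw [← Nat.eq_of_beq_eq_true h4]
  exact r2

noncomputable def piece (j : ℕ) (d : Hd) : ℝ :=
  ∑ k ∈ Ico (dg 16 d.Bd j) (dg 16 d.Bd (j + 1)), (vl 128 d.P k : ℝ) * T.tc d.K k

theorem pc_sound {nJ nG G j : ℕ} {q : Hd × ℕ} (h : T.SegOK g nJ q.1) (H : pcChk nG G j q = true) :
    dg 16 q.1.Bd j ≤ dg 16 q.1.Bd (j + 1) ∧
      Rep 128 nG (T.tc G) (pcAcc j q) (2 ^ 116) (T.piece j q.1) := by
  rw [pcChk, an_iff, an_iff] at H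
  have h1 : dg 16 q.1.Bd j ≤ dg 16 q.1.Bd (j + 1) := Nat.le_of_ble_eq_true H.1
  have h2 : dg 16 q.1.Bd (j + 1) ≤ q.1.n := Nat.le_of_ble_eq_true H.2.1
  refine ⟨h1, ?_⟩
  have hv : ∀ k, vl 128 (Nat.shiftRight q.1.P (Nat.mul 128 (dg 16 q.1.Bd j))) k =
      vl 128 q.1.P (dg 16 q.1.Bd j + k) := fun k => by rw [vl_eq, vl_eq, dg_shift]
  have F : Form 128 (dg 16 q.1.Bd (j + 1) - dg 16 q.1.Bd j)
      (fun k => T.tc q.1.K (dg 16 q.1.Bd j + k))
      (Nat.shiftRight q.1.P (Nat.mul 128 (dg 16 q.1.Bd j))) (2 ^ 116) (T.piece j q.1) := by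
    refine ⟨?_, ?_⟩
    · simp only [hv]
      rw [← sum_Ico_eq_sum_range fun k => |vl 128 q.1.P k|]
      refine le_trans (sum_le_sum_of_subset_of_nonneg (fun k hk => ?_) fun _ _ _ => abs_nonneg _)
        h.1.1
      rw [mem_Ico] at hk
      rw [mem_range]; omega
    · simp only [hv]
      rw [piece, sum_Ico_eq_sum_range]
  have := F.acc (U := fun k => pw 128 (dg 12 q.2 k)) (w' := 128) (n' := nG) (c := 1)
    (Φ' := T.tc G) fun k hk => by
      have h3 := allN_sound H.2.2 k hk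
      rw [an_iff, dg_shift] at h3
      have h4 : T.tc q.1.K (dg 16 q.1.Bd j + k) = T.tc G (dg 12 q.2 k) := by
        rw [tc, tc, Nat.eq_of_beq_eq_true h3.2]
      rw [h4]
      exact Rep.unit (Nat.blt_eq.mp h3.1)
  rwa [one_mul] at this

theorem chunk_sound {nJ : ℕ} {segs : List Hd} (h : ∀ d ∈ segs, T.SegOK g nJ d) {j nG G : ℕ}
    {Hs : List ℕ} {t : ℤ} (H : chunk segs j nG G Hs t = true) :
    (∀ d ∈ segs, dg 16 d.Bd j ≤ dg 16 d.Bd (j + 1)) ∧ ls segs (T.piece j) ≤ t * top ι := by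
  rw [chunk, an_iff, an_iff] at H
  obtain ⟨l1, l2⟩ := of_decide_eq_true H.1
  have hz : (segs.zip Hs).map Prod.fst = segs := List.map_fst_zip (by omega)
  have h1 : ∀ q ∈ segs.zip Hs, _ := fun q hq =>
    T.pc_sound (h q.1 (List.of_mem_zip hq).1) (allP_sound H.2.1 q hq)
  refine ⟨fun d hd => ?_, ?_⟩
  · rw [← hz] at hd
    obtain ⟨q, hq, rfl⟩ := List.mem_map.1 hd
    exact (h1 q hq).1
  have r := (Rep.lsum _ fun q hq => (h1 q hq).2).form (by norm_num) (by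
    rw [List.map_const', List.sum_replicate, smul_eq_mul, List.length_zip]
    have : min segs.length Hs.length ≤ 1024 := by omega
    omega)
  rw [← sumP_eq] at r
  have e : ls segs (T.piece j) = ((segs.zip Hs).map fun q => T.piece j q.1).sum := by
    conv_lhs => rw [← hz, ls, List.map_map]
    rfl
  have ht : ((tSum nG G (fin 128 nG (sumP (pcAcc j) (segs.zip Hs))) : ℤ) : ℝ) ≤ t := by
    exact_mod_cast of_decide_eq_true H.2.2
  rw [e, r.2]
  refine le_trans ?_ (mul_le_mul_of_nonneg_right ht top_pos.le)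
  rw [tSum, sumN_eq, Int.cast_sum, sum_mul]
  refine sum_le_sum fun k _ => ?_
  cases hb : Nat.beq (dg 76 G k) (Nat.mul 8 ZK)
  · simp only [ite0, Int.ofNat_eq_natCast, Int.natCast_natAbs, Int.cast_abs]
    refine (le_abs_self _).trans ?_
    rw [abs_mul]
    exact mul_le_mul_of_nonneg_left (T.Yc_bound _) (abs_nonneg _)
  · simp only [ite0]
    rw [tc, Nat.eq_of_beq_eq_true hb]
    exact le_of_eq (congrArg _ ((T.Yc_mk ZK (p := 0) (by norm_num)).trans (T.Y_top 0)))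

include T in
theorem final (h : g.OK) (hK : Fintype.card ι = g.K + 2) {nJ : ℕ} {segs : List Hd} {t : ℕ → ℤ}
    (hs : ∀ d ∈ segs, ∃ bl hs, segChk g nJ d bl hs = true)
    (hc : ∀ j < nJ, ∃ nG G Hs, chunk segs j nG G Hs (t j) = true)
    (hcov : cover segs 0 (g.nO * g.nO) = true) (hord : ordChk g = true)
    (ht : sum0 t nJ < 0) : False := by
  have hs' : ∀ d ∈ segs, T.SegOK g nJ d := fun d hd => by
    obtain ⟨_, _, H⟩ := hs d hd
    exact T.seg_sound h H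
  have hc' : ∀ j < nJ, (∀ d ∈ segs, dg 16 d.Bd j ≤ dg 16 d.Bd (j + 1)) ∧
      ls segs (T.piece j) ≤ t j * top ι := fun j hj => by
    obtain ⟨_, _, _, H⟩ := hc j hj
    exact T.chunk_sound hs' H
  have h1 := T.psd_total h hK
  have h2 : ∑ i ∈ range (g.nO * g.nO), T.bq g i =
      ∑ i ∈ range (g.nO * g.nO), T.bv g (i / g.nO) (i % g.nO) := by
    have o := fun q hq => of_decide_eq_true (allN_sound hord q (mem_range.1 hq))
    exact sum_nbij' (dg 16 g.ord) (dg 16 g.inv) (fun q hq => mem_range.2 (o q hq).1)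
      (fun q hq => mem_range.2 (o q hq).2.2.1) (fun q hq => (o q hq).2.1)
      (fun q hq => (o q hq).2.2.2) fun _ _ => rfl
  rw [← sum_divmod (T.bv g), ← h2, range_eq_Ico,
    ← (cover_sound _ _ segs 0 hcov fun d hd => (hs' d hd).2.1).2,
    ls_congr (g := fun d => ∑ j ∈ range nJ, T.piece j d) fun d hd => by
      obtain ⟨a, -, b, c⟩ := hs' d hd
      rw [a.2, range_eq_Ico d.n, ← c]
      conv_lhs => rw [← b]
      exact (tele _ (dg 16 d.Bd) nJ fun j hj => (hc' j hj).1 d hd).2.symm, ls_sum] at h1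
  have h3 := h1.trans (sum_le_sum fun j hj => (hc' j (mem_range.1 hj)).2)
  rw [← sum_mul, ← Int.cast_sum, ← sum0_eq] at h3
  have h4 : ((sum0 t nJ : ℤ) : ℝ) < 0 := by exact_mod_cast ht
  have := mul_neg_of_neg_of_pos h4 (top_pos (ι := ι))
  linarith

end Ctx

/-! assembling finitely many checked facts -/

def UpTo (P : ℕ → Prop) : ℕ → Prop
  | 0 => True
  | n + 1 => P n ∧ UpTo P n

theorem UpTo.all {P : ℕ → Prop} : ∀ {n}, UpTo P n → ∀ k < n, P k
  | 0, _, _, hk => absurd hk (Nat.not_lt_zero _)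
  | n + 1, h, k, hk => by
    rcases Nat.lt_succ_iff_lt_or_eq.1 hk with hk | rfl
    · exact UpTo.all h.2 k hk
    · exact h.1

def AllL {α : Type} (P : α → Prop) : List α → Prop
  | [] => True
  | a :: l => P a ∧ AllL P l

theorem AllL.all {α : Type} {P : α → Prop} : ∀ {l : List α}, AllL P l → ∀ a ∈ l, P a
  | [], _, _, h => absurd h List.not_mem_nil
  | _ :: _, h, a, ha => by
    rcases List.mem_cons.1 ha with rfl | ha
    · exact h.1
    · exact AllL.all h.2 a ha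

theorem all_append {α : Type} {P : α → Prop} {l l' : List α} (h : ∀ a ∈ l, P a)
    (h' : ∀ a ∈ l', P a) : ∀ a ∈ l ++ l', P a := fun a ha =>
  (List.mem_append.1 ha).elim (h a) (h' a)

noncomputable def gramChk (g : GD) (l : ℕ) : Bool :=
  allN (fun o => all0 (fun s => an (Nat.ble ((g.orb o).U s l).length 8)
    (allP (xChk (g.lam l).v.length (g.msz l s) (g.cols l s)) ((g.orb o).U s l))) 3) g.nO

theorem GD.ok (g : GD) (hb : g.toBase.OK) (h1 : g.K ≤ 5 ∧ 1 ≤ g.K)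
    (h2 : allN (fun o => Nat.blt (g.orb o).ty g.nT) g.nO = true)
    (h3 : ∀ l < g.nL, gramChk g l = true) : g.OK :=
  { hb with
    hK := h1.1
    hK1 := h1.2
    ty := fun o ho => Nat.blt_eq.mp (allN_sound h2 o ho)
    len := fun l hl o ho s hs =>
      Nat.le_of_ble_eq_true (an_iff.1 (all0_sound (allN_sound (h3 l hl) o ho) s hs)).1
    gram := fun l hl o ho s hs I hI =>
      xChk_sound (allP_sound (an_iff.1 (all0_sound (allN_sound (h3 l hl) o ho) s hs)).2 I hI) }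

end Vale.Agent.P355
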