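import Vale.Agent.P355.Seg

/-! The same assembly with room for more segments. -/

namespace Vale.Agent.P355

open Finset Sys

noncomputable def segChk2 (g : GD) (nJ : ℕ) (d : Hd) (bl : List Blk) (hs : List ℕ) : Bool :=
  an (decide (d.qhi = d.qlo + hs.length ∧
      natP (blkMass g.sc) bl + hs.length * 2 ^ 103 ≤ 2 ^ 114 ∧ dg 16 d.Bd 0 = 0 ∧
      dg 16 d.Bd nJ = d.n))
    (an (allP (blkChk d.n d.K) bl) (an (pAll g d.n d.K hs d.qlo)
      (Nat.beq (fin 128 d.n (Int.add (sumP (blkAcc g.sc) bl) (pSum g hs d.qlo))) d.P)))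

noncomputable def chunk2 (segs : List Hd) (j nG G : ℕ) (Hs : List ℕ) (t : ℤ) : Bool :=
  an (decide (Hs.length = segs.length ∧ segs.length ≤ 4096))
    (an (allP (pcChk nG G j) (segs.zip Hs))
      (decide (tSum nG G (fin 128 nG (sumP (pcAcc j) (segs.zip Hs))) ≤ t)))

namespace Ctx

variable {ι : Type} [Fintype ι] [DecidableEq ι] (T : Ctx ι) {g : GD}

def SegOK2 (g : GD) (nJ : ℕ) (d : Hd) : Prop :=
  Form 128 d.n (T.tc d.K) d.P (2 ^ 114) (∑ q ∈ Ico d.qlo d.qhi, T.bq g q) ∧ d.qlo ≤ d.qhi ∧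
    dg 16 d.Bd 0 = 0 ∧ dg 16 d.Bd nJ = d.n

theorem seg_sound2 (h : g.OK) {nJ : ℕ} {d : Hd} {bl : List Blk} {hs : List ℕ}
    (H : segChk2 g nJ d bl hs = true) : T.SegOK2 g nJ d := by
  rw [segChk2, an_iff, an_iff, an_iff] at H
  obtain ⟨h1, h2, h3, h4⟩ := H
  obtain ⟨a, b, c, e⟩ := of_decide_eq_true h1
  refine ⟨?_, by omega, c, e⟩
  have r1 := Rep.lsum bl fun B hB => T.blk_sound g.sc B (allP_sound h2 B hB)
  rw [← sumP_eq, ← natP_eq] at r1
  have r2 := ((r1.add (T.pAll_sound h hs _ h3)).cast b (S' := ∑ q ∈ Ico d.qlo d.qhi, T.bq g q)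
    (by rw [a]; simp)).form (by norm_num) (by norm_num)
  rw [← Nat.eq_of_beq_eq_true h4]
  exact r2

theorem pc_sound2 {nJ nG G j : ℕ} {q : Hd × ℕ} (h : T.SegOK2 g nJ q.1) (H : pcChk nG G j q = true) :
    dg 16 q.1.Bd j ≤ dg 16 q.1.Bd (j + 1) ∧
      Rep 128 nG (T.tc G) (pcAcc j q) (2 ^ 114) (T.piece j q.1) := by
  rw [pcChk, an_iff, an_iff] at H
  have h1 : dg 16 q.1.Bd j ≤ dg 16 q.1.Bd (j + 1) := Nat.le_of_ble_eq_true H.1
  have h2 : dg 16 q.1.Bd (j + 1) ≤ q.1.n := Nat.le_of_ble_eq_true H.2.1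
  refine ⟨h1, ?_⟩
  have hv : ∀ k, vl 128 (Nat.shiftRight q.1.P (Nat.mul 128 (dg 16 q.1.Bd j))) k =
      vl 128 q.1.P (dg 16 q.1.Bd j + k) := fun k => by rw [vl_eq, vl_eq, dg_shift]
  have F : Form 128 (dg 16 q.1.Bd (j + 1) - dg 16 q.1.Bd j)
      (fun k => T.tc q.1.K (dg 16 q.1.Bd j + k))
      (Nat.shiftRight q.1.P (Nat.mul 128 (dg 16 q.1.Bd j))) (2 ^ 114) (T.piece j q.1) := by
    refine ⟨?_, ?_⟩
    · simp only [hv]
      rw [← sum_Ico_eq_sum_range fun k => |vl 128 q.1.P k|]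
      refine le_trans (sum_le_sum_of_subset_of_nonneg (fun k hk => ?_) fun _ _ _ => abs_nonneg _)
        h.1.1
      rw [mem_Ico] at hk
      rw [mem_range]; omega
    · simp only [hv]
      rw [piece, sum_Ico_eq_sum_range]
  have := F.acc (U := fun k => pw 128 (dg 12 q.2 k)) (w' := 128) (n' := nG) (c := 1)
    (Φ' := T.tc G) fun k hk => by
      have h3 := allN_sound H.2.2 k hk
      rw [an_iff, dg_shift] at h3
      have h4 : T.tc q.1.K (dg 16 q.1.Bd j + k) = T.tc G (dg 12 q.2 k) := by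
        rw [tc, tc, Nat.eq_of_beq_eq_true h3.2]
      rw [h4]
      exact Rep.unit (Nat.blt_eq.mp h3.1)
  rwa [one_mul] at this

theorem chunk_sound2 {nJ : ℕ} {segs : List Hd} (h : ∀ d ∈ segs, T.SegOK2 g nJ d) {j nG G : ℕ}
    {Hs : List ℕ} {t : ℤ} (H : chunk2 segs j nG G Hs t = true) :
    (∀ d ∈ segs, dg 16 d.Bd j ≤ dg 16 d.Bd (j + 1)) ∧ ls segs (T.piece j) ≤ t * top ι := by
  rw [chunk2, an_iff, an_iff] at H
  obtain ⟨l1, l2⟩ := of_decide_eq_true H.1
  have hz : (segs.zip Hs).map Prod.fst = segs := List.map_fst_zip (by omega)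
  have h1 : ∀ q ∈ segs.zip Hs, _ := fun q hq =>
    T.pc_sound2 (h q.1 (List.of_mem_zip hq).1) (allP_sound H.2.1 q hq)
  refine ⟨fun d hd => ?_, ?_⟩
  · rw [← hz] at hd
    obtain ⟨q, hq, rfl⟩ := List.mem_map.1 hd
    exact (h1 q hq).1
  have r := (Rep.lsum _ fun q hq => (h1 q hq).2).form (by norm_num) (by
    rw [List.map_const', List.sum_replicate, smul_eq_mul, List.length_zip]
    have : min segs.length Hs.length ≤ 4096 := by omega
    omega)
  rw [← sumP_eq] at r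
  have e : ls segs (T.piece j) = ((segs.zip Hs).map fun q => T.piece j q.1).sum := by
    conv_lhs => rw [← hz, ls, List.map_map]
    rfl
  have ht : ((tSum nG G (fin 128 nG (sumP (pcAcc j) (segs.zip Hs))) : ℤ) : ℝ) ≤ t := by
    exact_mod_cast of_decide_eq_true H.2.2
  rw [e, r.2]
  refine le_trans ?_ (mul_le_mul_of_nonneg_right ht top_pos.le)
  rw [tSum, sumN_eq, Int.cast_sum, sum_mul]
  refine sum_le_sum fun k _ => ?_
  cases hb : Nat.beq (dg 76 G k) (Nat.mul 8 ZK)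
  · simp only [ite0, Int.ofNat_eq_natCast, Int.natCast_natAbs, Int.cast_abs]
    refine (le_abs_self _).trans ?_
    rw [abs_mul]
    exact mul_le_mul_of_nonneg_left (T.Yc_bound _) (abs_nonneg _)
  · simp only [ite0]
    rw [tc, Nat.eq_of_beq_eq_true hb]
    exact le_of_eq (congrArg _ ((T.Yc_mk ZK (p := 0) (by norm_num)).trans (T.Y_top 0)))

include T in
theorem final2 (h : g.OK) (hK : Fintype.card ι = g.K + 2) {nJ : ℕ} {segs : List Hd} {t : ℕ → ℤ}
    (hs : ∀ d ∈ segs, ∃ bl hs, segChk2 g nJ d bl hs = true)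
    (hc : ∀ j < nJ, ∃ nG G Hs, chunk2 segs j nG G Hs (t j) = true)
    (hcov : cover segs 0 (g.nO * g.nO) = true) (hord : ordChk g = true)
    (ht : sum0 t nJ < 0) : False := by
  have hs' : ∀ d ∈ segs, T.SegOK2 g nJ d := fun d hd => by
    obtain ⟨_, _, H⟩ := hs d hd
    exact T.seg_sound2 h H
  have hc' : ∀ j < nJ, (∀ d ∈ segs, dg 16 d.Bd j ≤ dg 16 d.Bd (j + 1)) ∧
      ls segs (T.piece j) ≤ t j * top ι := fun j hj => by
    obtain ⟨_, _, _, H⟩ := hc j hj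
    exact T.chunk_sound2 hs' H
  have h1 := T.psd_total h hK
  have h2 : ∑ i ∈ range (g.nO * g.nO), T.bq g i =
      ∑ i ∈ range (g.nO * g.nO), T.bv g (i / g.nO) (i % g.nO) := by
    have o := fun q hq => of_decide_eq_true (allN_sound hord q (mem_range.1 hq))
    exact sum_nbij' (dg 16 g.ord) (dg 16 g.inv) (fun q hq => mem_range.2 (o q hq).1)
      (fun q hq => mem_range.2 (o q hq).2.2.1) (fun q hq => (o q hq).2.1)
      (fun q hq => (o q hq).2.2.2) fun _ _ => rfl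
  rw [← sum_divmod (T.bv g), ← h2, range_eq_Ico,
    ← (cover_sound _ _ segs 0 hcov fun d hd => (hs' d hd).2.1).2,
    ls_congr (g := fun d => ∑ j ∈ range nJ, T.piece j d) fun d hd => by
      obtain ⟨a, -, b, c⟩ := hs' d hd
      rw [a.2, range_eq_Ico d.n, ← c]
      conv_lhs => rw [← b]
      exact (tele _ (dg 16 d.Bd) nJ fun j hj => (hc' j hj).1 d hd).2.symm, ls_sum] at h1
  have h3 := h1.trans (sum_le_sum fun j hj => (hc' j (mem_range.1 hj)).2)
  rw [← sum_mul, ← Int.cast_sum, ← sum0_eq] at h3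
  have h4 : ((sum0 t nJ : ℤ) : ℝ) < 0 := by exact_mod_cast ht
  have := mul_neg_of_neg_of_pos h4 (top_pos (ι := ι))
  linarith

end Ctx

end Vale.Agent.P355
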