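import Vale.Agent.P355.SxH0
import Vale.Agent.P355.SxH1

namespace Vale.Agent.P355.Sx

noncomputable def segs : List Hd := hs0 ++ (hs1)

noncomputable def ts : List ℤ := [(Int.negSucc 177920291489596690542), (Int.ofNat 200658274773464), (Int.ofNat 171235443139780), (Int.ofNat 193499728839824), (Int.ofNat 206032041757233), (Int.ofNat 91817645364222)]

noncomputable def tt (j : ℕ) : ℤ := ts.getD j 0

end Vale.Agent.P355.Sx
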