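import Vale.Agent.P355.SxX
import Vale.Agent.P355.SxS0
import Vale.Agent.P355.SxS1
import Vale.Agent.P355.SxC0

namespace Vale.Agent.P355.Sx

theorem sa : ∀ d ∈ segs, ∃ bl hs, segChk gd 6 d bl hs = true :=
  all_append sa0 (sa1)

theorem ka : ∀ j < 6, ∃ nG G Hs, chunk segs j nG G Hs (tt j) = true :=
  UpTo.all ⟨k5, ⟨k4, ⟨k3, ⟨k2, ⟨k1, ⟨k0, trivial⟩⟩⟩⟩⟩⟩

theorem no (T : Ctx (Fin (3 + 4))) : False :=
  T.final gok (Fintype.card_fin _) sa ka (by decide +kernel) (by decide +kernel) (by decide +kernel)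

end Vale.Agent.P355.Sx
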