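import Mathlib.Analysis.Complex.Basic
import Mathlib.Data.Fintype.Perm
import Mathlib.Algebra.BigOperators.Fin
import Mathlib.Data.Fin.VecNotation
import Mathlib.Tactic.FinCases

/-! Moments of a system of mutually unbiased bases of a six dimensional space.
`u i a j b` is `√6` times the inner product of vector `a` of basis `i` with vector `b` of basis `j`. -/

namespace Vale.Agent.P355

open Finset Equiv ComplexConjugate

structure Sys (ι : Type) where
  u : ι → Fin 6 → ι → Fin 6 → ℂ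
  s : ℝ
  hs : s * s = 6
  cj : ∀ i a j b, conj (u i a j b) = u j b i a
  uni : ∀ i a j b, i ≠ j → u i a j b * u j b i a = 1
  res : ∀ i a j b k, ∑ r, u i a k r * u k r j b = s * u i a j b
  diag : ∀ i a b, u i a i b = if a = b then (s : ℂ) else 0

abbrev Col := Fin 6 × Fin 6 × Fin 6

namespace Sys

variable {ι : Type} (T : Sys ι)

theorem ne0 {i j : ι} (h : i ≠ j) (a b : Fin 6) : T.u i a j b ≠ 0 :=
  left_ne_zero_of_mul_eq_one (T.uni i a j b h)

theorem flip {i j : ι} (h : i ≠ j) (a b : Fin 6) : T.u j b i a = (T.u i a j b)⁻¹ :=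
  eq_inv_of_mul_eq_one_right (T.uni i a j b h)

theorem cjz {i j : ι} (h : i ≠ j) (a b : Fin 6) (e : ℤ) :
    conj (T.u i a j b ^ e) = T.u i a j b ^ (-e) := by
  rw [map_zpow₀, T.cj, T.flip h, inv_zpow, zpow_neg]

theorem nrm {i j : ι} (h : i ≠ j) (a b : Fin 6) : ‖T.u i a j b‖ = 1 := by
  have h1 := T.uni j b i a h.symm
  rw [← T.cj, Complex.conj_mul'] at h1
  have h2 : ‖T.u i a j b‖ ^ 2 = 1 := by exact_mod_cast h1
  exact (pow_eq_one_iff_of_nonneg (norm_nonneg _) two_ne_zero).1 h2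

theorem ss : (T.s : ℂ) * T.s = 6 := by exact_mod_cast T.hs

noncomputable def ph (x k l m : ι) (c : Col) (r : Fin 6) (d : ℤ × ℤ) : ℂ :=
  T.u x r k c.1 ^ d.1 * T.u x r l c.2.1 ^ d.2 * T.u x r m c.2.2 ^ (-d.1 - d.2)

noncomputable def S (x k l m : ι) (c : Col) (d : ℤ × ℤ) : ℂ := ∑ r, T.ph x k l m c r d

noncomputable def P (x k l m : ι) (ds : List (ℤ × ℤ)) (v : Fin 6 → ℤ × ℤ) : ℂ :=
  ∑ π : Perm (Fin 6), ∑ c : Col,
    (ds.map (T.S x k l m c)).prod * ∏ r, T.ph x k l m c (π r) (v r)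

variable {x k l m : ι}

theorem ph_zero (c : Col) (r : Fin 6) : T.ph x k l m c r 0 = 1 := by simp [ph]

theorem ph_add (hk : x ≠ k) (hl : x ≠ l) (hm : x ≠ m) (c : Col) (r : Fin 6) (d e : ℤ × ℤ) :
    T.ph x k l m c r (d + e) = T.ph x k l m c r d * T.ph x k l m c r e := by
  simp only [ph, Prod.fst_add, Prod.snd_add]
  rw [show -(d.1 + e.1) - (d.2 + e.2) = (-d.1 - d.2) + (-e.1 - e.2) by ring,
    zpow_add₀ (T.ne0 hk _ _), zpow_add₀ (T.ne0 hl _ _), zpow_add₀ (T.ne0 hm _ _)]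
  ring

theorem P_perm (ds : List (ℤ × ℤ)) (v : Fin 6 → ℤ × ℤ) (τ : Perm (Fin 6)) :
    T.P x k l m ds (v ∘ τ) = T.P x k l m ds v := by
  unfold P
  rw [← Equiv.sum_comp (Equiv.mulRight τ)]
  refine sum_congr rfl fun π _ => sum_congr rfl fun c _ => ?_
  congr 1
  exact Equiv.prod_comp τ fun r => T.ph x k l m c (π r) (v r)

theorem P_cons (hk : x ≠ k) (hl : x ≠ l) (hm : x ≠ m) (d : ℤ × ℤ) (ds : List (ℤ × ℤ))
    (v : Fin 6 → ℤ × ℤ) :
    T.P x k l m (d :: ds) v = ∑ r, T.P x k l m ds (Function.update v r (v r + d)) := by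
  unfold P
  symm
  rw [sum_comm]
  refine sum_congr rfl fun π _ => ?_
  rw [sum_comm]
  refine sum_congr rfl fun c _ => ?_
  have : ∀ r, ∏ s, T.ph x k l m c (π s) (Function.update v r (v r + d) s) =
      T.ph x k l m c (π r) d * ∏ s, T.ph x k l m c (π s) (v s) := by
    intro r
    have e : ∀ s, T.ph x k l m c (π s) (Function.update v r (v r + d) s) =
        (if s = r then T.ph x k l m c (π s) d else 1) * T.ph x k l m c (π s) (v s) := by
      intro s
      by_cases h : s = r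
      · subst h; rw [Function.update_self, if_pos rfl, T.ph_add hk hl hm, mul_comm]
      · rw [Function.update_of_ne h, if_neg h, one_mul]
    simp only [e]
    rw [prod_mul_distrib, prod_ite_eq' univ r, if_pos (mem_univ _)]
  simp only [this]
  rw [← mul_sum, ← sum_mul, Equiv.sum_comp π fun r => T.ph x k l m c r d, List.map_cons,
    List.prod_cons, S]
  ring

theorem P_s12 (v : Fin 6 → ℤ × ℤ) :
    T.P x k l m [] v = T.P x l k m [] fun r => ((v r).2, (v r).1) := by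
  unfold P
  refine sum_congr rfl fun π _ => ?_
  refine Fintype.sum_equiv ⟨fun c => (c.2.1, c.1, c.2.2), fun c => (c.2.1, c.1, c.2.2),
    fun _ => rfl, fun _ => rfl⟩ _ _ fun c => ?_
  simp only [List.map_nil, List.prod_nil, one_mul, Equiv.coe_fn_mk, ph]
  refine prod_congr rfl fun r _ => ?_
  rw [show -(v r).2 - (v r).1 = -(v r).1 - (v r).2 by ring]
  ring

theorem P_s23 (v : Fin 6 → ℤ × ℤ) :
    T.P x k l m [] v = T.P x k m l [] fun r => ((v r).1, -(v r).1 - (v r).2) := by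
  unfold P
  refine sum_congr rfl fun π _ => ?_
  refine Fintype.sum_equiv ⟨fun c => (c.1, c.2.2, c.2.1), fun c => (c.1, c.2.2, c.2.1),
    fun _ => rfl, fun _ => rfl⟩ _ _ fun c => ?_
  simp only [List.map_nil, List.prod_nil, one_mul, Equiv.coe_fn_mk, ph]
  refine prod_congr rfl fun r _ => ?_
  rw [show -(v r).1 - (-(v r).1 - (v r).2) = (v r).2 by ring]
  ring

theorem P_neg (hk : x ≠ k) (hl : x ≠ l) (hm : x ≠ m) (v : Fin 6 → ℤ × ℤ) :
    conj (T.P x k l m [] v) = T.P x k l m [] fun r => -v r := by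
  unfold P
  simp only [map_sum, List.map_nil, List.prod_nil, one_mul, map_prod, ph, map_mul, T.cjz hk,
    T.cjz hl, T.cjz hm, Prod.fst_neg, Prod.snd_neg]
  refine sum_congr rfl fun π _ => sum_congr rfl fun c _ => prod_congr rfl fun r _ => ?_
  rw [show -(-(v r).1 - (v r).2) = - -(v r).1 - -(v r).2 by ring]

theorem P_z1 (k' : ι) {v : Fin 6 → ℤ × ℤ} (h : ∀ r, (v r).1 = 0) :
    T.P x k l m [] v = T.P x k' l m [] v := by
  simp [P, ph, h]

theorem P_van (hk : x ≠ k) {v : Fin 6 → ℤ × ℤ} (h0 : (v 0).1 = -1) (h1 : (v 1).1 = 0)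
    (h2 : (v 2).1 = 0) (h3 : (v 3).1 = 0) (h4 : (v 4).1 = 0) (h5 : (v 5).1 = 1) :
    T.P x k l m [] v = 0 := by
  unfold P
  refine sum_eq_zero fun π _ => ?_
  simp only [List.map_nil, List.prod_nil, one_mul, ph, mul_assoc]
  simp only [prod_mul_distrib]
  rw [Fintype.sum_prod_type]
  simp only []
  rw [sum_comm]
  refine sum_eq_zero fun c _ => ?_
  rw [← sum_mul]
  have : ∑ a, ∏ r, T.u x (π r) k a ^ (v r).1 = 0 := by
    simp only [Fin.prod_univ_six, h0, h1, h2, h3, h4, h5, zpow_zero, mul_one, zpow_one, zpow_neg,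
      ← T.flip hk]
    simp only [mul_comm (T.u k _ x _)]
    rw [T.res, T.diag, if_neg (by simp), mul_zero]
  rw [this, zero_mul]

theorem P_at0 (ds : List (ℤ × ℤ)) :
    T.P x k l m ds (fun _ => 0) = 720 * ∑ c : Col, (ds.map (T.S x k l m c)).prod := by
  simp [P, ph_zero, Fintype.card_perm, Nat.factorial]

theorem P_zero : T.P x k l m [] (fun _ => 0) = 155520 := by
  rw [P_at0]; simp; norm_num

theorem P_bound (hk : x ≠ k) (hl : x ≠ l) (hm : x ≠ m) (v : Fin 6 → ℤ × ℤ) :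
    ‖T.P x k l m [] v‖ ≤ 155520 := by
  unfold P
  refine (norm_sum_le _ _).trans ?_
  refine (sum_le_sum fun π _ => norm_sum_le _ _).trans (le_of_eq ?_)
  simp [ph, T.nrm hk, T.nrm hl, T.nrm hm, Fintype.card_perm, Nat.factorial]
  norm_num

theorem S13 (hk : x ≠ k) (c : Col) : T.S x k l m c (-1, 0) = T.s * T.u k c.1 m c.2.2 := by
  simp only [S, ph, zpow_neg, zpow_one, zpow_zero, mul_one, neg_neg, sub_zero, ← T.flip hk]
  exact T.res _ _ _ _ _

theorem S31 (hm : x ≠ m) (c : Col) : T.S x k l m c (1, 0) = T.s * T.u m c.2.2 k c.1 := by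
  simp only [S, ph, zpow_neg, zpow_one, zpow_zero, mul_one, sub_zero, ← T.flip hm]
  simp only [mul_comm (T.u x _ k _)]
  exact T.res _ _ _ _ _

theorem S23 (hl : x ≠ l) (c : Col) : T.S x k l m c (0, -1) = T.s * T.u l c.2.1 m c.2.2 := by
  simp only [S, ph, zpow_neg, zpow_one, zpow_zero, one_mul, neg_zero, zero_sub, neg_neg,
    ← T.flip hl]
  exact T.res _ _ _ _ _

theorem S32 (hm : x ≠ m) (c : Col) : T.S x k l m c (0, 1) = T.s * T.u m c.2.2 l c.2.1 := by
  simp only [S, ph, zpow_neg, zpow_one, zpow_zero, one_mul, neg_zero, zero_sub, ← T.flip hm]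
  simp only [mul_comm (T.u x _ l _)]
  exact T.res _ _ _ _ _

theorem S12 (hk : x ≠ k) (c : Col) : T.S x k l m c (-1, 1) = T.s * T.u k c.1 l c.2.1 := by
  simp only [S, ph, zpow_neg, zpow_one, zpow_zero, mul_one, neg_neg, sub_self, ← T.flip hk]
  exact T.res _ _ _ _ _

theorem S21 (hl : x ≠ l) (c : Col) : T.S x k l m c (1, -1) = T.s * T.u l c.2.1 k c.1 := by
  simp only [S, ph, zpow_neg, zpow_one, zpow_zero, mul_one, sub_self, ← T.flip hl]
  simp only [mul_comm (T.u x _ k _)]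
  exact T.res _ _ _ _ _

theorem P_A1 (hk : x ≠ k) (v : Fin 6 → ℤ × ℤ) :
    T.P x k l k [(-1, 0)] v = T.P x k l k [] fun r => (0, (v r).2) := by
  unfold P
  refine sum_congr rfl fun π _ => ?_
  simp only [List.map_cons, List.map_nil, List.prod_cons, List.prod_nil, mul_one, one_mul,
    T.S13 hk, T.diag]
  refine (Fintype.sum_prod_type_right _).trans (Eq.trans ?_ (Fintype.sum_prod_type_right _).symm)
  refine sum_congr rfl fun c _ => ?_
  simp only [mul_ite, ite_mul, mul_zero, zero_mul, sum_ite_eq', mem_univ, if_true, T.ss, ph,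
    zpow_zero, one_mul, sum_const, card_univ, Fintype.card_fin, nsmul_eq_mul, neg_zero, zero_sub]
  congr 1
  refine prod_congr rfl fun r _ => ?_
  rw [show -(v r).2 = (v r).1 + (-(v r).1 - (v r).2) by ring, zpow_add₀ (T.ne0 hk _ _)]
  ring

theorem P_A2 (hk : x ≠ k) (hm : x ≠ m) (hkm : k ≠ m) (v : Fin 6 → ℤ × ℤ) :
    T.P x k l m [(-1, 0), (1, 0)] v = 6 * T.P x k l m [] v := by
  unfold P
  simp only [List.map_cons, List.map_nil, List.prod_cons, List.prod_nil, mul_one, one_mul,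
    T.S13 hk, T.S31 hm, mul_sum]
  refine sum_congr rfl fun π _ => sum_congr rfl fun c _ => ?_
  congr 1
  have := T.uni k c.1 m c.2.2 hkm
  have := T.ss
  grind

/-- `|f|` copies of `d` or of `-d` -/
def un (d : ℤ × ℤ) (f : ℤ) : List (ℤ × ℤ) := List.replicate f.natAbs (if 0 ≤ f then d else -d)

theorem un_prod {S : ℤ × ℤ → ℂ} {d : ℤ × ℤ} {s w : ℂ} (h1 : S d = s * w) (h2 : S (-d) = s * w⁻¹)
    (f : ℤ) : ((un d f).map S).prod = s ^ f.natAbs * w ^ f := by
  rw [un, List.map_replicate, List.prod_replicate]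
  split_ifs with h
  · rw [h1, mul_pow, ← zpow_natCast w, Int.natAbs_of_nonneg h]
  · rw [h2, mul_pow, ← zpow_natCast w⁻¹, inv_zpow', Int.ofNat_natAbs_of_nonpos (by omega), neg_neg]

def inc33 (a b c d : ℤ) : List (ℤ × ℤ) := [(a, b), (c, d), (-a - c, -b - d)]

def inc221 (a b c d : ℤ) : List (ℤ × ℤ) :=
  (a, b) :: (c, d) :: (un (-1, 0) (a + c) ++ un (0, -1) (b + d))

def inc1 (a b c : ℤ) : List (ℤ × ℤ) :=
  (a, b) :: (un (-1, 1) c ++ (un (-1, 0) (a - c) ++ un (0, -1) (b + c)))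

theorem P_33 (hk : x ≠ k) (a b c d : ℤ) :
    T.P x k k k (inc33 a b c d) (fun _ => 0) =
      T.P k x x x (inc33 (-a) (-c) (-b) (-d)) (fun _ => 0) := by
  have h3 : ∀ f g h : Fin 6 → ℂ, (∑ r, f r) * ((∑ r, g r) * ∑ r, h r) =
      ∑ q : Col, f q.1 * (g q.2.1 * h q.2.2) := by
    intro f g h
    rw [sum_mul_sum, ← Fintype.sum_prod_type', sum_mul_sum, ← Fintype.sum_prod_type']
  rw [P_at0, P_at0]
  refine congrArg (720 * ·) ?_
  simp only [inc33, List.map_cons, List.map_nil, List.prod_cons, List.prod_nil, mul_one, S, h3]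
  rw [sum_comm]
  refine sum_congr rfl fun p _ => sum_congr rfl fun q _ => ?_
  simp only [ph, T.flip hk, inv_zpow', neg_neg]
  ring_nf

noncomputable def G221 (x k m : ι) (a b c d : ℤ) : ℂ :=
  ∑ q : Col × Fin 6 × Fin 6, T.ph x k k m q.1 q.2.1 (a, b) * T.ph x k k m q.1 q.2.2 (c, d) *
    (T.u k q.1.1 m q.1.2.2 ^ (a + c) * T.u k q.1.2.1 m q.1.2.2 ^ (b + d))

theorem P_221 (hk : x ≠ k) (hm : x ≠ m) (hkm : k ≠ m) (a b c d : ℤ) :
    T.P x k k m (inc221 a b c d) (fun _ => 0) =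
      720 * (T.s : ℂ) ^ ((a + c).natAbs + (b + d).natAbs) * T.G221 x k m a b c d := by
  rw [P_at0, mul_assoc]
  refine congrArg (720 * ·) ?_
  conv_rhs => rw [G221, Fintype.sum_prod_type, mul_sum]
  refine sum_congr rfl fun q _ => ?_
  rw [inc221, List.map_cons, List.map_cons, List.map_append, List.prod_cons, List.prod_cons,
    List.prod_append, un_prod (T.S13 hk q) (by rw [← T.flip hkm]; exact T.S31 hm q),
    un_prod (T.S23 hk q) (by rw [← T.flip hkm]; exact T.S32 hm q), Fintype.sum_prod_type]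
  simp only [← sum_mul]
  rw [← sum_mul_sum, pow_add, S, S]
  ring

theorem G221_swap (hk : x ≠ k) (a b c d : ℤ) :
    T.G221 x k m a b c d = T.G221 k x m (-a) (-c) (-b) (-d) := by
  unfold G221
  refine Fintype.sum_equiv ⟨fun q => ((q.2.1, q.2.2, q.1.2.2), q.1.1, q.1.2.1),
    fun q => ((q.2.1, q.2.2, q.1.2.2), q.1.1, q.1.2.1), fun _ => rfl, fun _ => rfl⟩ _ _ fun q => ?_
  simp only [Equiv.coe_fn_mk, ph, T.flip hk, inv_zpow', neg_neg]
  ring_nf

noncomputable def G1 (x k l m : ι) (a b c : ℤ) : ℂ :=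
  ∑ q : Col × Fin 6, T.ph x k l m q.1 q.2 (a, b) * (T.u k q.1.1 l q.1.2.1 ^ c *
    (T.u k q.1.1 m q.1.2.2 ^ (a - c) * T.u l q.1.2.1 m q.1.2.2 ^ (b + c)))

theorem P_1 (hk : x ≠ k) (hl : x ≠ l) (hm : x ≠ m) (hkl : k ≠ l) (hkm : k ≠ m) (hlm : l ≠ m)
    (a b c : ℤ) : T.P x k l m (inc1 a b c) (fun _ => 0) =
      720 * (T.s : ℂ) ^ (c.natAbs + ((a - c).natAbs + (b + c).natAbs)) * T.G1 x k l m a b c := by
  rw [P_at0, mul_assoc]
  refine congrArg (720 * ·) ?_
  conv_rhs => rw [G1, Fintype.sum_prod_type, mul_sum]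
  refine sum_congr rfl fun q _ => ?_
  rw [inc1, List.map_cons, List.map_append, List.map_append, List.prod_cons, List.prod_append,
    List.prod_append, un_prod (T.S12 hk q) (by rw [← T.flip hkl]; exact T.S21 hl q),
    un_prod (T.S13 hk q) (by rw [← T.flip hkm]; exact T.S31 hm q),
    un_prod (T.S23 hl q) (by rw [← T.flip hlm]; exact T.S32 hm q)]
  simp only [← sum_mul]
  rw [pow_add, pow_add, S]
  ring

theorem G1_swap (hk : x ≠ k) (a b c : ℤ) : T.G1 x k l m a b c = T.G1 k x l m (-a) c b := by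
  unfold G1
  refine Fintype.sum_equiv ⟨fun q => ((q.2, q.1.2), q.1.1),
    fun q => ((q.2, q.1.2), q.1.1), fun _ => rfl, fun _ => rfl⟩ _ _ fun q => ?_
  simp only [Equiv.coe_fn_mk, ph, T.flip hk, inv_zpow', neg_neg]
  ring_nf

/-- features whose Gram matrix consists of moments -/
noncomputable def ft (x k l : ι) (π : Perm (Fin 6)) (c : Fin 6) (β : Fin 6 → ℤ) : ℂ :=
  (∏ r, T.u x (π r) k c ^ (-β r)) * ∑ c', ∏ r, T.u x (π r) l c' ^ β r

def pr (β β' : Fin 6 → ℤ) : Fin 6 → ℤ × ℤ := fun r => (β' r - β r, β r)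

theorem P_pr (hk : x ≠ k) (hm : x ≠ m) (β β' : Fin 6 → ℤ) :
    T.P x k l m [] (pr β β') = ∑ π, ∑ c, T.ft x k l π c β * conj (T.ft x k m π c β') := by
  unfold P
  refine sum_congr rfl fun π _ => ?_
  rw [Fintype.sum_prod_type]
  refine sum_congr rfl fun c _ => ?_
  simp only [ft, map_mul, map_sum, map_prod, T.cjz hk, T.cjz hm, neg_neg, List.map_nil,
    List.prod_nil, one_mul]
  rw [mul_mul_mul_comm, sum_mul_sum, ← Fintype.sum_prod_type', mul_sum]
  refine sum_congr rfl fun q _ => ?_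
  simp only [← prod_mul_distrib, ph, pr]
  refine prod_congr rfl fun r _ => ?_
  rw [show β' r - β r = -β r + β' r by ring, zpow_add₀ (T.ne0 hk _ _),
    show -(-β r + β' r) - β r = -β' r by ring]
  ring

end Sys

end Vale.Agent.P355
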