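import Vale.Agent.P355.ThH0
import Vale.Agent.P355.ThH1
import Vale.Agent.P355.ThH2
import Vale.Agent.P355.ThH3
import Vale.Agent.P355.ThH4
import Vale.Agent.P355.ThH5
import Vale.Agent.P355.ThH6
import Vale.Agent.P355.ThH7
import Vale.Agent.P355.ThH8
import Vale.Agent.P355.ThH9
import Vale.Agent.P355.ThH10
import Vale.Agent.P355.ThH11
import Vale.Agent.P355.ThH12
import Vale.Agent.P355.ThH13
import Vale.Agent.P355.ThH14
import Vale.Agent.P355.ThH15
import Vale.Agent.P355.ThH16
import Vale.Agent.P355.ThH17
import Vale.Agent.P355.ThH18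
import Vale.Agent.P355.ThH19
import Vale.Agent.P355.ThH20
import Vale.Agent.P355.ThH21
import Vale.Agent.P355.ThH22
import Vale.Agent.P355.ThH23
import Vale.Agent.P355.ThH24
import Vale.Agent.P355.ThH25
import Vale.Agent.P355.ThH26
import Vale.Agent.P355.ThH27
import Vale.Agent.P355.ThH28
import Vale.Agent.P355.ThH29
import Vale.Agent.P355.ThH30
import Vale.Agent.P355.ThH31
import Vale.Agent.P355.ThH32
import Vale.Agent.P355.ThH33
import Vale.Agent.P355.ThH34
import Vale.Agent.P355.ThH35
import Vale.Agent.P355.ThH36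
import Vale.Agent.P355.ThH37
import Vale.Agent.P355.ThH38
import Vale.Agent.P355.ThH39
import Vale.Agent.P355.ThH40
import Vale.Agent.P355.ThH41
import Vale.Agent.P355.ThH42
import Vale.Agent.P355.ThH43
import Vale.Agent.P355.ThH44
import Vale.Agent.P355.ThH45
import Vale.Agent.P355.ThH46
import Vale.Agent.P355.ThH47

namespace Vale.Agent.P355.Th

noncomputable def segs : List Hd := hs0 ++ (hs1 ++ (hs2 ++ (hs3 ++ (hs4 ++ (hs5 ++ (hs6 ++ (hs7 ++ (hs8 ++ (hs9 ++ (hs10 ++ (hs11 ++ (hs12 ++ (hs13 ++ (hs14 ++ (hs15 ++ (hs16 ++ (hs17 ++ (hs18 ++ (hs19 ++ (hs20 ++ (hs21 ++ (hs22 ++ (hs23 ++ (hs24 ++ (hs25 ++ (hs26 ++ (hs27 ++ (hs28 ++ (hs29 ++ (hs30 ++ (hs31 ++ (hs32 ++ (hs33 ++ (hs34 ++ (hs35 ++ (hs36 ++ (hs37 ++ (hs38 ++ (hs39 ++ (hs40 ++ (hs41 ++ (hs42 ++ (hs43 ++ (hs44 ++ (hs45 ++ (hs46 ++ (hs47)))))))))))))))))))))))))))))))))))))))))))))))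

noncomputable def ts : List ℤ := [(Int.negSucc 1652370881063984434), (Int.ofNat 35787528423906), (Int.ofNat 56856756704047), (Int.ofNat 29663622884940), (Int.ofNat 32092418865817), (Int.ofNat 49905802697861), (Int.ofNat 61125291876314), (Int.ofNat 43673557706814), (Int.ofNat 40895478801210), (Int.ofNat 24828153653179), (Int.ofNat 31551490246549), (Int.ofNat 26851194066065), (Int.ofNat 54986816518379), (Int.ofNat 50754730836418), (Int.ofNat 51426058452943), (Int.ofNat 44467874369482), (Int.ofNat 55376053594593), (Int.ofNat 27209356207825), (Int.ofNat 31860424283430), (Int.ofNat 29664271387743), (Int.ofNat 57646181184240), (Int.ofNat 47969316685150), (Int.ofNat 50343937655869), (Int.ofNat 45081305243978), (Int.ofNat 35942069063727), (Int.ofNat 29568017189830), (Int.ofNat 46098498468417), (Int.ofNat 27618031088891), (Int.ofNat 20939070206755), (Int.ofNat 13564259018970), (Int.ofNat 6192512143542), (Int.ofNat 19892932869534), (Int.ofNat 16767915250528), (Int.ofNat 13360679653620), (Int.ofNat 34323807733219), (Int.ofNat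 36926876797610), (Int.ofNat 33775272139085), (Int.ofNat 42508645527753), (Int.ofNat 25943914946633), (Int.ofNat 14437181150834), (Int.ofNat 33093578245230), (Int.ofNat 51687087288055), (Int.ofNat 44003473306430), (Int.ofNat 42701578093048), (Int.ofNat 37881839229988), (Int.ofNat 54614709368849), (Int.ofNat 39685151193479), (Int.ofNat 36591829633794), (Int.ofNat 20260972662451), (Int.ofNat 18805459182759), (Int.ofNat 50644174642643), (Int.ofNat 32436332822481), (Int.ofNat 42371334984447), (Int.ofNat 31221856428247), (Int.ofNat 39625233734966), (Int.ofNat 34408876270811), (Int.ofNat 42110895560860), (Int.ofNat 31782111503491), (Int.ofNat 36334968459901), (Int.ofNat 28085793023505), (Int.ofNat 22669316313746), (Int.ofNat 12331801695941), (Int.ofNat 46676536408539), (Int.ofNat 29749511750920), (Int.ofNat 23768914675941), (Int.ofNat 31890630666517), (Int.ofNat 30751560021320), (Int.ofNat 26486612715574), (Int.ofNat 23567934822294), (Int.ofNat 25285592153484), (Int.ofNat 35023014994119), (Int.ofNat 26038693622231), (Int.ofNat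 30122551113208), (Int.ofNat 22131573982881), (Int.ofNat 23040751165964), (Int.ofNat 19682830649971), (Int.ofNat 15371655051380), (Int.ofNat 26296267643005), (Int.ofNat 20885320043673), (Int.ofNat 21529421857131), (Int.ofNat 11938051417454), (Int.ofNat 16219242975664), (Int.ofNat 20139495084591), (Int.ofNat 16630262754559), (Int.ofNat 20195243605578), (Int.ofNat 17195658505513), (Int.ofNat 22930876808625), (Int.ofNat 19277821852401), (Int.ofNat 15514413918036), (Int.ofNat 13035975173230), (Int.ofNat 20680824668733), (Int.ofNat 22830614465575), (Int.ofNat 15118060844426), (Int.ofNat 11736664257819), (Int.ofNat 16409569579363), (Int.ofNat 8136267899955), (Int.ofNat 8243156146015), (Int.ofNat 10567655849440), (Int.ofNat 8241418468591), (Int.ofNat 7660667277971), (Int.ofNat 6726739482346), (Int.ofNat 2093336371974)]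

noncomputable def tt (j : ℕ) : ℤ := ts.getD j 0

end Vale.Agent.P355.Th
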