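import Vale.Agent.P355.ThG

namespace Vale.Agent.P355.Th

theorem x3 : gramChk gd 3 = true := by decide +kernel

theorem x0 : gramChk gd 0 = true := by decide +kernel

theorem x4 : gramChk gd 4 = true := by decide +kernel

end Vale.Agent.P355.Th
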