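import Vale.Agent.P355.ThG

namespace Vale.Agent.P355.Th

theorem x1 : gramChk gd 1 = true := by decide +kernel

theorem x6 : gramChk gd 6 = true := by decide +kernel

theorem x7 : gramChk gd 7 = true := by decide +kernel

theorem x8 : gramChk gd 8 = true := by decide +kernel

theorem x9 : gramChk gd 9 = true := by decide +kernel

end Vale.Agent.P355.Th
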