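import Vale.Agent.P355.ThX0
import Vale.Agent.P355.ThX1
import Vale.Agent.P355.ThX2
import Vale.Agent.P355.ThX3
import Vale.Agent.P355.BaseOK

namespace Vale.Agent.P355.Th

theorem xa : ∀ l < 10, gramChk gd l = true := UpTo.all ⟨x9, ⟨x8, ⟨x7, ⟨x6, ⟨x5, ⟨x4, ⟨x3, ⟨x2, ⟨x1, ⟨x0, trivial⟩⟩⟩⟩⟩⟩⟩⟩⟩⟩

theorem gok : gd.OK := gd.ok base_ok (by decide) (by decide +kernel) xa

end Vale.Agent.P355.Th
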