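import Vale.Agent.P355.ThT0
import Vale.Agent.P355.ThT1
import Vale.Agent.P355.ThT2
import Vale.Agent.P355.ThT3
import Vale.Agent.P355.ThT4
import Vale.Agent.P355.ThT5
import Vale.Agent.P355.ThT6
import Vale.Agent.P355.ThT7
import Vale.Agent.P355.ThT8
import Vale.Agent.P355.ThT9
import Vale.Agent.P355.ThT10
import Vale.Agent.P355.ThT11
import Vale.Agent.P355.ThT12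
import Vale.Agent.P355.ThT13
import Vale.Agent.P355.ThT14
import Vale.Agent.P355.ThT15
import Vale.Agent.P355.ThT16
import Vale.Agent.P355.ThT17
import Vale.Agent.P355.ThT18
import Vale.Agent.P355.ThT19
import Vale.Agent.P355.ThT20
import Vale.Agent.P355.ThT21
import Vale.Agent.P355.ThT22
import Vale.Agent.P355.ThT23
import Vale.Agent.P355.ThT24
import Vale.Agent.P355.ThT25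
import Vale.Agent.P355.ThT26
import Vale.Agent.P355.ThT27
import Vale.Agent.P355.ThT28
import Vale.Agent.P355.ThT29
import Vale.Agent.P355.ThT30
import Vale.Agent.P355.ThT31
import Vale.Agent.P355.ThT32
import Vale.Agent.P355.ThT33
import Vale.Agent.P355.ThT34
import Vale.Agent.P355.ThT35
import Vale.Agent.P355.ThT36
import Vale.Agent.P355.ThT37
import Vale.Agent.P355.ThT38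
import Vale.Agent.P355.ThT39
import Vale.Agent.P355.ThT40
import Vale.Agent.P355.ThT41
import Vale.Agent.P355.ThT42
import Vale.Agent.P355.ThT43
import Vale.Agent.P355.ThT44
import Vale.Agent.P355.ThT45
import Vale.Agent.P355.ThT46
import Vale.Agent.P355.ThT47
import Vale.Agent.P355.ThT48
import Vale.Agent.P355.ThT49
import Vale.Agent.P355.ThT50
import Vale.Agent.P355.ThT51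
import Vale.Agent.P355.ThT52
import Vale.Agent.P355.ThT53
import Vale.Agent.P355.ThT54
import Vale.Agent.P355.ThT55
import Vale.Agent.P355.ThT56
import Vale.Agent.P355.ThT57
import Vale.Agent.P355.ThT58
import Vale.Agent.P355.ThT59
import Vale.Agent.P355.ThT60
import Vale.Agent.P355.ThT61
import Vale.Agent.P355.ThT62
import Vale.Agent.P355.ThT63
import Vale.Agent.P355.ThT64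
import Vale.Agent.P355.ThT65
import Vale.Agent.P355.ThT66
import Vale.Agent.P355.ThT67
import Vale.Agent.P355.ThT68
import Vale.Agent.P355.ThT69
import Vale.Agent.P355.ThT70
import Vale.Agent.P355.ThT71
import Vale.Agent.P355.ThT72
import Vale.Agent.P355.ThT73
import Vale.Agent.P355.ThT74
import Vale.Agent.P355.ThT75
import Vale.Agent.P355.ThT76
import Vale.Agent.P355.ThT77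
import Vale.Agent.P355.ThT78
import Vale.Agent.P355.ThT79
import Vale.Agent.P355.ThT80
import Vale.Agent.P355.ThT81
import Vale.Agent.P355.ThT82
import Vale.Agent.P355.ThT83
import Vale.Agent.P355.ThT84
import Vale.Agent.P355.ThT85
import Vale.Agent.P355.ThT86
import Vale.Agent.P355.ThT87
import Vale.Agent.P355.ThT88
import Vale.Agent.P355.ThT89
import Vale.Agent.P355.ThT90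
import Vale.Agent.P355.ThT91
import Vale.Agent.P355.ThT92
import Vale.Agent.P355.ThT93
import Vale.Agent.P355.ThT94
import Vale.Agent.P355.ThT95
import Vale.Agent.P355.ThX
import Vale.Agent.P355.ThC0
import Vale.Agent.P355.ThC1
import Vale.Agent.P355.ThC2
import Vale.Agent.P355.ThC3
import Vale.Agent.P355.ThC4
import Vale.Agent.P355.ThC5
import Vale.Agent.P355.ThC6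
import Vale.Agent.P355.ThC7
import Vale.Agent.P355.ThC8
import Vale.Agent.P355.ThC9
import Vale.Agent.P355.ThC10
import Vale.Agent.P355.ThC11
import Vale.Agent.P355.ThC12
import Vale.Agent.P355.ThC13
import Vale.Agent.P355.ThC14
import Vale.Agent.P355.ThC15
import Vale.Agent.P355.ThC16
import Vale.Agent.P355.ThC17
import Vale.Agent.P355.ThC18
import Vale.Agent.P355.ThC19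
import Vale.Agent.P355.ThC20
import Vale.Agent.P355.ThC21
import Vale.Agent.P355.ThC22
import Vale.Agent.P355.ThC23
import Vale.Agent.P355.ThC24
import Vale.Agent.P355.ThC25
import Vale.Agent.P355.ThC26
import Vale.Agent.P355.ThC27
import Vale.Agent.P355.ThC28
import Vale.Agent.P355.ThC29
import Vale.Agent.P355.ThC30
import Vale.Agent.P355.ThC31
import Vale.Agent.P355.ThC32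
import Vale.Agent.P355.ThC33
import Vale.Agent.P355.ThC34
import Vale.Agent.P355.ThC35
import Vale.Agent.P355.ThC36
import Vale.Agent.P355.ThC37
import Vale.Agent.P355.ThC38
import Vale.Agent.P355.ThC39
import Vale.Agent.P355.ThC40
import Vale.Agent.P355.ThC41
import Vale.Agent.P355.ThC42
import Vale.Agent.P355.ThC43
import Vale.Agent.P355.ThC44
import Vale.Agent.P355.ThC45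
import Vale.Agent.P355.ThC46
import Vale.Agent.P355.ThC47
import Vale.Agent.P355.ThC48
import Vale.Agent.P355.ThC49
import Vale.Agent.P355.ThC50

namespace Vale.Agent.P355.Th

theorem sa0 : ∀ d ∈ hs0, ∃ bl hs, segChk2 gd 102 d bl hs = true :=
  AllL.all (l := [h0, h1, h2, h3, h4, h5, h6, h7, h8, h9, h10, h11, h12, h13, h14, h15, h16, h17, h18, h19, h20, h21, h22, h23, h24, h25, h26, h27, h28, h29, h30, h31, h32, h33, h34, h35, h36, h37, h38, h39, h40]) ⟨s0, ⟨s1, ⟨s2, ⟨s3, ⟨s4, ⟨s5, ⟨s6, ⟨s7, ⟨s8, ⟨s9, ⟨s10, ⟨s11, ⟨s12, ⟨s13, ⟨s14, ⟨s15, ⟨s16, ⟨s17, ⟨s18, ⟨s19, ⟨s20, ⟨s21, ⟨s22, ⟨s23, ⟨s24, ⟨s25, ⟨s26, ⟨s27, ⟨s28, ⟨s29, ⟨s30, ⟨s31, ⟨s32, ⟨s33, ⟨s34, ⟨s35, ⟨s36, ⟨s37, ⟨s38, ⟨s39, ⟨s40, trivial⟩⟩⟩⟩⟩⟩⟩⟩⟩⟩⟩⟩⟩⟩⟩⟩⟩⟩⟩⟩⟩⟩⟩⟩⟩⟩⟩⟩⟩⟩⟩⟩⟩⟩⟩⟩⟩⟩⟩⟩⟩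

theorem sa1 : ∀ d ∈ hs1, ∃ bl hs, segChk2 gd 102 d bl hs = true :=
  AllL.all (l := [h41, h42, h43, h44, h45, h46, h47, h48, h49, h50, h51, h52, h53, h54, h55, h56, h57, h58, h59, h60, h61, h62, h63, h64, h65, h66, h67, h68, h69, h70, h71, h72, h73, h74, h75, h76, h77, h78, h79, h80]) ⟨s41, ⟨s42, ⟨s43, ⟨s44, ⟨s45, ⟨s46, ⟨s47, ⟨s48, ⟨s49, ⟨s50, ⟨s51, ⟨s52, ⟨s53, ⟨s54, ⟨s55, ⟨s56, ⟨s57, ⟨s58, ⟨s59, ⟨s60, ⟨s61, ⟨s62, ⟨s63, ⟨s64, ⟨s65, ⟨s66, ⟨s67, ⟨s68, ⟨s69, ⟨s70, ⟨s71, ⟨s72, ⟨s73, ⟨s74, ⟨s75, ⟨s76, ⟨s77, ⟨s78, ⟨s79, ⟨s80, trivial⟩⟩⟩⟩⟩⟩⟩⟩⟩⟩⟩⟩⟩⟩⟩⟩⟩⟩⟩⟩⟩⟩⟩⟩⟩⟩⟩⟩⟩⟩⟩⟩⟩⟩⟩⟩⟩⟩⟩⟩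

theorem sa2 : ∀ d ∈ hs2, ∃ bl hs, segChk2 gd 102 d bl hs = true :=
  AllL.all (l := [h81, h82, h83, h84, h85, h86, h87, h88, h89, h90, h91, h92, h93, h94, h95, h96, h97, h98, h99, h100, h101, h102, h103, h104, h105, h106, h107, h108, h109, h110, h111, h112, h113, h114, h115, h116, h117, h118, h119]) ⟨s81, ⟨s82, ⟨s83, ⟨s84, ⟨s85, ⟨s86, ⟨s87, ⟨s88, ⟨s89, ⟨s90, ⟨s91, ⟨s92, ⟨s93, ⟨s94, ⟨s95, ⟨s96, ⟨s97, ⟨s98, ⟨s99, ⟨s100, ⟨s101, ⟨s102, ⟨s103, ⟨s104, ⟨s105, ⟨s106, ⟨s107, ⟨s108, ⟨s109, ⟨s110, ⟨s111, ⟨s112, ⟨s113, ⟨s114, ⟨s115, ⟨s116, ⟨s117, ⟨s118, ⟨s119, trivial⟩⟩⟩⟩⟩⟩⟩⟩⟩⟩⟩⟩⟩⟩⟩⟩⟩⟩⟩⟩⟩⟩⟩⟩⟩⟩⟩⟩⟩⟩⟩⟩⟩⟩⟩⟩⟩⟩⟩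

theorem sa3 : ∀ d ∈ hs3, ∃ bl hs, segChk2 gd 102 d bl hs = true :=
  AllL.all (l := [h120, h121, h122, h123, h124, h125, h126, h127, h128, h129, h130, h131, h132, h133, h134, h135, h136, h137, h138, h139, h140, h141, h142, h143, h144, h145, h146, h147, h148, h149, h150, h151, h152, h153, h154, h155, h156, h157, h158]) ⟨s120, ⟨s121, ⟨s122, ⟨s123, ⟨s124, ⟨s125, ⟨s126, ⟨s127, ⟨s128, ⟨s129, ⟨s130, ⟨s131, ⟨s132, ⟨s133, ⟨s134, ⟨s135, ⟨s136, ⟨s137, ⟨s138, ⟨s139, ⟨s140, ⟨s141, ⟨s142, ⟨s143, ⟨s144, ⟨s145, ⟨s146, ⟨s147, ⟨s148, ⟨s149, ⟨s150, ⟨s151, ⟨s152, ⟨s153, ⟨s154, ⟨s155, ⟨s156, ⟨s157, ⟨s158, trivial⟩⟩⟩⟩⟩⟩⟩⟩⟩⟩⟩⟩⟩⟩⟩⟩⟩⟩⟩⟩⟩⟩⟩⟩⟩⟩⟩⟩⟩⟩⟩⟩⟩⟩⟩⟩⟩⟩⟩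

theorem sa4 : ∀ d ∈ hs4, ∃ bl hs, segChk2 gd 102 d bl hs = true :=
  AllL.all (l := [h159, h160, h161, h162, h163, h164, h165, h166, h167, h168, h169, h170, h171, h172, h173, h174, h175, h176, h177, h178, h179, h180, h181, h182, h183, h184, h185, h186, h187, h188, h189, h190, h191, h192, h193]) ⟨s159, ⟨s160, ⟨s161, ⟨s162, ⟨s163, ⟨s164, ⟨s165, ⟨s166, ⟨s167, ⟨s168, ⟨s169, ⟨s170, ⟨s171, ⟨s172, ⟨s173, ⟨s174, ⟨s175, ⟨s176, ⟨s177, ⟨s178, ⟨s179, ⟨s180, ⟨s181, ⟨s182, ⟨s183, ⟨s184, ⟨s185, ⟨s186, ⟨s187, ⟨s188, ⟨s189, ⟨s190, ⟨s191, ⟨s192, ⟨s193, trivial⟩⟩⟩⟩⟩⟩⟩⟩⟩⟩⟩⟩⟩⟩⟩⟩⟩⟩⟩⟩⟩⟩⟩⟩⟩⟩⟩⟩⟩⟩⟩⟩⟩⟩⟩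

theorem sa5 : ∀ d ∈ hs5, ∃ bl hs, segChk2 gd 102 d bl hs = true :=
  AllL.all (l := [h194, h195, h196, h197, h198, h199, h200, h201, h202, h203, h204, h205, h206, h207, h208, h209, h210, h211, h212, h213, h214, h215, h216, h217, h218, h219, h220, h221, h222, h223, h224, h225, h226]) ⟨s194, ⟨s195, ⟨s196, ⟨s197, ⟨s198, ⟨s199, ⟨s200, ⟨s201, ⟨s202, ⟨s203, ⟨s204, ⟨s205, ⟨s206, ⟨s207, ⟨s208, ⟨s209, ⟨s210, ⟨s211, ⟨s212, ⟨s213, ⟨s214, ⟨s215, ⟨s216, ⟨s217, ⟨s218, ⟨s219, ⟨s220, ⟨s221, ⟨s222, ⟨s223, ⟨s224, ⟨s225, ⟨s226, trivial⟩⟩⟩⟩⟩⟩⟩⟩⟩⟩⟩⟩⟩⟩⟩⟩⟩⟩⟩⟩⟩⟩⟩⟩⟩⟩⟩⟩⟩⟩⟩⟩⟩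

theorem sa6 : ∀ d ∈ hs6, ∃ bl hs, segChk2 gd 102 d bl hs = true :=
  AllL.all (l := [h227, h228, h229, h230, h231, h232, h233, h234, h235, h236, h237, h238, h239, h240, h241, h242, h243, h244, h245, h246, h247, h248, h249, h250, h251, h252, h253, h254, h255, h256, h257, h258, h259, h260, h261, h262, h263, h264, h265, h266, h267, h268, h269]) ⟨s227, ⟨s228, ⟨s229, ⟨s230, ⟨s231, ⟨s232, ⟨s233, ⟨s234, ⟨s235, ⟨s236, ⟨s237, ⟨s238, ⟨s239, ⟨s240, ⟨s241, ⟨s242, ⟨s243, ⟨s244, ⟨s245, ⟨s246, ⟨s247, ⟨s248, ⟨s249, ⟨s250, ⟨s251, ⟨s252, ⟨s253, ⟨s254, ⟨s255, ⟨s256, ⟨s257, ⟨s258, ⟨s259, ⟨s260, ⟨s261, ⟨s262, ⟨s263, ⟨s264, ⟨s265, ⟨s266, ⟨s267, ⟨s268, ⟨s269, trivial⟩⟩⟩⟩⟩⟩⟩⟩⟩⟩⟩⟩⟩⟩⟩⟩⟩⟩⟩⟩⟩⟩⟩⟩⟩⟩⟩⟩⟩⟩⟩⟩⟩⟩⟩⟩⟩⟩⟩⟩⟩⟩⟩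

theorem sa7 : ∀ d ∈ hs7, ∃ bl hs, segChk2 gd 102 d bl hs = true :=
  AllL.all (l := [h270, h271, h272, h273, h274, h275, h276, h277, h278, h279, h280, h281, h282, h283, h284, h285, h286, h287, h288, h289, h290, h291, h292, h293, h294, h295, h296, h297, h298]) ⟨s270, ⟨s271, ⟨s272, ⟨s273, ⟨s274, ⟨s275, ⟨s276, ⟨s277, ⟨s278, ⟨s279, ⟨s280, ⟨s281, ⟨s282, ⟨s283, ⟨s284, ⟨s285, ⟨s286, ⟨s287, ⟨s288, ⟨s289, ⟨s290, ⟨s291, ⟨s292, ⟨s293, ⟨s294, ⟨s295, ⟨s296, ⟨s297, ⟨s298, trivial⟩⟩⟩⟩⟩⟩⟩⟩⟩⟩⟩⟩⟩⟩⟩⟩⟩⟩⟩⟩⟩⟩⟩⟩⟩⟩⟩⟩⟩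

theorem sa8 : ∀ d ∈ hs8, ∃ bl hs, segChk2 gd 102 d bl hs = true :=
  AllL.all (l := [h299, h300, h301, h302, h303, h304, h305, h306, h307, h308, h309, h310, h311, h312, h313, h314, h315, h316, h317, h318, h319, h320, h321, h322, h323, h324, h325, h326, h327, h328, h329, h330, h331, h332, h333, h334, h335]) ⟨s299, ⟨s300, ⟨s301, ⟨s302, ⟨s303, ⟨s304, ⟨s305, ⟨s306, ⟨s307, ⟨s308, ⟨s309, ⟨s310, ⟨s311, ⟨s312, ⟨s313, ⟨s314, ⟨s315, ⟨s316, ⟨s317, ⟨s318, ⟨s319, ⟨s320, ⟨s321, ⟨s322, ⟨s323, ⟨s324, ⟨s325, ⟨s326, ⟨s327, ⟨s328, ⟨s329, ⟨s330, ⟨s331, ⟨s332, ⟨s333, ⟨s334, ⟨s335, trivial⟩⟩⟩⟩⟩⟩⟩⟩⟩⟩⟩⟩⟩⟩⟩⟩⟩⟩⟩⟩⟩⟩⟩⟩⟩⟩⟩⟩⟩⟩⟩⟩⟩⟩⟩⟩⟩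

theorem sa9 : ∀ d ∈ hs9, ∃ bl hs, segChk2 gd 102 d bl hs = true :=
  AllL.all (l := [h336, h337, h338, h339, h340, h341, h342, h343, h344, h345, h346, h347, h348, h349, h350, h351, h352, h353, h354, h355, h356, h357, h358, h359, h360, h361, h362, h363, h364, h365, h366, h367]) ⟨s336, ⟨s337, ⟨s338, ⟨s339, ⟨s340, ⟨s341, ⟨s342, ⟨s343, ⟨s344, ⟨s345, ⟨s346, ⟨s347, ⟨s348, ⟨s349, ⟨s350, ⟨s351, ⟨s352, ⟨s353, ⟨s354, ⟨s355, ⟨s356, ⟨s357, ⟨s358, ⟨s359, ⟨s360, ⟨s361, ⟨s362, ⟨s363, ⟨s364, ⟨s365, ⟨s366, ⟨s367, trivial⟩⟩⟩⟩⟩⟩⟩⟩⟩⟩⟩⟩⟩⟩⟩⟩⟩⟩⟩⟩⟩⟩⟩⟩⟩⟩⟩⟩⟩⟩⟩⟩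

theorem sa10 : ∀ d ∈ hs10, ∃ bl hs, segChk2 gd 102 d bl hs = true :=
  AllL.all (l := [h368, h369, h370, h371, h372, h373, h374, h375, h376, h377, h378, h379, h380, h381, h382, h383, h384, h385, h386, h387, h388, h389, h390, h391, h392, h393, h394]) ⟨s368, ⟨s369, ⟨s370, ⟨s371, ⟨s372, ⟨s373, ⟨s374, ⟨s375, ⟨s376, ⟨s377, ⟨s378, ⟨s379, ⟨s380, ⟨s381, ⟨s382, ⟨s383, ⟨s384, ⟨s385, ⟨s386, ⟨s387, ⟨s388, ⟨s389, ⟨s390, ⟨s391, ⟨s392, ⟨s393, ⟨s394, trivial⟩⟩⟩⟩⟩⟩⟩⟩⟩⟩⟩⟩⟩⟩⟩⟩⟩⟩⟩⟩⟩⟩⟩⟩⟩⟩⟩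

theorem sa11 : ∀ d ∈ hs11, ∃ bl hs, segChk2 gd 102 d bl hs = true :=
  AllL.all (l := [h395, h396, h397, h398, h399, h400, h401, h402, h403, h404, h405, h406, h407, h408, h409, h410, h411, h412, h413, h414, h415, h416, h417, h418, h419, h420]) ⟨s395, ⟨s396, ⟨s397, ⟨s398, ⟨s399, ⟨s400, ⟨s401, ⟨s402, ⟨s403, ⟨s404, ⟨s405, ⟨s406, ⟨s407, ⟨s408, ⟨s409, ⟨s410, ⟨s411, ⟨s412, ⟨s413, ⟨s414, ⟨s415, ⟨s416, ⟨s417, ⟨s418, ⟨s419, ⟨s420, trivial⟩⟩⟩⟩⟩⟩⟩⟩⟩⟩⟩⟩⟩⟩⟩⟩⟩⟩⟩⟩⟩⟩⟩⟩⟩⟩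

theorem sa12 : ∀ d ∈ hs12, ∃ bl hs, segChk2 gd 102 d bl hs = true :=
  AllL.all (l := [h421, h422, h423, h424, h425, h426, h427, h428, h429, h430, h431, h432, h433, h434, h435, h436, h437, h438, h439, h440, h441, h442, h443, h444, h445, h446]) ⟨s421, ⟨s422, ⟨s423, ⟨s424, ⟨s425, ⟨s426, ⟨s427, ⟨s428, ⟨s429, ⟨s430, ⟨s431, ⟨s432, ⟨s433, ⟨s434, ⟨s435, ⟨s436, ⟨s437, ⟨s438, ⟨s439, ⟨s440, ⟨s441, ⟨s442, ⟨s443, ⟨s444, ⟨s445, ⟨s446, trivial⟩⟩⟩⟩⟩⟩⟩⟩⟩⟩⟩⟩⟩⟩⟩⟩⟩⟩⟩⟩⟩⟩⟩⟩⟩⟩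

theorem sa13 : ∀ d ∈ hs13, ∃ bl hs, segChk2 gd 102 d bl hs = true :=
  AllL.all (l := [h447, h448, h449, h450, h451, h452, h453, h454, h455, h456, h457, h458, h459, h460, h461, h462, h463, h464, h465, h466, h467, h468, h469, h470, h471, h472, h473, h474, h475, h476, h477, h478]) ⟨s447, ⟨s448, ⟨s449, ⟨s450, ⟨s451, ⟨s452, ⟨s453, ⟨s454, ⟨s455, ⟨s456, ⟨s457, ⟨s458, ⟨s459, ⟨s460, ⟨s461, ⟨s462, ⟨s463, ⟨s464, ⟨s465, ⟨s466, ⟨s467, ⟨s468, ⟨s469, ⟨s470, ⟨s471, ⟨s472, ⟨s473, ⟨s474, ⟨s475, ⟨s476, ⟨s477, ⟨s478, trivial⟩⟩⟩⟩⟩⟩⟩⟩⟩⟩⟩⟩⟩⟩⟩⟩⟩⟩⟩⟩⟩⟩⟩⟩⟩⟩⟩⟩⟩⟩⟩⟩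

theorem sa14 : ∀ d ∈ hs14, ∃ bl hs, segChk2 gd 102 d bl hs = true :=
  AllL.all (l := [h479, h480, h481, h482, h483, h484, h485, h486, h487, h488, h489, h490, h491, h492, h493, h494, h495, h496, h497, h498, h499, h500, h501, h502, h503, h504, h505, h506, h507, h508, h509, h510, h511, h512]) ⟨s479, ⟨s480, ⟨s481, ⟨s482, ⟨s483, ⟨s484, ⟨s485, ⟨s486, ⟨s487, ⟨s488, ⟨s489, ⟨s490, ⟨s491, ⟨s492, ⟨s493, ⟨s494, ⟨s495, ⟨s496, ⟨s497, ⟨s498, ⟨s499, ⟨s500, ⟨s501, ⟨s502, ⟨s503, ⟨s504, ⟨s505, ⟨s506, ⟨s507, ⟨s508, ⟨s509, ⟨s510, ⟨s511, ⟨s512, trivial⟩⟩⟩⟩⟩⟩⟩⟩⟩⟩⟩⟩⟩⟩⟩⟩⟩⟩⟩⟩⟩⟩⟩⟩⟩⟩⟩⟩⟩⟩⟩⟩⟩⟩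

theorem sa15 : ∀ d ∈ hs15, ∃ bl hs, segChk2 gd 102 d bl hs = true :=
  AllL.all (l := [h513, h514, h515, h516, h517, h518, h519, h520, h521, h522, h523, h524, h525, h526, h527, h528, h529, h530, h531, h532, h533, h534, h535, h536, h537]) ⟨s513, ⟨s514, ⟨s515, ⟨s516, ⟨s517, ⟨s518, ⟨s519, ⟨s520, ⟨s521, ⟨s522, ⟨s523, ⟨s524, ⟨s525, ⟨s526, ⟨s527, ⟨s528, ⟨s529, ⟨s530, ⟨s531, ⟨s532, ⟨s533, ⟨s534, ⟨s535, ⟨s536, ⟨s537, trivial⟩⟩⟩⟩⟩⟩⟩⟩⟩⟩⟩⟩⟩⟩⟩⟩⟩⟩⟩⟩⟩⟩⟩⟩⟩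

theorem sa16 : ∀ d ∈ hs16, ∃ bl hs, segChk2 gd 102 d bl hs = true :=
  AllL.all (l := [h538, h539, h540, h541, h542, h543, h544, h545, h546, h547, h548, h549, h550, h551, h552, h553, h554, h555, h556, h557, h558, h559, h560, h561, h562, h563, h564, h565, h566, h567, h568, h569, h570, h571, h572, h573, h574, h575, h576, h577]) ⟨s538, ⟨s539, ⟨s540, ⟨s541, ⟨s542, ⟨s543, ⟨s544, ⟨s545, ⟨s546, ⟨s547, ⟨s548, ⟨s549, ⟨s550, ⟨s551, ⟨s552, ⟨s553, ⟨s554, ⟨s555, ⟨s556, ⟨s557, ⟨s558, ⟨s559, ⟨s560, ⟨s561, ⟨s562, ⟨s563, ⟨s564, ⟨s565, ⟨s566, ⟨s567, ⟨s568, ⟨s569, ⟨s570, ⟨s571, ⟨s572, ⟨s573, ⟨s574, ⟨s575, ⟨s576, ⟨s577, trivial⟩⟩⟩⟩⟩⟩⟩⟩⟩⟩⟩⟩⟩⟩⟩⟩⟩⟩⟩⟩⟩⟩⟩⟩⟩⟩⟩⟩⟩⟩⟩⟩⟩⟩⟩⟩⟩⟩⟩⟩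

theorem sa17 : ∀ d ∈ hs17, ∃ bl hs, segChk2 gd 102 d bl hs = true :=
  AllL.all (l := [h578, h579, h580, h581, h582, h583, h584, h585, h586, h587, h588, h589, h590, h591, h592, h593, h594, h595, h596, h597, h598, h599, h600, h601, h602, h603, h604, h605, h606, h607, h608, h609, h610, h611]) ⟨s578, ⟨s579, ⟨s580, ⟨s581, ⟨s582, ⟨s583, ⟨s584, ⟨s585, ⟨s586, ⟨s587, ⟨s588, ⟨s589, ⟨s590, ⟨s591, ⟨s592, ⟨s593, ⟨s594, ⟨s595, ⟨s596, ⟨s597, ⟨s598, ⟨s599, ⟨s600, ⟨s601, ⟨s602, ⟨s603, ⟨s604, ⟨s605, ⟨s606, ⟨s607, ⟨s608, ⟨s609, ⟨s610, ⟨s611, trivial⟩⟩⟩⟩⟩⟩⟩⟩⟩⟩⟩⟩⟩⟩⟩⟩⟩⟩⟩⟩⟩⟩⟩⟩⟩⟩⟩⟩⟩⟩⟩⟩⟩⟩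

theorem sa18 : ∀ d ∈ hs18, ∃ bl hs, segChk2 gd 102 d bl hs = true :=
  AllL.all (l := [h612, h613, h614, h615, h616, h617, h618, h619, h620, h621, h622, h623, h624, h625, h626, h627, h628, h629, h630, h631, h632, h633, h634, h635, h636, h637, h638, h639, h640, h641, h642, h643, h644, h645, h646]) ⟨s612, ⟨s613, ⟨s614, ⟨s615, ⟨s616, ⟨s617, ⟨s618, ⟨s619, ⟨s620, ⟨s621, ⟨s622, ⟨s623, ⟨s624, ⟨s625, ⟨s626, ⟨s627, ⟨s628, ⟨s629, ⟨s630, ⟨s631, ⟨s632, ⟨s633, ⟨s634, ⟨s635, ⟨s636, ⟨s637, ⟨s638, ⟨s639, ⟨s640, ⟨s641, ⟨s642, ⟨s643, ⟨s644, ⟨s645, ⟨s646, trivial⟩⟩⟩⟩⟩⟩⟩⟩⟩⟩⟩⟩⟩⟩⟩⟩⟩⟩⟩⟩⟩⟩⟩⟩⟩⟩⟩⟩⟩⟩⟩⟩⟩⟩⟩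

theorem sa19 : ∀ d ∈ hs19, ∃ bl hs, segChk2 gd 102 d bl hs = true :=
  AllL.all (l := [h647, h648, h649, h650, h651, h652, h653, h654, h655, h656, h657, h658, h659, h660, h661, h662, h663, h664, h665, h666, h667, h668, h669, h670, h671, h672, h673, h674, h675, h676, h677, h678, h679, h680, h681, h682, h683]) ⟨s647, ⟨s648, ⟨s649, ⟨s650, ⟨s651, ⟨s652, ⟨s653, ⟨s654, ⟨s655, ⟨s656, ⟨s657, ⟨s658, ⟨s659, ⟨s660, ⟨s661, ⟨s662, ⟨s663, ⟨s664, ⟨s665, ⟨s666, ⟨s667, ⟨s668, ⟨s669, ⟨s670, ⟨s671, ⟨s672, ⟨s673, ⟨s674, ⟨s675, ⟨s676, ⟨s677, ⟨s678, ⟨s679, ⟨s680, ⟨s681, ⟨s682, ⟨s683, trivial⟩⟩⟩⟩⟩⟩⟩⟩⟩⟩⟩⟩⟩⟩⟩⟩⟩⟩⟩⟩⟩⟩⟩⟩⟩⟩⟩⟩⟩⟩⟩⟩⟩⟩⟩⟩⟩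

theorem sa20 : ∀ d ∈ hs20, ∃ bl hs, segChk2 gd 102 d bl hs = true :=
  AllL.all (l := [h684, h685, h686, h687, h688, h689, h690, h691, h692, h693, h694, h695, h696, h697, h698, h699, h700, h701, h702, h703]) ⟨s684, ⟨s685, ⟨s686, ⟨s687, ⟨s688, ⟨s689, ⟨s690, ⟨s691, ⟨s692, ⟨s693, ⟨s694, ⟨s695, ⟨s696, ⟨s697, ⟨s698, ⟨s699, ⟨s700, ⟨s701, ⟨s702, ⟨s703, trivial⟩⟩⟩⟩⟩⟩⟩⟩⟩⟩⟩⟩⟩⟩⟩⟩⟩⟩⟩⟩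

theorem sa21 : ∀ d ∈ hs21, ∃ bl hs, segChk2 gd 102 d bl hs = true :=
  AllL.all (l := [h704, h705, h706, h707, h708, h709, h710, h711, h712, h713, h714, h715, h716, h717, h718, h719, h720, h721, h722, h723, h724, h725, h726, h727, h728, h729, h730, h731, h732, h733, h734]) ⟨s704, ⟨s705, ⟨s706, ⟨s707, ⟨s708, ⟨s709, ⟨s710, ⟨s711, ⟨s712, ⟨s713, ⟨s714, ⟨s715, ⟨s716, ⟨s717, ⟨s718, ⟨s719, ⟨s720, ⟨s721, ⟨s722, ⟨s723, ⟨s724, ⟨s725, ⟨s726, ⟨s727, ⟨s728, ⟨s729, ⟨s730, ⟨s731, ⟨s732, ⟨s733, ⟨s734, trivial⟩⟩⟩⟩⟩⟩⟩⟩⟩⟩⟩⟩⟩⟩⟩⟩⟩⟩⟩⟩⟩⟩⟩⟩⟩⟩⟩⟩⟩⟩⟩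

theorem sa22 : ∀ d ∈ hs22, ∃ bl hs, segChk2 gd 102 d bl hs = true :=
  AllL.all (l := [h735, h736, h737, h738, h739, h740, h741, h742, h743, h744, h745, h746, h747, h748, h749, h750, h751, h752, h753, h754, h755, h756, h757, h758, h759, h760, h761, h762, h763, h764, h765, h766, h767, h768, h769, h770]) ⟨s735, ⟨s736, ⟨s737, ⟨s738, ⟨s739, ⟨s740, ⟨s741, ⟨s742, ⟨s743, ⟨s744, ⟨s745, ⟨s746, ⟨s747, ⟨s748, ⟨s749, ⟨s750, ⟨s751, ⟨s752, ⟨s753, ⟨s754, ⟨s755, ⟨s756, ⟨s757, ⟨s758, ⟨s759, ⟨s760, ⟨s761, ⟨s762, ⟨s763, ⟨s764, ⟨s765, ⟨s766, ⟨s767, ⟨s768, ⟨s769, ⟨s770, trivial⟩⟩⟩⟩⟩⟩⟩⟩⟩⟩⟩⟩⟩⟩⟩⟩⟩⟩⟩⟩⟩⟩⟩⟩⟩⟩⟩⟩⟩⟩⟩⟩⟩⟩⟩⟩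

theorem sa23 : ∀ d ∈ hs23, ∃ bl hs, segChk2 gd 102 d bl hs = true :=
  AllL.all (l := [h771, h772, h773, h774, h775, h776, h777, h778, h779, h780, h781, h782, h783, h784, h785, h786, h787, h788, h789, h790, h791, h792, h793, h794, h795]) ⟨s771, ⟨s772, ⟨s773, ⟨s774, ⟨s775, ⟨s776, ⟨s777, ⟨s778, ⟨s779, ⟨s780, ⟨s781, ⟨s782, ⟨s783, ⟨s784, ⟨s785, ⟨s786, ⟨s787, ⟨s788, ⟨s789, ⟨s790, ⟨s791, ⟨s792, ⟨s793, ⟨s794, ⟨s795, trivial⟩⟩⟩⟩⟩⟩⟩⟩⟩⟩⟩⟩⟩⟩⟩⟩⟩⟩⟩⟩⟩⟩⟩⟩⟩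

theorem sa24 : ∀ d ∈ hs24, ∃ bl hs, segChk2 gd 102 d bl hs = true :=
  AllL.all (l := [h796, h797, h798, h799, h800, h801, h802, h803, h804, h805, h806, h807, h808, h809, h810, h811, h812, h813, h814, h815, h816, h817, h818, h819, h820, h821, h822, h823, h824]) ⟨s796, ⟨s797, ⟨s798, ⟨s799, ⟨s800, ⟨s801, ⟨s802, ⟨s803, ⟨s804, ⟨s805, ⟨s806, ⟨s807, ⟨s808, ⟨s809, ⟨s810, ⟨s811, ⟨s812, ⟨s813, ⟨s814, ⟨s815, ⟨s816, ⟨s817, ⟨s818, ⟨s819, ⟨s820, ⟨s821, ⟨s822, ⟨s823, ⟨s824, trivial⟩⟩⟩⟩⟩⟩⟩⟩⟩⟩⟩⟩⟩⟩⟩⟩⟩⟩⟩⟩⟩⟩⟩⟩⟩⟩⟩⟩⟩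

theorem sa25 : ∀ d ∈ hs25, ∃ bl hs, segChk2 gd 102 d bl hs = true :=
  AllL.all (l := [h825, h826, h827, h828, h829, h830, h831, h832, h833, h834, h835, h836, h837, h838, h839, h840, h841, h842, h843, h844, h845, h846, h847, h848, h849, h850, h851, h852, h853, h854, h855, h856, h857, h858, h859, h860, h861, h862, h863, h864, h865, h866, h867, h868, h869, h870, h871]) ⟨s825, ⟨s826, ⟨s827, ⟨s828, ⟨s829, ⟨s830, ⟨s831, ⟨s832, ⟨s833, ⟨s834, ⟨s835, ⟨s836, ⟨s837, ⟨s838, ⟨s839, ⟨s840, ⟨s841, ⟨s842, ⟨s843, ⟨s844, ⟨s845, ⟨s846, ⟨s847, ⟨s848, ⟨s849, ⟨s850, ⟨s851, ⟨s852, ⟨s853, ⟨s854, ⟨s855, ⟨s856, ⟨s857, ⟨s858, ⟨s859, ⟨s860, ⟨s861, ⟨s862, ⟨s863, ⟨s864, ⟨s865, ⟨s866, ⟨s867, ⟨s868, ⟨s869, ⟨s870, ⟨s871, trivial⟩⟩⟩⟩⟩⟩⟩⟩⟩⟩⟩⟩⟩⟩⟩⟩⟩⟩⟩⟩⟩⟩⟩⟩⟩⟩⟩⟩⟩⟩⟩⟩⟩⟩⟩⟩⟩⟩⟩⟩⟩⟩⟩⟩⟩⟩⟩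

theorem sa26 : ∀ d ∈ hs26, ∃ bl hs, segChk2 gd 102 d bl hs = true :=
  AllL.all (l := [h872, h873, h874, h875, h876, h877, h878, h879, h880, h881, h882, h883, h884, h885, h886, h887, h888, h889, h890, h891, h892, h893, h894, h895]) ⟨s872, ⟨s873, ⟨s874, ⟨s875, ⟨s876, ⟨s877, ⟨s878, ⟨s879, ⟨s880, ⟨s881, ⟨s882, ⟨s883, ⟨s884, ⟨s885, ⟨s886, ⟨s887, ⟨s888, ⟨s889, ⟨s890, ⟨s891, ⟨s892, ⟨s893, ⟨s894, ⟨s895, trivial⟩⟩⟩⟩⟩⟩⟩⟩⟩⟩⟩⟩⟩⟩⟩⟩⟩⟩⟩⟩⟩⟩⟩⟩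

theorem sa27 : ∀ d ∈ hs27, ∃ bl hs, segChk2 gd 102 d bl hs = true :=
  AllL.all (l := [h896, h897, h898, h899, h900, h901, h902, h903, h904, h905, h906, h907, h908, h909, h910, h911, h912, h913, h914, h915]) ⟨s896, ⟨s897, ⟨s898, ⟨s899, ⟨s900, ⟨s901, ⟨s902, ⟨s903, ⟨s904, ⟨s905, ⟨s906, ⟨s907, ⟨s908, ⟨s909, ⟨s910, ⟨s911, ⟨s912, ⟨s913, ⟨s914, ⟨s915, trivial⟩⟩⟩⟩⟩⟩⟩⟩⟩⟩⟩⟩⟩⟩⟩⟩⟩⟩⟩⟩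

theorem sa28 : ∀ d ∈ hs28, ∃ bl hs, segChk2 gd 102 d bl hs = true :=
  AllL.all (l := [h916, h917, h918, h919, h920, h921, h922, h923, h924, h925, h926, h927, h928, h929, h930, h931, h932, h933, h934, h935, h936, h937, h938, h939, h940, h941, h942, h943, h944, h945, h946, h947, h948, h949, h950, h951, h952, h953]) ⟨s916, ⟨s917, ⟨s918, ⟨s919, ⟨s920, ⟨s921, ⟨s922, ⟨s923, ⟨s924, ⟨s925, ⟨s926, ⟨s927, ⟨s928, ⟨s929, ⟨s930, ⟨s931, ⟨s932, ⟨s933, ⟨s934, ⟨s935, ⟨s936, ⟨s937, ⟨s938, ⟨s939, ⟨s940, ⟨s941, ⟨s942, ⟨s943, ⟨s944, ⟨s945, ⟨s946, ⟨s947, ⟨s948, ⟨s949, ⟨s950, ⟨s951, ⟨s952, ⟨s953, trivial⟩⟩⟩⟩⟩⟩⟩⟩⟩⟩⟩⟩⟩⟩⟩⟩⟩⟩⟩⟩⟩⟩⟩⟩⟩⟩⟩⟩⟩⟩⟩⟩⟩⟩⟩⟩⟩⟩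

theorem sa29 : ∀ d ∈ hs29, ∃ bl hs, segChk2 gd 102 d bl hs = true :=
  AllL.all (l := [h954, h955, h956, h957, h958, h959, h960, h961, h962, h963, h964, h965, h966, h967, h968, h969, h970, h971, h972, h973]) ⟨s954, ⟨s955, ⟨s956, ⟨s957, ⟨s958, ⟨s959, ⟨s960, ⟨s961, ⟨s962, ⟨s963, ⟨s964, ⟨s965, ⟨s966, ⟨s967, ⟨s968, ⟨s969, ⟨s970, ⟨s971, ⟨s972, ⟨s973, trivial⟩⟩⟩⟩⟩⟩⟩⟩⟩⟩⟩⟩⟩⟩⟩⟩⟩⟩⟩⟩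

theorem sa30 : ∀ d ∈ hs30, ∃ bl hs, segChk2 gd 102 d bl hs = true :=
  AllL.all (l := [h974, h975, h976, h977, h978, h979, h980, h981, h982, h983, h984, h985, h986, h987, h988, h989, h990, h991, h992, h993, h994, h995, h996, h997, h998, h999, h1000, h1001, h1002, h1003, h1004]) ⟨s974, ⟨s975, ⟨s976, ⟨s977, ⟨s978, ⟨s979, ⟨s980, ⟨s981, ⟨s982, ⟨s983, ⟨s984, ⟨s985, ⟨s986, ⟨s987, ⟨s988, ⟨s989, ⟨s990, ⟨s991, ⟨s992, ⟨s993, ⟨s994, ⟨s995, ⟨s996, ⟨s997, ⟨s998, ⟨s999, ⟨s1000, ⟨s1001, ⟨s1002, ⟨s1003, ⟨s1004, trivial⟩⟩⟩⟩⟩⟩⟩⟩⟩⟩⟩⟩⟩⟩⟩⟩⟩⟩⟩⟩⟩⟩⟩⟩⟩⟩⟩⟩⟩⟩⟩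

theorem sa31 : ∀ d ∈ hs31, ∃ bl hs, segChk2 gd 102 d bl hs = true :=
  AllL.all (l := [h1005, h1006, h1007, h1008, h1009, h1010, h1011, h1012, h1013, h1014, h1015, h1016, h1017, h1018, h1019, h1020, h1021, h1022, h1023, h1024, h1025, h1026, h1027, h1028, h1029, h1030, h1031, h1032, h1033, h1034, h1035, h1036, h1037, h1038]) ⟨s1005, ⟨s1006, ⟨s1007, ⟨s1008, ⟨s1009, ⟨s1010, ⟨s1011, ⟨s1012, ⟨s1013, ⟨s1014, ⟨s1015, ⟨s1016, ⟨s1017, ⟨s1018, ⟨s1019, ⟨s1020, ⟨s1021, ⟨s1022, ⟨s1023, ⟨s1024, ⟨s1025, ⟨s1026, ⟨s1027, ⟨s1028, ⟨s1029, ⟨s1030, ⟨s1031, ⟨s1032, ⟨s1033, ⟨s1034, ⟨s1035, ⟨s1036, ⟨s1037, ⟨s1038, trivial⟩⟩⟩⟩⟩⟩⟩⟩⟩⟩⟩⟩⟩⟩⟩⟩⟩⟩⟩⟩⟩⟩⟩⟩⟩⟩⟩⟩⟩⟩⟩⟩⟩⟩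

theorem sa32 : ∀ d ∈ hs32, ∃ bl hs, segChk2 gd 102 d bl hs = true :=
  AllL.all (l := [h1039, h1040, h1041, h1042, h1043, h1044, h1045, h1046, h1047, h1048, h1049, h1050, h1051, h1052, h1053, h1054, h1055, h1056, h1057, h1058, h1059, h1060, h1061]) ⟨s1039, ⟨s1040, ⟨s1041, ⟨s1042, ⟨s1043, ⟨s1044, ⟨s1045, ⟨s1046, ⟨s1047, ⟨s1048, ⟨s1049, ⟨s1050, ⟨s1051, ⟨s1052, ⟨s1053, ⟨s1054, ⟨s1055, ⟨s1056, ⟨s1057, ⟨s1058, ⟨s1059, ⟨s1060, ⟨s1061, trivial⟩⟩⟩⟩⟩⟩⟩⟩⟩⟩⟩⟩⟩⟩⟩⟩⟩⟩⟩⟩⟩⟩⟩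

theorem sa33 : ∀ d ∈ hs33, ∃ bl hs, segChk2 gd 102 d bl hs = true :=
  AllL.all (l := [h1062, h1063, h1064, h1065, h1066, h1067, h1068, h1069, h1070, h1071, h1072, h1073, h1074, h1075, h1076, h1077, h1078, h1079, h1080, h1081, h1082, h1083, h1084, h1085, h1086, h1087, h1088, h1089, h1090, h1091, h1092, h1093, h1094, h1095, h1096]) ⟨s1062, ⟨s1063, ⟨s1064, ⟨s1065, ⟨s1066, ⟨s1067, ⟨s1068, ⟨s1069, ⟨s1070, ⟨s1071, ⟨s1072, ⟨s1073, ⟨s1074, ⟨s1075, ⟨s1076, ⟨s1077, ⟨s1078, ⟨s1079, ⟨s1080, ⟨s1081, ⟨s1082, ⟨s1083, ⟨s1084, ⟨s1085, ⟨s1086, ⟨s1087, ⟨s1088, ⟨s1089, ⟨s1090, ⟨s1091, ⟨s1092, ⟨s1093, ⟨s1094, ⟨s1095, ⟨s1096, trivial⟩⟩⟩⟩⟩⟩⟩⟩⟩⟩⟩⟩⟩⟩⟩⟩⟩⟩⟩⟩⟩⟩⟩⟩⟩⟩⟩⟩⟩⟩⟩⟩⟩⟩⟩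

theorem sa34 : ∀ d ∈ hs34, ∃ bl hs, segChk2 gd 102 d bl hs = true :=
  AllL.all (l := [h1097, h1098, h1099, h1100, h1101, h1102, h1103, h1104, h1105, h1106, h1107, h1108, h1109, h1110, h1111, h1112, h1113, h1114, h1115, h1116, h1117, h1118, h1119, h1120, h1121, h1122, h1123, h1124, h1125, h1126, h1127, h1128, h1129, h1130, h1131, h1132, h1133, h1134, h1135, h1136, h1137]) ⟨s1097, ⟨s1098, ⟨s1099, ⟨s1100, ⟨s1101, ⟨s1102, ⟨s1103, ⟨s1104, ⟨s1105, ⟨s1106, ⟨s1107, ⟨s1108, ⟨s1109, ⟨s1110, ⟨s1111, ⟨s1112, ⟨s1113, ⟨s1114, ⟨s1115, ⟨s1116, ⟨s1117, ⟨s1118, ⟨s1119, ⟨s1120, ⟨s1121, ⟨s1122, ⟨s1123, ⟨s1124, ⟨s1125, ⟨s1126, ⟨s1127, ⟨s1128, ⟨s1129, ⟨s1130, ⟨s1131, ⟨s1132, ⟨s1133, ⟨s1134, ⟨s1135, ⟨s1136, ⟨s1137,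 trivial⟩⟩⟩⟩⟩⟩⟩⟩⟩⟩⟩⟩⟩⟩⟩⟩⟩⟩⟩⟩⟩⟩⟩⟩⟩⟩⟩⟩⟩⟩⟩⟩⟩⟩⟩⟩⟩⟩⟩⟩⟩

theorem sa35 : ∀ d ∈ hs35, ∃ bl hs, segChk2 gd 102 d bl hs = true :=
  AllL.all (l := [h1138, h1139, h1140, h1141, h1142, h1143, h1144, h1145, h1146, h1147, h1148, h1149, h1150, h1151, h1152, h1153]) ⟨s1138, ⟨s1139, ⟨s1140, ⟨s1141, ⟨s1142, ⟨s1143, ⟨s1144, ⟨s1145, ⟨s1146, ⟨s1147, ⟨s1148, ⟨s1149, ⟨s1150, ⟨s1151, ⟨s1152, ⟨s1153, trivial⟩⟩⟩⟩⟩⟩⟩⟩⟩⟩⟩⟩⟩⟩⟩⟩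

theorem sa36 : ∀ d ∈ hs36, ∃ bl hs, segChk2 gd 102 d bl hs = true :=
  AllL.all (l := [h1154, h1155, h1156, h1157, h1158, h1159, h1160, h1161, h1162, h1163, h1164, h1165, h1166, h1167, h1168, h1169, h1170, h1171, h1172, h1173, h1174, h1175, h1176, h1177, h1178, h1179, h1180, h1181, h1182, h1183, h1184]) ⟨s1154, ⟨s1155, ⟨s1156, ⟨s1157, ⟨s1158, ⟨s1159, ⟨s1160, ⟨s1161, ⟨s1162, ⟨s1163, ⟨s1164, ⟨s1165, ⟨s1166, ⟨s1167, ⟨s1168, ⟨s1169, ⟨s1170, ⟨s1171, ⟨s1172, ⟨s1173, ⟨s1174, ⟨s1175, ⟨s1176, ⟨s1177, ⟨s1178, ⟨s1179, ⟨s1180, ⟨s1181, ⟨s1182, ⟨s1183, ⟨s1184, trivial⟩⟩⟩⟩⟩⟩⟩⟩⟩⟩⟩⟩⟩⟩⟩⟩⟩⟩⟩⟩⟩⟩⟩⟩⟩⟩⟩⟩⟩⟩⟩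

theorem sa37 : ∀ d ∈ hs37, ∃ bl hs, segChk2 gd 102 d bl hs = true :=
  AllL.all (l := [h1185, h1186, h1187, h1188, h1189, h1190, h1191, h1192, h1193, h1194, h1195, h1196, h1197, h1198, h1199, h1200, h1201, h1202, h1203, h1204, h1205]) ⟨s1185, ⟨s1186, ⟨s1187, ⟨s1188, ⟨s1189, ⟨s1190, ⟨s1191, ⟨s1192, ⟨s1193, ⟨s1194, ⟨s1195, ⟨s1196, ⟨s1197, ⟨s1198, ⟨s1199, ⟨s1200, ⟨s1201, ⟨s1202, ⟨s1203, ⟨s1204, ⟨s1205, trivial⟩⟩⟩⟩⟩⟩⟩⟩⟩⟩⟩⟩⟩⟩⟩⟩⟩⟩⟩⟩⟩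

theorem sa38 : ∀ d ∈ hs38, ∃ bl hs, segChk2 gd 102 d bl hs = true :=
  AllL.all (l := [h1206, h1207, h1208, h1209, h1210, h1211, h1212, h1213, h1214, h1215, h1216, h1217, h1218, h1219, h1220, h1221, h1222, h1223, h1224, h1225, h1226, h1227, h1228, h1229, h1230, h1231, h1232, h1233, h1234, h1235, h1236, h1237, h1238, h1239, h1240]) ⟨s1206, ⟨s1207, ⟨s1208, ⟨s1209, ⟨s1210, ⟨s1211, ⟨s1212, ⟨s1213, ⟨s1214, ⟨s1215, ⟨s1216, ⟨s1217, ⟨s1218, ⟨s1219, ⟨s1220, ⟨s1221, ⟨s1222, ⟨s1223, ⟨s1224, ⟨s1225, ⟨s1226, ⟨s1227, ⟨s1228, ⟨s1229, ⟨s1230, ⟨s1231, ⟨s1232, ⟨s1233, ⟨s1234, ⟨s1235, ⟨s1236, ⟨s1237, ⟨s1238, ⟨s1239, ⟨s1240, trivial⟩⟩⟩⟩⟩⟩⟩⟩⟩⟩⟩⟩⟩⟩⟩⟩⟩⟩⟩⟩⟩⟩⟩⟩⟩⟩⟩⟩⟩⟩⟩⟩⟩⟩⟩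

theorem sa39 : ∀ d ∈ hs39, ∃ bl hs, segChk2 gd 102 d bl hs = true :=
  AllL.all (l := [h1241, h1242, h1243, h1244, h1245, h1246, h1247, h1248, h1249, h1250, h1251, h1252, h1253, h1254, h1255, h1256, h1257, h1258, h1259, h1260, h1261, h1262, h1263, h1264, h1265]) ⟨s1241, ⟨s1242, ⟨s1243, ⟨s1244, ⟨s1245, ⟨s1246, ⟨s1247, ⟨s1248, ⟨s1249, ⟨s1250, ⟨s1251, ⟨s1252, ⟨s1253, ⟨s1254, ⟨s1255, ⟨s1256, ⟨s1257, ⟨s1258, ⟨s1259, ⟨s1260, ⟨s1261, ⟨s1262, ⟨s1263, ⟨s1264, ⟨s1265, trivial⟩⟩⟩⟩⟩⟩⟩⟩⟩⟩⟩⟩⟩⟩⟩⟩⟩⟩⟩⟩⟩⟩⟩⟩⟩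

theorem sa40 : ∀ d ∈ hs40, ∃ bl hs, segChk2 gd 102 d bl hs = true :=
  AllL.all (l := [h1266, h1267, h1268, h1269, h1270, h1271, h1272, h1273, h1274, h1275, h1276, h1277, h1278, h1279, h1280, h1281, h1282, h1283, h1284, h1285, h1286, h1287, h1288, h1289, h1290, h1291, h1292]) ⟨s1266, ⟨s1267, ⟨s1268, ⟨s1269, ⟨s1270, ⟨s1271, ⟨s1272, ⟨s1273, ⟨s1274, ⟨s1275, ⟨s1276, ⟨s1277, ⟨s1278, ⟨s1279, ⟨s1280, ⟨s1281, ⟨s1282, ⟨s1283, ⟨s1284, ⟨s1285, ⟨s1286, ⟨s1287, ⟨s1288, ⟨s1289, ⟨s1290, ⟨s1291, ⟨s1292, trivial⟩⟩⟩⟩⟩⟩⟩⟩⟩⟩⟩⟩⟩⟩⟩⟩⟩⟩⟩⟩⟩⟩⟩⟩⟩⟩⟩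

theorem sa41 : ∀ d ∈ hs41, ∃ bl hs, segChk2 gd 102 d bl hs = true :=
  AllL.all (l := [h1293, h1294, h1295, h1296, h1297, h1298, h1299, h1300, h1301, h1302, h1303, h1304, h1305, h1306, h1307, h1308, h1309, h1310, h1311, h1312, h1313, h1314, h1315, h1316, h1317, h1318, h1319, h1320, h1321, h1322, h1323, h1324, h1325, h1326, h1327, h1328, h1329]) ⟨s1293, ⟨s1294, ⟨s1295, ⟨s1296, ⟨s1297, ⟨s1298, ⟨s1299, ⟨s1300, ⟨s1301, ⟨s1302, ⟨s1303, ⟨s1304, ⟨s1305, ⟨s1306, ⟨s1307, ⟨s1308, ⟨s1309, ⟨s1310, ⟨s1311, ⟨s1312, ⟨s1313, ⟨s1314, ⟨s1315, ⟨s1316, ⟨s1317, ⟨s1318, ⟨s1319, ⟨s1320, ⟨s1321, ⟨s1322, ⟨s1323, ⟨s1324, ⟨s1325, ⟨s1326, ⟨s1327, ⟨s1328, ⟨s1329, trivial⟩⟩⟩⟩⟩⟩⟩⟩⟩⟩⟩⟩⟩⟩⟩⟩⟩⟩⟩⟩⟩⟩⟩⟩⟩⟩⟩⟩⟩⟩⟩⟩⟩⟩⟩⟩⟩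

theorem sa42 : ∀ d ∈ hs42, ∃ bl hs, segChk2 gd 102 d bl hs = true :=
  AllL.all (l := [h1330, h1331, h1332, h1333, h1334, h1335, h1336, h1337, h1338, h1339, h1340, h1341, h1342, h1343, h1344, h1345, h1346, h1347, h1348, h1349, h1350, h1351, h1352, h1353, h1354, h1355, h1356, h1357, h1358, h1359, h1360, h1361, h1362, h1363, h1364, h1365, h1366]) ⟨s1330, ⟨s1331, ⟨s1332, ⟨s1333, ⟨s1334, ⟨s1335, ⟨s1336, ⟨s1337, ⟨s1338, ⟨s1339, ⟨s1340, ⟨s1341, ⟨s1342, ⟨s1343, ⟨s1344, ⟨s1345, ⟨s1346, ⟨s1347, ⟨s1348, ⟨s1349, ⟨s1350, ⟨s1351, ⟨s1352, ⟨s1353, ⟨s1354, ⟨s1355, ⟨s1356, ⟨s1357, ⟨s1358, ⟨s1359, ⟨s1360, ⟨s1361, ⟨s1362, ⟨s1363, ⟨s1364, ⟨s1365, ⟨s1366, trivial⟩⟩⟩⟩⟩⟩⟩⟩⟩⟩⟩⟩⟩⟩⟩⟩⟩⟩⟩⟩⟩⟩⟩⟩⟩⟩⟩⟩⟩⟩⟩⟩⟩⟩⟩⟩⟩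

theorem sa43 : ∀ d ∈ hs43, ∃ bl hs, segChk2 gd 102 d bl hs = true :=
  AllL.all (l := [h1367, h1368, h1369, h1370, h1371, h1372, h1373, h1374, h1375, h1376, h1377, h1378, h1379, h1380, h1381, h1382, h1383, h1384, h1385, h1386, h1387, h1388, h1389, h1390, h1391, h1392, h1393, h1394, h1395, h1396, h1397, h1398, h1399, h1400, h1401, h1402, h1403, h1404, h1405, h1406, h1407]) ⟨s1367, ⟨s1368, ⟨s1369, ⟨s1370, ⟨s1371, ⟨s1372, ⟨s1373, ⟨s1374, ⟨s1375, ⟨s1376, ⟨s1377, ⟨s1378, ⟨s1379, ⟨s1380, ⟨s1381, ⟨s1382, ⟨s1383, ⟨s1384, ⟨s1385, ⟨s1386, ⟨s1387, ⟨s1388, ⟨s1389, ⟨s1390, ⟨s1391, ⟨s1392, ⟨s1393, ⟨s1394, ⟨s1395, ⟨s1396, ⟨s1397, ⟨s1398, ⟨s1399, ⟨s1400, ⟨s1401, ⟨s1402, ⟨s1403, ⟨s1404, ⟨s1405, ⟨s1406, ⟨s1407,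 trivial⟩⟩⟩⟩⟩⟩⟩⟩⟩⟩⟩⟩⟩⟩⟩⟩⟩⟩⟩⟩⟩⟩⟩⟩⟩⟩⟩⟩⟩⟩⟩⟩⟩⟩⟩⟩⟩⟩⟩⟩⟩

theorem sa44 : ∀ d ∈ hs44, ∃ bl hs, segChk2 gd 102 d bl hs = true :=
  AllL.all (l := [h1408, h1409, h1410, h1411, h1412, h1413, h1414, h1415, h1416, h1417, h1418, h1419, h1420, h1421, h1422, h1423, h1424, h1425, h1426, h1427, h1428, h1429, h1430, h1431, h1432, h1433, h1434, h1435, h1436, h1437, h1438, h1439, h1440, h1441, h1442, h1443, h1444, h1445, h1446, h1447, h1448, h1449, h1450, h1451]) ⟨s1408, ⟨s1409, ⟨s1410, ⟨s1411, ⟨s1412, ⟨s1413, ⟨s1414, ⟨s1415, ⟨s1416, ⟨s1417, ⟨s1418, ⟨s1419, ⟨s1420, ⟨s1421, ⟨s1422, ⟨s1423, ⟨s1424, ⟨s1425, ⟨s1426, ⟨s1427, ⟨s1428, ⟨s1429, ⟨s1430, ⟨s1431, ⟨s1432, ⟨s1433, ⟨s1434, ⟨s1435, ⟨s1436, ⟨s1437, ⟨s1438, ⟨s1439,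 ⟨s1440, ⟨s1441, ⟨s1442, ⟨s1443, ⟨s1444, ⟨s1445, ⟨s1446, ⟨s1447, ⟨s1448, ⟨s1449, ⟨s1450, ⟨s1451, trivial⟩⟩⟩⟩⟩⟩⟩⟩⟩⟩⟩⟩⟩⟩⟩⟩⟩⟩⟩⟩⟩⟩⟩⟩⟩⟩⟩⟩⟩⟩⟩⟩⟩⟩⟩⟩⟩⟩⟩⟩⟩⟩⟩⟩

theorem sa45 : ∀ d ∈ hs45, ∃ bl hs, segChk2 gd 102 d bl hs = true :=
  AllL.all (l := [h1452, h1453, h1454, h1455, h1456, h1457, h1458, h1459, h1460, h1461, h1462, h1463, h1464, h1465, h1466, h1467, h1468, h1469, h1470, h1471, h1472, h1473, h1474, h1475, h1476, h1477, h1478, h1479, h1480, h1481, h1482, h1483, h1484, h1485, h1486, h1487, h1488, h1489, h1490, h1491, h1492]) ⟨s1452, ⟨s1453, ⟨s1454, ⟨s1455, ⟨s1456, ⟨s1457, ⟨s1458, ⟨s1459, ⟨s1460, ⟨s1461, ⟨s1462, ⟨s1463, ⟨s1464, ⟨s1465, ⟨s1466, ⟨s1467, ⟨s1468, ⟨s1469, ⟨s1470, ⟨s1471, ⟨s1472, ⟨s1473, ⟨s1474,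 ⟨s1475, ⟨s1476, ⟨s1477, ⟨s1478, ⟨s1479, ⟨s1480, ⟨s1481, ⟨s1482, ⟨s1483, ⟨s1484, ⟨s1485, ⟨s1486, ⟨s1487, ⟨s1488, ⟨s1489, ⟨s1490, ⟨s1491, ⟨s1492, trivial⟩⟩⟩⟩⟩⟩⟩⟩⟩⟩⟩⟩⟩⟩⟩⟩⟩⟩⟩⟩⟩⟩⟩⟩⟩⟩⟩⟩⟩⟩⟩⟩⟩⟩⟩⟩⟩⟩⟩⟩⟩

theorem sa46 : ∀ d ∈ hs46, ∃ bl hs, segChk2 gd 102 d bl hs = true :=
  AllL.all (l := [h1493, h1494, h1495, h1496, h1497, h1498, h1499, h1500, h1501, h1502, h1503, h1504, h1505, h1506, h1507, h1508, h1509, h1510, h1511, h1512, h1513, h1514, h1515, h1516, h1517, h1518, h1519, h1520, h1521, h1522, h1523, h1524, h1525, h1526, h1527, h1528, h1529, h1530, h1531, h1532, h1533, h1534]) ⟨s1493, ⟨s1494, ⟨s1495, ⟨s1496, ⟨s1497, ⟨s1498, ⟨s1499, ⟨s1500, ⟨s1501, ⟨s1502, ⟨s1503, ⟨s1504, ⟨s1505, ⟨s1506, ⟨s1507, ⟨s1508,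 ⟨s1509, ⟨s1510, ⟨s1511, ⟨s1512, ⟨s1513, ⟨s1514, ⟨s1515, ⟨s1516, ⟨s1517, ⟨s1518, ⟨s1519, ⟨s1520, ⟨s1521, ⟨s1522, ⟨s1523, ⟨s1524, ⟨s1525, ⟨s1526, ⟨s1527, ⟨s1528, ⟨s1529, ⟨s1530, ⟨s1531, ⟨s1532, ⟨s1533, ⟨s1534, trivial⟩⟩⟩⟩⟩⟩⟩⟩⟩⟩⟩⟩⟩⟩⟩⟩⟩⟩⟩⟩⟩⟩⟩⟩⟩⟩⟩⟩⟩⟩⟩⟩⟩⟩⟩⟩⟩⟩⟩⟩⟩⟩

theorem sa47 : ∀ d ∈ hs47, ∃ bl hs, segChk2 gd 102 d bl hs = true :=
  AllL.all (l := [h1535, h1536, h1537, h1538, h1539, h1540, h1541, h1542, h1543, h1544, h1545, h1546, h1547, h1548, h1549, h1550, h1551, h1552, h1553, h1554, h1555, h1556, h1557, h1558, h1559, h1560, h1561, h1562, h1563, h1564, h1565, h1566, h1567, h1568, h1569, h1570, h1571, h1572, h1573, h1574, h1575, h1576, h1577]) ⟨s1535, ⟨s1536, ⟨s1537, ⟨s1538, ⟨s1539, ⟨s1540, ⟨s1541,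 ⟨s1542, ⟨s1543, ⟨s1544, ⟨s1545, ⟨s1546, ⟨s1547, ⟨s1548, ⟨s1549, ⟨s1550, ⟨s1551, ⟨s1552, ⟨s1553, ⟨s1554, ⟨s1555, ⟨s1556, ⟨s1557, ⟨s1558, ⟨s1559, ⟨s1560, ⟨s1561, ⟨s1562, ⟨s1563, ⟨s1564, ⟨s1565, ⟨s1566, ⟨s1567, ⟨s1568, ⟨s1569, ⟨s1570, ⟨s1571, ⟨s1572, ⟨s1573, ⟨s1574, ⟨s1575, ⟨s1576, ⟨s1577, trivial⟩⟩⟩⟩⟩⟩⟩⟩⟩⟩⟩⟩⟩⟩⟩⟩⟩⟩⟩⟩⟩⟩⟩⟩⟩⟩⟩⟩⟩⟩⟩⟩⟩⟩⟩⟩⟩⟩⟩⟩⟩⟩⟩

theorem sa : ∀ d ∈ segs, ∃ bl hs, segChk2 gd 102 d bl hs = true :=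
  all_append sa0 (all_append sa1 (all_append sa2 (all_append sa3 (all_append sa4 (all_append sa5 (all_append sa6 (all_append sa7 (all_append sa8 (all_append sa9 (all_append sa10 (all_append sa11 (all_append sa12 (all_append sa13 (all_append sa14 (all_append sa15 (all_append sa16 (all_append sa17 (all_append sa18 (all_append sa19 (all_append sa20 (all_append sa21 (all_append sa22 (all_append sa23 (all_append sa24 (all_append sa25 (all_append sa26 (all_append sa27 (all_append sa28 (all_append sa29 (all_append sa30 (all_append sa31 (all_append sa32 (all_append sa33 (all_append sa34 (all_append sa35 (all_append sa36 (all_append sa37 (all_append sa38 (all_append sa39 (all_append sa40 (all_append sa41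 (all_append sa42 (all_append sa43 (all_append sa44 (all_append sa45 (all_append sa46 (sa47)))))))))))))))))))))))))))))))))))))))))))))))

theorem ka : ∀ j < 102, ∃ nG G Hs, chunk2 segs j nG G Hs (tt j) = true :=
  UpTo.all ⟨k101, ⟨k100, ⟨k99, ⟨k98, ⟨k97, ⟨k96, ⟨k95, ⟨k94, ⟨k93, ⟨k92, ⟨k91, ⟨k90, ⟨k89, ⟨k88, ⟨k87, ⟨k86, ⟨k85, ⟨k84, ⟨k83, ⟨k82, ⟨k81, ⟨k80, ⟨k79, ⟨k78, ⟨k77, ⟨k76, ⟨k75, ⟨k74, ⟨k73, ⟨k72, ⟨k71, ⟨k70, ⟨k69, ⟨k68, ⟨k67, ⟨k66, ⟨k65, ⟨k64, ⟨k63, ⟨k62, ⟨k61, ⟨k60, ⟨k59, ⟨k58, ⟨k57, ⟨k56, ⟨k55, ⟨k54, ⟨k53, ⟨k52, ⟨k51, ⟨k50, ⟨k49, ⟨k48, ⟨k47, ⟨k46, ⟨k45, ⟨k44, ⟨k43, ⟨k42, ⟨k41, ⟨k40, ⟨k39, ⟨k38, ⟨k37, ⟨k36, ⟨k35, ⟨k34, ⟨k33, ⟨k32, ⟨k31, ⟨k30, ⟨k29, ⟨k28, ⟨k27, ⟨k26, ⟨k25, ⟨k24, ⟨k23, ⟨k22,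 ⟨k21, ⟨k20, ⟨k19, ⟨k18, ⟨k17, ⟨k16, ⟨k15, ⟨k14, ⟨k13, ⟨k12, ⟨k11, ⟨k10, ⟨k9, ⟨k8, ⟨k7, ⟨k6, ⟨k5, ⟨k4, ⟨k3, ⟨k2, ⟨k1, ⟨k0, trivial⟩⟩⟩⟩⟩⟩⟩⟩⟩⟩⟩⟩⟩⟩⟩⟩⟩⟩⟩⟩⟩⟩⟩⟩⟩⟩⟩⟩⟩⟩⟩⟩⟩⟩⟩⟩⟩⟩⟩⟩⟩⟩⟩⟩⟩⟩⟩⟩⟩⟩⟩⟩⟩⟩⟩⟩⟩⟩⟩⟩⟩⟩⟩⟩⟩⟩⟩⟩⟩⟩⟩⟩⟩⟩⟩⟩⟩⟩⟩⟩⟩⟩⟩⟩⟩⟩⟩⟩⟩⟩⟩⟩⟩⟩⟩⟩⟩⟩⟩⟩⟩⟩

theorem no (T : Ctx (Fin (0 + 4))) : False :=
  T.final2 gok (Fintype.card_fin _) sa ka (by decide +kernel) (by decide +kernel) (by decide +kernel)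

end Vale.Agent.P355.Th
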