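import Mathlib.Analysis.InnerProductSpace.PiL2

/-! Three mutually unbiased bases of the six-dimensional space. -/

namespace Vale.Agent.P355.Three

open scoped InnerProductSpace

/-- the number `(a + b √3) + (c + d √3) i` -/
noncomputable def ev (q : ℤ × ℤ × ℤ × ℤ) : ℂ := ⟨q.1 + q.2.1 * √3, q.2.2.1 + q.2.2.2 * √3⟩

/-- conjugate of the first times the second -/
def cm (p q : ℤ × ℤ × ℤ × ℤ) : ℤ × ℤ × ℤ × ℤ :=
  (p.1 * q.1 + 3 * p.2.1 * q.2.1 + p.2.2.1 * q.2.2.1 + 3 * p.2.2.2 * q.2.2.2,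
    p.1 * q.2.1 + p.2.1 * q.1 + p.2.2.1 * q.2.2.2 + p.2.2.2 * q.2.2.1,
    p.1 * q.2.2.1 + 3 * p.2.1 * q.2.2.2 - p.2.2.1 * q.1 - 3 * p.2.2.2 * q.2.1,
    p.1 * q.2.2.2 + p.2.1 * q.2.2.1 - p.2.2.1 * q.2.1 - p.2.2.2 * q.1)

theorem s3 : √3 * √3 = (3 : ℝ) := Real.mul_self_sqrt (by norm_num)

theorem ev_cm (p q : ℤ × ℤ × ℤ × ℤ) : ev (cm p q) = ev q * (starRingEnd ℂ) (ev p) := by
  apply Complex.ext
  · simp only [ev, cm, Complex.mul_re, Complex.conj_re, Complex.conj_im]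
    push_cast
    linear_combination (-(p.2.1 : ℝ) * q.2.1 - p.2.2.2 * q.2.2.2) * s3
  · simp only [ev, cm, Complex.mul_im, Complex.conj_re, Complex.conj_im]
    push_cast
    linear_combination (-(p.2.1 : ℝ) * q.2.2.2 + p.2.2.2 * q.2.1) * s3

theorem ev_add (p q : ℤ × ℤ × ℤ × ℤ) : ev (p + q) = ev p + ev q := by
  apply Complex.ext <;> simp [ev] <;> ring

theorem ev_int (n : ℤ) : ev (n, 0, 0, 0) = n := by
  apply Complex.ext <;> simp [ev]

theorem ev_norm {q : ℤ × ℤ × ℤ × ℤ} {n : ℤ} (h : cm q q = (n, 0, 0, 0)) : ‖ev q‖ ^ 2 = n := by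
  have := ev_cm q q
  rw [h, ev_int, Complex.mul_conj'] at this
  exact_mod_cast this.symm

/-- twice the twelfth roots of unity -/
def rt (k : ℕ) : ℤ × ℤ × ℤ × ℤ :=
  [(2, 0, 0, 0), (0, 1, 1, 0), (1, 0, 0, 1), (0, 0, 2, 0), (-1, 0, 0, 1), (0, -1, 1, 0),
    (-2, 0, 0, 0), (0, -1, -1, 0), (-1, 0, 0, -1), (0, 0, -2, 0), (1, 0, 0, -1),
    (0, 1, -1, 0)].getD (k % 12) 0

def ent (t : ℕ) (a r : Fin 6) : ℤ × ℤ × ℤ × ℤ :=
  rt (2 * a * r + t * (3 * (r % 2) + 4 * (r % 3) ^ 2))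

def ip (t u : ℕ) (a b : Fin 6) : ℤ × ℤ × ℤ × ℤ :=
  cm (ent t a 0) (ent u b 0) + cm (ent t a 1) (ent u b 1) + cm (ent t a 2) (ent u b 2) +
    cm (ent t a 3) (ent u b 3) + cm (ent t a 4) (ent u b 4) + cm (ent t a 5) (ent u b 5)

noncomputable def vec (t : ℕ) (a : Fin 6) : EuclideanSpace ℂ (Fin 6) :=
  WithLp.toLp 2 fun r => ((√24 : ℝ) : ℂ)⁻¹ * ev (ent t a r)

theorem s24 : ((√24 : ℝ) : ℂ)⁻¹ * ((√24 : ℝ) : ℂ)⁻¹ = 24⁻¹ := by
  rw [← mul_inv, ← Complex.ofReal_mul, Real.mul_self_sqrt (by norm_num)]; rfl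

theorem inner_vec (t u : ℕ) (a b : Fin 6) : ⟪vec t a, vec u b⟫_ℂ = 24⁻¹ * ev (ip t u a b) := by
  simp only [vec, PiLp.inner_apply, RCLike.inner_apply, Fin.sum_univ_six, ip, ev_add, ev_cm,
    map_mul, map_inv₀, Complex.conj_ofReal, ← s24]
  ring

theorem ip_same : ∀ t < 2, ∀ a b, ip t t a b = if a = b then (24, 0, 0, 0) else (0, 0, 0, 0) := by
  decide +kernel

theorem ip_diff : ∀ a b, cm (ip 0 1 a b) (ip 0 1 a b) = (96, 0, 0, 0) := by decide +kernel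

theorem ent_norm : ∀ t < 2, ∀ a b, cm (ent t a b) (ent t a b) = (4, 0, 0, 0) := by
  decide +kernel

theorem orth {t : ℕ} (ht : t < 2) : Orthonormal ℂ (vec t) := by
  rw [orthonormal_iff_ite]
  intro a b
  rw [inner_vec, ip_same t ht]
  split_ifs
  · rw [ev_int]; norm_num
  · rw [ev_int]; norm_num

noncomputable def bas {t : ℕ} (ht : t < 2) :
    OrthonormalBasis (Fin 6) ℂ (EuclideanSpace ℂ (Fin 6)) :=
  (basisOfOrthonormalOfCardEqFinrank (orth ht) (by simp)).toOrthonormalBasis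
    (by simpa using orth ht)

theorem bas_eq {t : ℕ} (ht : t < 2) (a : Fin 6) : bas ht a = vec t a := by
  simp [bas]

theorem std {t : ℕ} (ht : t < 2) (a b : Fin 6) :
    ‖⟪EuclideanSpace.basisFun (Fin 6) ℂ a, bas ht b⟫_ℂ‖ ^ 2 = 1 / 6 := by
  rw [EuclideanSpace.basisFun_inner, bas_eq, vec]
  simp only [norm_mul, mul_pow, ev_norm (ent_norm t ht b a), norm_inv, Complex.norm_real, inv_pow,
    Real.norm_eq_abs, sq_abs]
  rw [Real.sq_sqrt (by norm_num)]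
  norm_num

theorem mix (a b : Fin 6) :
    ‖⟪bas (t := 0) (by norm_num) a, bas (t := 1) (by norm_num) b⟫_ℂ‖ ^ 2 = 1 / 6 := by
  rw [bas_eq, bas_eq, inner_vec, norm_mul, mul_pow, ev_norm (ip_diff a b)]
  norm_num

theorem three : ∃ B : Fin 3 → OrthonormalBasis (Fin 6) ℂ (EuclideanSpace ℂ (Fin 6)),
    ∀ i j, i ≠ j → ∀ a b, ‖⟪B i a, B j b⟫_ℂ‖ ^ 2 = 1 / 6 := by
  refine ⟨![EuclideanSpace.basisFun (Fin 6) ℂ, bas (t := 0) (by norm_num),
    bas (t := 1) (by norm_num)], fun i j hij a b => ?_⟩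
  fin_cases i <;> fin_cases j
  · exact absurd rfl hij
  · exact std (t := 0) (by norm_num) a b
  · exact std (t := 1) (by norm_num) a b
  · rw [norm_inner_symm]; exact std (t := 0) (by norm_num) b a
  · exact absurd rfl hij
  · exact mix a b
  · rw [norm_inner_symm]; exact std (t := 1) (by norm_num) b a
  · rw [norm_inner_symm]; exact mix b a
  · exact absurd rfl hij

end Vale.Agent.P355.Three
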